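import Crest.Agent.R192B.D2

/-! Row 192: `AFE` (estimates for the escape part at one scale). -/

set_option autoImplicit false

open MeasureTheory Set
open scoped ContDiff

namespace Crest.Agent.R192B

namespace AFE

theorem cs (a b : ℝ → ℝ) (L k k' τ : ℝ) (hL : 0 ≤ L) (hk : 0 < k) (hk' : 0 < k')
    (ha : Continuous a) (hb : Continuous b) (h1 : (∫ s in (0 : ℝ)..L, a s ^ 2) ≤ 10 * τ / k)
    (h2 : (∫ s in (0 : ℝ)..L, b s ^ 2) ≤ 2 * k' * τ) :
    (∫ s in (0 : ℝ)..L, a s * b s) ≤ τ * √(20 * k' / k) := by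
  set c := √(20 * k' / k) with hc
  have hc0 : 0 < c := Real.sqrt_pos.2 (by positivity)
  have hc2 : c ^ 2 = 20 * k' / k := Real.sq_sqrt (by positivity)
  have hl : 0 < c * k / 10 := by positivity
  have h3 : (∫ s in (0 : ℝ)..L, a s * b s) ≤
      ∫ s in (0 : ℝ)..L, ((c * k / 10) / 2 * a s ^ 2 + (2 * (c * k / 10))⁻¹ * b s ^ 2) := by
    refine intervalIntegral.integral_mono hL ((ha.mul hb).intervalIntegrable _ _)
      (Continuous.intervalIntegrable (by fun_prop) _ _) fun s => ?_
    generalize c * k / 10 = l at hl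
    have : 0 ≤ (2 * l)⁻¹ * (l * a s - b s) ^ 2 := by positivity
    have e : l / 2 * a s ^ 2 + (2 * l)⁻¹ * b s ^ 2 - a s * b s =
        (2 * l)⁻¹ * (l * a s - b s) ^ 2 := by field_simp; ring
    show a s * b s ≤ l / 2 * a s ^ 2 + (2 * l)⁻¹ * b s ^ 2
    linarith
  rw [intervalIntegral.integral_add (Continuous.intervalIntegrable (by fun_prop) _ _)
    (Continuous.intervalIntegrable (by fun_prop) _ _), intervalIntegral.integral_const_mul,
    intervalIntegral.integral_const_mul] at h3
  have h4 : (c * k / 10) / 2 * (∫ s in (0 : ℝ)..L, a s ^ 2) ≤ (c * k / 10) / 2 * (10 * τ / k) :=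
    mul_le_mul_of_nonneg_left h1 (by positivity)
  have h5 : (2 * (c * k / 10))⁻¹ * (∫ s in (0 : ℝ)..L, b s ^ 2) ≤
      (2 * (c * k / 10))⁻¹ * (2 * k' * τ) := mul_le_mul_of_nonneg_left h2 (by positivity)
  have e1 : (c * k / 10) / 2 * (10 * τ / k) = τ * c / 2 := by field_simp
  have e2 : (2 * (c * k / 10))⁻¹ * (2 * k' * τ) = τ * c / 2 := by
    have : k' = c ^ 2 * k / 20 := by rw [hc2]; field_simp
    rw [this]
    field_simp
    ring
  linarith

end AFE

theorem afe : CSStmt → LINStmt → KINStmt → FRMDStmt → DFAStmt → PROFStmt → UFGStmt → AFEStmt := by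
  intro hCS hLIN hKIN hFR hDF hPR hUF Z d M D n X L k k' K K' p hM hX hXD hk hkk hL hK hK' hp t ht
  have hk' : 0 < k' := hk.trans_le hkk
  have hL0 : 0 ≤ L := by linarith
  have hX0 : (0 : ℝ) < X := by exact_mod_cast (by omega : 0 < X)
  have hX1 : (1 : ℝ) ≤ X := by exact_mod_cast (by omega : 1 ≤ X)
  obtain ⟨mK, aKK, hH, -⟩ := hKIN L k K hk (by linarith) hK
  obtain ⟨mK', aKK', -, -⟩ := hKIN L k' K' hk' hL hK'
  obtain ⟨sH, -, dH, bH, bKK⟩ := hH k' K' hkk hL hK'
  obtain ⟨B, -, -, hP⟩ := hPR Z d M D n p hM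
  obtain ⟨-, g1, P1⟩ := hP L K hL0 hK.smooth mK hK.per hp
  obtain ⟨-, g2, P2⟩ := hP L K' hL0 hK'.smooth mK' hK'.per hp
  obtain ⟨u1, u2, u3, u4, u5, u6, u7⟩ := hUF Z d M D n X _ _ B t (P1 t ht) (P2 t ht) hX hXD
  set U := UF (4 * M) X (fK d K p) (fK d K' p) with hU
  set G := GK d K K' X p with hG
  obtain ⟨F1, F2⟩ := hFR n
  obtain ⟨D1, -, -, -, -, -, D7, D8⟩ := hDF n
  have hGl := fun z => (hLIN n (HK K K') sH).1 0 (fun j => (d z (p j) : ℝ) / X)
  have sG : ∀ z, Sm (G z) := fun z => (hGl z).1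
  have hstep : ∀ z (l : Fin n), |(d z (p l.succ) : ℝ) / X - (d z (p l.castSucc) : ℝ) / X| ≤ 1 / X := by
    intro z l
    rw [← sub_div, abs_div, abs_of_pos hX0]
    refine div_le_div_of_nonneg_right ?_ hX0.le
    have a := hp.2 l
    have b := hM.tri z (p l.castSucc) (p l.succ)
    have c := hM.tri z (p l.succ) (p l.castSucc)
    rw [hM.symm (p l.succ)] at c
    have b' : (d z (p l.succ) : ℝ) ≤ d z (p l.castSucc) + 1 := by exact_mod_cast (by omega)
    have c' : (d z (p l.castSucc) : ℝ) ≤ d z (p l.succ) + 1 := by exact_mod_cast (by omega)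
    rw [abs_le]
    constructor <;> linarith
  have grG : ∀ z s l, gr (G z) s t l =
      -((d z (p l.succ) : ℝ) / X - (d z (p l.castSucc) : ℝ) / X) * (K (s - t l) - K' (s - t l)) := by
    intro z s l
    rw [← dH]
    exact (hGl z).2.2.1 s t l
  have nG : ∀ z (T : Finset (Fin n)) s, nT T (gr (G z) s t) ≤ 1 / X * bK K K' T t s := by
    intro z T s
    have := (hGl z).2.2.2.2 T (1 / X) (by positivity) (hstep z) s t
    have e : aK (HK K K') T t s = bK K K' T t s := by
      unfold aK bK
      simp only [dH]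
    rw [e] at this
    exact this
  have hAF : AF d L (4 * M) X K K' p = fun t => ∑ z ∈ B, frm L (U z) (G z) t := by
    funext t'
    unfold AF
    apply finsum_eq_sum_of_support_subset
    intro z hz
    by_contra hzB
    apply hz
    funext l
    have h0 : ∀ s, UF (4 * M) X (fK d K p) (fK d K' p) z s t' = 0 := fun s => u2 z hzB s t'
    simp [frm, h0]
  have cU : ∀ z, Continuous fun s => U z s t := fun z => (F1 _ (u1 z) t).1
  have cgU : ∀ z, Continuous fun s => gr (U z) s t := fun z => (F1 _ (u1 z) t).2.1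
  have cgG : ∀ z, Continuous fun s => gr (G z) s t := fun z => (F1 _ (sG z) t).2.1
  have cUG : ∀ z l, Continuous fun s => U z s t * gr (G z) s t l := fun z l =>
    (cU z).mul ((continuous_apply l).comp (cgG z))
  have hval : ∀ l, AF d L (4 * M) X K K' p t l =
      ∫ s in (0 : ℝ)..L, ∑ z ∈ B, U z s t * gr (G z) s t l := by
    intro l
    rw [hAF, intervalIntegral.integral_finsetSum fun z _ => (cUG z l).intervalIntegrable _ _]
    simp only [Finset.sum_apply]
    rfl
  refine ⟨?_, fun l => ?_, fun T ρ hρ => ?_, fun s => ∑ z ∈ B, U z s t,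
    continuous_finsetSum _ fun z _ => cU z, fun s => Finset.sum_nonneg fun z _ => u3 z s t, ?_,
    fun s h1 h2 => u6 s h1 h2⟩
  · rw [hAF]
    exact ContDiff.sum fun z _ => (F2 L _ _ (u1 z) (sG z)).1
  · rw [hval, ← Real.norm_eq_abs]
    refine (intervalIntegral.norm_integral_le_of_norm_le_const (C := 1) fun s _ => ?_).trans ?_
    · refine (norm_sum_le _ _).trans (le_trans (Finset.sum_le_sum fun z _ => ?_) (u4 s t))
      rw [norm_mul, Real.norm_eq_abs, abs_of_nonneg (u3 z s t), Real.norm_eq_abs, grG, abs_mul,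
        abs_neg]
      refine mul_le_of_le_one_right (u3 z s t) ?_
      refine mul_le_one₀ ((hstep z l).trans ?_) (abs_nonneg _) (bH _)
      exact (div_le_one hX0).2 hX1
    · simp [abs_of_nonneg hL0]
  · have cρ : ∀ z, Continuous fun s => ρ (io (gr (U z) s t)) * ρ (io (gr (G z) s t)) := fun z =>
      ((D7 ρ).comp (cgU z)).mul ((D7 ρ).comp (cgG z))
    obtain ⟨ca, ia, -⟩ := aKK n T t
    obtain ⟨ca', ia', -⟩ := aKK' n T t
    obtain ⟨cb, ib⟩ := bKK n T t
    have n0 := (D8 T).2.1
    have hcS : 0 ≤ cS := le_trans zero_le_one hCS.1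
    rw [hAF, D1 Z B _ t fun z _ => (F2 L _ _ (u1 z) (sG z)).1, map_sum,
      Finset.sum_congr rfl fun z _ => (F2 L _ _ (u1 z) (sG z)).2 ρ t,
      ← intervalIntegral.integral_finsetSum fun z _ => (cρ z).intervalIntegrable _ _]
    refine (intervalIntegral.norm_integral_le_of_norm_le (g := fun s =>
      (8 * M + 2 * cS) / X * (aK K T t s * bK K K' T t s) +
        cS / X * (aK K' T t s * bK K K' T t s)) hL0 (ae_of_all _ fun s _ => ?_)
      (Continuous.intervalIntegrable (by fun_prop) _ _)).trans ?_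
    · have b0 : 0 ≤ bK K K' T t s := n0 _
      have h1 : ∀ z ∈ B, ‖ρ (io (gr (U z) s t)) * ρ (io (gr (G z) s t))‖ ≤
          nT T (gr (U z) s t) * (1 / X * bK K K' T t s) := fun z _ =>
        (norm_mul_le _ _).trans (mul_le_mul (hρ.1 _) ((hρ.1 _).trans (nG z T s)) (norm_nonneg _)
          (n0 _))
      refine (norm_sum_le _ _).trans ((Finset.sum_le_sum h1).trans ?_)
      rw [← Finset.sum_mul]
      have h2 := u7 T s _ _ (n0 _) (n0 _) (fun z => g1 z T s t) (fun z => g2 z T s t)
      refine (mul_le_mul_of_nonneg_right h2 (by positivity)).trans (le_of_eq ?_)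
      unfold aK
      ring
    · rw [intervalIntegral.integral_add (Continuous.intervalIntegrable (by fun_prop) _ _)
        (Continuous.intervalIntegrable (by fun_prop) _ _), intervalIntegral.integral_const_mul,
        intervalIntegral.integral_const_mul]
      have h1 := AFE.cs _ _ L k k' T.card hL0 hk hk' ca cb ia ib
      have h2 := AFE.cs _ _ L k k' T.card hL0 hk hk' ca' cb
        (ia'.trans (div_le_div_of_nonneg_left (by positivity) hk hkk)) ib
      refine (add_le_add (mul_le_mul_of_nonneg_left h1 (by positivity))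
        (mul_le_mul_of_nonneg_left h2 (by positivity))).trans (le_of_eq ?_)
      ring
  · simp only [hval]
    rw [← intervalIntegral.integral_finsetSum fun l _ =>
      (continuous_finsetSum _ fun z _ => cUG z l).intervalIntegrable _ _]
    refine intervalIntegral.integral_mono hL0
      ((continuous_finsetSum _ fun z _ => cU z).intervalIntegrable _ _)
      ((continuous_finsetSum _ fun l _ =>
        continuous_finsetSum _ fun z _ => cUG z l).intervalIntegrable _ _) fun s => ?_
    show ∑ z ∈ B, U z s t ≤ ∑ l, ∑ z ∈ B, U z s t * gr (G z) s t l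
    rw [Finset.sum_comm]
    refine Finset.sum_le_sum fun z _ => ?_
    rw [← Finset.mul_sum]
    by_cases h0 : U z s t = 0
    · rw [h0, zero_mul]
    · refine le_mul_of_one_le_right (u3 z s t) ?_
      have h1 := u5 z s t h0
      have e : ∑ l, gr (G z) s t l = (fK d K' p z s t - fK d K p z s t) / X := by
        simp only [grG, fK, lin]
        rw [add_sub_add_left_eq_sub, ← Finset.sum_sub_distrib, Finset.sum_div]
        refine Finset.sum_congr rfl fun l _ => ?_
        ring
      rw [e]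
      exact (one_le_div hX0).2 h1

end Crest.Agent.R192B
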