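import Crest.Agent.R192B.D1

/-! Row 192, task ALG: telescoping. -/

set_option autoImplicit false

open Polynomial

namespace Crest.Agent.R192B

open Crest.Agent.R192 (Mat nrm trC nrm_nonneg)

namespace ALG

variable {G : Type} [Group G] {q : ℕ}

theorem fin3 (c : Fin 3) : c = 0 ∨ c = 1 ∨ c = 2 := by revert c; decide

theorem ok_of {S : Finset G} {a : Mat G q} (hS : Supp S a) {C : Set G} {n : ℕ} (τ : Fin n → Fin 3)
    (x : Fin n → G) (h1 : ∀ i, cf (wt a τ i) (x i) ≠ 0) (h2 : (List.ofFn x).prod ∈ C) :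
    Ok S C x := by
  refine ⟨fun i => ?_, h2⟩
  have h := h1 i
  unfold wt at h
  generalize τ i = c at h
  fin_cases c
  · exact (hS _).1 h
  · exact (hS _).2 h
  · refine (hS _).1 fun h0 => h ?_
    ext k l
    have := congrFun (congrFun h0 k) l
    simp only [cf, Matrix.zero_apply] at this
    simp [cf, this]

theorem pr_add (hP : PRStmt) (C : ConjClasses G) {n : ℕ} (w : Fin n → Mat G q)
    (Φ Ψ : (Fin n → G) → ℝ) :
    pr C.carrier w (fun x => Φ x + Ψ x) = pr C.carrier w Φ + pr C.carrier w Ψ := by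
  have := (hP G q C n).2.2.2.1 w Bool Finset.univ (fun _ => 1) (fun b => if b then Φ else Ψ)
  simpa using this

theorem pr_sum (hP : PRStmt) (C : ConjClasses G) {n : ℕ} (w : Fin n → Mat G q) (s : Finset (Fin n))
    (Φ : Fin n → (Fin n → G) → ℝ) :
    pr C.carrier w (fun x => ∑ i ∈ s, Φ i x) = ∑ i ∈ s, pr C.carrier w (Φ i) := by
  have := (hP G q C n).2.2.2.1 w (Fin n) s (fun _ => 1) Φ
  simpa using this

theorem dg_ne {n : ℕ} (τ : Fin (n + 1) → Fin 3) : ∑ i, dg τ i ≠ 0 := by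
  refine (Finset.sum_pos (fun i _ => ?_) Finset.univ_nonempty).ne'
  unfold dg
  rcases fin3 (τ i) with h | h | h <;> rw [h] <;> simp

theorem compl_split {n : ℕ} (τ : Fin n → Fin 3) (F : Fin n → ℂ) :
    ∑ i ∈ (aset τ)ᶜ, F i = ∑ i ∈ Finset.univ.filter (fun i => τ i = 1), F i +
      ∑ i ∈ Finset.univ.filter (fun i => τ i = 2), F i := by
  unfold aset
  rw [Finset.compl_filter, Finset.sum_filter, Finset.sum_filter, Finset.sum_filter,
    ← Finset.sum_add_distrib]
  refine Finset.sum_congr rfl fun i _ => ?_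
  rcases fin3 (τ i) with h | h | h <;> rw [h]
  · rw [if_neg (by decide), if_neg (by decide), if_neg (by decide), add_zero]
  · rw [if_pos (by decide), if_pos rfl, if_neg (by decide), add_zero]
  · rw [if_pos (by decide), if_neg (by decide), if_pos rfl, zero_add]

theorem split (hP : PRStmt) {S : Finset G} {C : ConjClasses G} {N : ℕ} {K η : ℝ}
    (Y : Sys S C.carrier N K η) {a : Mat G q} (hS : Supp S a) (j n : ℕ) (hn : n + 1 ≤ 3 * N) :
    ∑ τ ∈ Wd (n + 1) (2 * j + 1), pr C.carrier (wt a τ) (fun x => Y.X j (n + 1) x (aset τ)) =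
      ∑ τ ∈ Wd (n + 1) (2 * j + 1),
        pr C.carrier (wt a τ) (fun x => Y.D j (n + 1) x (dg τ) (aset τ)) +
      Fs Y a j (n + 1) 1 + Fs Y a j (n + 1) 2 := by
  unfold Fs
  rw [← Finset.sum_add_distrib, ← Finset.sum_add_distrib]
  refine Finset.sum_congr rfl fun τ _ => ?_
  rw [add_assoc, ← compl_split τ
    (fun i => pr C.carrier (wt a τ) fun x => Y.Gc j (n + 1) x (dg τ) i (aset τ)),
    ← pr_sum hP, ← pr_add hP]
  refine (hP G q C (n + 1)).2.2.1 _ _ _ fun x h1 h2 => ?_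
  exact Y.spl j (n + 1) x (dg τ) (aset τ) hn (ok_of hS τ x h1 h2) (dg_ne τ)

theorem top {S : Finset G} {C : Set G} {N : ℕ} {K η : ℝ}
    (Y : Sys S C N K η) (a : Mat G q) (j n : ℕ) (h : n = 2 * j + 1) : Fs Y a j n 1 = 0 := by
  unfold Fs
  refine Finset.sum_eq_zero fun τ hτ => Finset.sum_eq_zero fun i hi => ?_
  exfalso
  have h1 : (aset τ).card = 2 * j + 1 := (Finset.mem_filter.1 hτ).2
  have h2 : aset τ = Finset.univ := Finset.eq_univ_of_card _ (by rw [h1, Fintype.card_fin, h])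
  have h3 : i ∈ aset τ := h2 ▸ Finset.mem_univ i
  have h4 : τ i = 0 := (Finset.mem_filter.1 h3).2
  have h5 : τ i = 1 := (Finset.mem_filter.1 hi).2
  rw [h4] at h5
  exact absurd h5 (by decide)

theorem num (N j : ℕ) (hN : 1 ≤ N) :
    ((2 * N + 1).factorial : ℝ) / (N.factorial * N.factorial) *
      ((N : ℝ) ^ (N + j + 1) / (N + j + 1).factorial) ≤
      2 ^ (2 * N + 1) * ((N : ℝ) ^ (N + 1) / N.factorial) := by
  have h1 : (N + 1).factorial * N ^ j ≤ (N + j + 1).factorial := by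
    calc (N + 1).factorial * N ^ j ≤ (N + 1).factorial * (N + 1 + 1) ^ j :=
          Nat.mul_le_mul_left _ (Nat.pow_le_pow_left (by omega) j)
      _ ≤ (N + 1 + j).factorial := Nat.factorial_mul_pow_le_factorial
      _ = (N + j + 1).factorial := by congr 1; omega
  have h2 : (2 * N + 1).factorial ≤ 2 ^ (2 * N + 1) * (N.factorial * (N + 1).factorial) := by
    have h3 := Nat.choose_mul_factorial_mul_factorial (show N ≤ 2 * N + 1 by omega)
    rw [show 2 * N + 1 - N = N + 1 by omega] at h3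
    rw [← h3, mul_assoc]
    exact Nat.mul_le_mul_right _ (Nat.choose_le_two_pow _ _)
  have h1' : ((N + 1).factorial : ℝ) * (N : ℝ) ^ j ≤ (N + j + 1).factorial := by exact_mod_cast h1
  have h2' : ((2 * N + 1).factorial : ℝ) ≤ 2 ^ (2 * N + 1) * (N.factorial * (N + 1).factorial) := by
    exact_mod_cast h2
  have f0 : (0 : ℝ) < N.factorial := by exact_mod_cast N.factorial_pos
  have f1 : (0 : ℝ) < (N + 1).factorial := by exact_mod_cast (N + 1).factorial_pos
  have f2 : (0 : ℝ) < (N + j + 1).factorial := by exact_mod_cast (N + j + 1).factorial_pos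
  have hN0 : (0 : ℝ) < N := by exact_mod_cast hN
  have e1 : (N : ℝ) ^ (N + j + 1) / (N + j + 1).factorial ≤ (N : ℝ) ^ (N + 1) / (N + 1).factorial := by
    rw [div_le_div_iff₀ f2 f1]
    calc (N : ℝ) ^ (N + j + 1) * (N + 1).factorial
        = (N : ℝ) ^ (N + 1) * ((N + 1).factorial * (N : ℝ) ^ j) := by ring
      _ ≤ _ := mul_le_mul_of_nonneg_left h1' (by positivity)
  have e2 : ((2 * N + 1).factorial : ℝ) / (N.factorial * N.factorial) ≤
      2 ^ (2 * N + 1) * (N + 1).factorial / N.factorial := by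
    rw [div_le_div_iff₀ (by positivity) f0]
    calc ((2 * N + 1).factorial : ℝ) * N.factorial
        ≤ 2 ^ (2 * N + 1) * (N.factorial * (N + 1).factorial) * N.factorial :=
          mul_le_mul_of_nonneg_right h2' f0.le
      _ = _ := by ring
  calc _ ≤ 2 ^ (2 * N + 1) * (N + 1).factorial / N.factorial *
        ((N : ℝ) ^ (N + 1) / (N + 1).factorial) := mul_le_mul e2 e1 (by positivity) (by positivity)
    _ = _ := by field_simp

theorem cbound (N : ℕ) :
    ((2 * N + 1).factorial : ℝ) / (N.factorial * N.factorial) ≤ (2 * N + 1) * 4 ^ N := by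
  have f0 : (0 : ℝ) < N.factorial := by exact_mod_cast N.factorial_pos
  have h2 : (2 * N + 1).factorial ≤ (2 * N + 1) * 4 ^ N * (N.factorial * N.factorial) := by
    have h3 := Nat.choose_mul_factorial_mul_factorial (show N ≤ 2 * N by omega)
    rw [show 2 * N - N = N by omega] at h3
    rw [Nat.factorial_succ, ← h3, mul_assoc, mul_assoc (2 * N + 1)]
    refine Nat.mul_le_mul_left _ (Nat.mul_le_mul_right _ ?_)
    calc (2 * N).choose N ≤ 2 ^ (2 * N) := Nat.choose_le_two_pow _ _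
      _ = 4 ^ N := by rw [pow_mul]; norm_num
  rw [div_le_iff₀ (by positivity)]
  exact_mod_cast h2

end ALG

open ALG in
theorem alg : PRStmt → ALGAStmt → ALGBStmt → ALGCStmt → ALGStmt := by
  intro hP hA hB hC N hN
  obtain ⟨p, c, h0, h1, h2, h3, h4⟩ := hC N hN
  refine ⟨p, c, h0, h1, h2, h3 ▸ cbound N, ?_⟩
  rintro G _ q S C K η δ a ⟨Y⟩ hS hK hη hδ1 hδ2
  let X : ℕ → ℂ := fun j => ∑ τ ∈ Wd (N + j + 1) (2 * j + 1),
    pr C.carrier (wt a τ) (fun x => Y.X j (N + j + 1) x (aset τ))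
  let D : ℕ → ℂ := fun j => ∑ τ ∈ Wd (N + j + 1) (2 * j + 1),
    pr C.carrier (wt a τ) (fun x => Y.D j (N + j + 1) x (dg τ) (aset τ))
  have hX : ∀ j, j ≤ N → X j = D j + Fs Y a j (N + j + 1) 1 := by
    intro j hj
    have e1 := split hP Y hS j (N + j) (by omega)
    rw [(hB G q S C N K η Y a j (N + j) hS (by omega)).1, add_zero] at e1
    exact e1
  have hD : ∀ j, j < N → D (j + 1) = -Fs Y a j (N + j + 1) 1 := fun j hj =>
    hA G q S C N K η Y a j (N + j + 1) hS (by omega)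
  have hsum : ∑ j ∈ Finset.range (N + 1), X j = D 0 := by
    rw [Finset.sum_range_succ, hX N le_rfl, top Y a N (N + N + 1) (by omega), add_zero]
    have : ∑ j ∈ Finset.range N, X j = ∑ j ∈ Finset.range N, (D j - D (j + 1)) := by
      refine Finset.sum_congr rfl fun j hj => ?_
      have hj' := Finset.mem_range.1 hj
      rw [hX j hj'.le, hD j hj', sub_neg_eq_add]
    rw [this, Finset.sum_range_sub']
    ring
  have h5 : c * D 0 = (N : ℂ) ^ (N + 1) / N.factorial * trC C.carrier (aeval a p) :=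
    h4 G q S C K η Y a hS
  have ha := nrm_nonneg a
  have hr := nrm_nonneg (a * a - a)
  have hδ0 : 0 ≤ δ := hr.trans hδ2
  have f0 : (0 : ℝ) < N.factorial := by exact_mod_cast N.factorial_pos
  have hN0 : (0 : ℝ) < N := by exact_mod_cast hN
  set R : ℝ := (N : ℝ) ^ (N + 1) / N.factorial with hR
  have hR0 : 0 < R := by positivity
  have hterm : ∀ j ∈ Finset.range (N + 1), ‖c‖ * ‖X j‖ ≤ R * (4 * K * nrm a * (16 * δ) ^ N) := by
    intro j hj
    have hj' : j ≤ N := Nat.lt_succ_iff.1 (Finset.mem_range.1 hj)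
    have e1 := (hB G q S C N K η Y a j (N + j) hS (by omega)).2 hj' hK hη
    rw [show N + j + 1 - (2 * j + 1) = N - j by omega] at e1
    have e2 : η ^ j * nrm a ^ (2 * j) * nrm (a * a - a) ^ (N - j) ≤ δ ^ N := by
      rw [pow_mul, ← mul_pow]
      calc (η * nrm a ^ 2) ^ j * nrm (a * a - a) ^ (N - j) ≤ δ ^ j * δ ^ (N - j) :=
            mul_le_mul (pow_le_pow_left₀ (by positivity) hδ1 j) (pow_le_pow_left₀ hr hδ2 _)
              (by positivity) (by positivity)
        _ = δ ^ N := by rw [← pow_add]; congr 1; omega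
    have e3 : (2 : ℝ) ^ (N + j + 1) ≤ 2 ^ (2 * N + 1) := pow_le_pow_right₀ (by norm_num) (by omega)
    have e4 := num N j hN
    rw [← h3, ← hR] at e4
    have e5 : (2 : ℝ) ^ (2 * N + 1) * 2 ^ (2 * N + 1) = 4 * 16 ^ N := by
      rw [← pow_add, show 2 * N + 1 + (2 * N + 1) = 4 * N + 2 by omega, pow_add, pow_mul]
      norm_num; ring
    calc ‖c‖ * ‖X j‖ ≤ ‖c‖ * (2 ^ (N + j + 1) * (K * η ^ j *
          ((N : ℝ) ^ (N + j + 1) / (N + j + 1).factorial)) * nrm a ^ (2 * j + 1) *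
          nrm (a * a - a) ^ (N - j)) := mul_le_mul_of_nonneg_left e1 (norm_nonneg _)
      _ = (‖c‖ * ((N : ℝ) ^ (N + j + 1) / (N + j + 1).factorial)) * 2 ^ (N + j + 1) *
          (K * nrm a) * (η ^ j * nrm a ^ (2 * j) * nrm (a * a - a) ^ (N - j)) := by ring
      _ ≤ (2 ^ (2 * N + 1) * R) * 2 ^ (2 * N + 1) * (K * nrm a) * δ ^ N := by
          refine mul_le_mul (mul_le_mul_of_nonneg_right
            (mul_le_mul e4 e3 (by positivity) (by positivity)) (by positivity)) e2
            (by positivity) (by positivity)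
      _ = R * ((2 ^ (2 * N + 1) * 2 ^ (2 * N + 1)) * K * nrm a * δ ^ N) := by ring
      _ = _ := by rw [e5, mul_pow]; ring
  have h6 : R * ‖trC C.carrier (aeval a p)‖ ≤ R * (4 * K * nrm a * (N + 1) * (16 * δ) ^ N) := by
    have e1 : ‖c * D 0‖ = R * ‖trC C.carrier (aeval a p)‖ := by
      rw [h5, norm_mul, norm_div, norm_pow, Complex.norm_natCast, Complex.norm_natCast]
    rw [← e1, ← hsum, norm_mul]
    calc ‖c‖ * ‖∑ j ∈ Finset.range (N + 1), X j‖ ≤ ‖c‖ * ∑ j ∈ Finset.range (N + 1), ‖X j‖ :=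
          mul_le_mul_of_nonneg_left (norm_sum_le _ _) (norm_nonneg _)
      _ = ∑ j ∈ Finset.range (N + 1), ‖c‖ * ‖X j‖ := Finset.mul_sum _ _ _
      _ ≤ ∑ j ∈ Finset.range (N + 1), R * (4 * K * nrm a * (16 * δ) ^ N) := Finset.sum_le_sum hterm
      _ = _ := by rw [Finset.sum_const, Finset.card_range, nsmul_eq_mul]; push_cast; ring
  exact le_of_mul_le_mul_left h6 hR0

end Crest.Agent.R192B
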