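import Crest.Agent.R192B.D1

/-! Row 192, task ALGA. -/

set_option autoImplicit false

open Finset

namespace Crest.Agent.R192B

open Crest.Agent.R192 (Mat nrm trC)

namespace ALGA

theorem contract_apply {α : Type} {n : ℕ} (i : Fin n) (op : α → α → α) (g : Fin (n + 1) → α)
    (k : Fin n) : Fin.contractNth i.castSucc op g k =
      if k = i then op (g i.castSucc) (g i.succ) else g (i.castSucc.succAbove k) := by
  split_ifs with h
  · subst h
    exact Fin.contractNth_apply_of_eq _ _ _ _ (by simp)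
  · exact Fin.contractNth_apply_of_ne _ _ _ _ (by
      simp only [Fin.val_castSucc]; exact fun h' => h (Fin.ext h'.symm))

theorem succAbove_eq_succ_iff {n : ℕ} (i k : Fin n) :
    i.castSucc.succAbove k = i.succ ↔ k = i := by
  rw [← Fin.succAbove_castSucc_self i]
  exact Fin.succAbove_right_inj

theorem rotV_rot {α : Type} {n : ℕ} (u : Fin (n + 1) → α) (i : Fin (n + 1)) :
    rotV u (finRotate (n + 1) i) = u i := by
  induction i using Fin.lastCases with
  | last => simp [rotV]
  | cast i =>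
    have : finRotate (n + 1) i.castSucc = i.succ := by simp
    rw [this]
    simp [rotV, Fin.init]

theorem rotV_eq {α : Type} {n : ℕ} (u : Fin (n + 1) → α) :
    rotV u = u ∘ (finRotate (n + 1)).symm := by
  funext m
  obtain ⟨i, rfl⟩ := (finRotate (n + 1)).surjective m
  rw [rotV_rot]; simp only [Function.comp_apply, Equiv.symm_apply_apply]

theorem aset_rotV {n : ℕ} (τ : Fin (n + 1) → Fin 3) :
    aset (rotV τ) = (aset τ).image (finRotate (n + 1)) := by
  ext m
  obtain ⟨i, rfl⟩ := (finRotate (n + 1)).surjective m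
  rw [(finRotate (n + 1)).injective.mem_finset_image]
  simp only [aset, mem_filter, mem_univ, true_and, rotV_rot]

/-- merge two letters `0` into a letter `1` -/
def con {n : ℕ} (i : Fin n) (τ : Fin (n + 1) → Fin 3) : Fin n → Fin 3 :=
  Fin.contractNth i.castSucc (fun _ _ => 1) τ

/-- split a letter into two letters `0` -/
def exd {n : ℕ} (i : Fin n) (τ : Fin n → Fin 3) : Fin (n + 1) → Fin 3 :=
  fun m => if m = i.castSucc ∨ m = i.succ then 0 else τ (i.predAbove m)

theorem aset_con {n : ℕ} (i : Fin n) (τ : Fin (n + 1) → Fin 3) :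
    aset (con i τ) = (((aset τ).erase i.castSucc).erase i.succ).image i.predAbove := by
  ext k
  simp only [aset, con, contract_apply, mem_filter, mem_univ, true_and, mem_image, mem_erase]
  constructor
  · intro h
    split_ifs at h with hk
    · exact absurd h (by decide)
    · exact ⟨i.castSucc.succAbove k, ⟨fun h' => hk ((succAbove_eq_succ_iff i k).1 h'),
        Fin.succAbove_ne _ _, h⟩, Fin.predAbove_succAbove i k⟩
  · rintro ⟨m, ⟨h1, h2, h3⟩, rfl⟩
    have h4 : i.castSucc.succAbove (i.predAbove m) = m := Fin.succAbove_predAbove h2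
    rw [if_neg, h4, h3]
    intro h5
    exact h1 (by rw [← h4]; exact (succAbove_eq_succ_iff i _).2 h5)

theorem card_con {n : ℕ} (i : Fin n) (τ : Fin (n + 1) → Fin 3) (h1 : τ i.castSucc = 0)
    (h2 : τ i.succ = 0) : (aset τ).card = (aset (con i τ)).card + 2 := by
  have hne : i.succ ≠ i.castSucc := (Fin.castSucc_lt_succ (i := i)).ne'
  have m1 : i.castSucc ∈ aset τ := by simp [aset, h1]
  have m2 : i.succ ∈ (aset τ).erase i.castSucc := by simp [aset, h2, hne]
  rw [aset_con, card_image_of_injOn]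
  · have e1 := card_erase_add_one m1
    have e2 := card_erase_add_one m2
    omega
  · intro m hm m' hm' h
    have hm1 : m ≠ i.castSucc := (mem_erase.1 (mem_erase.1 hm).2).1
    have hm2 : m' ≠ i.castSucc := (mem_erase.1 (mem_erase.1 hm').2).1
    rw [← Fin.succAbove_predAbove hm1, ← Fin.succAbove_predAbove hm2, h]

theorem con_exd {n : ℕ} (i : Fin n) (τ : Fin n → Fin 3) (h : τ i = 1) : con i (exd i τ) = τ := by
  funext k
  simp only [con, contract_apply, exd]
  split_ifs with hk h2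
  · rw [hk, h]
  · rcases h2 with h2 | h2
    · exact absurd h2 (Fin.succAbove_ne _ _)
    · exact absurd ((succAbove_eq_succ_iff i k).1 h2) hk
  · rw [Fin.predAbove_succAbove]

theorem exd_con {n : ℕ} (i : Fin n) (τ : Fin (n + 1) → Fin 3) (h1 : τ i.castSucc = 0)
    (h2 : τ i.succ = 0) : exd i (con i τ) = τ := by
  funext m
  simp only [con, contract_apply, exd]
  split_ifs with hm h3
  · rcases hm with rfl | rfl
    · exact h1.symm
    · exact h2.symm
  · push Not at hm
    exact absurd (by rw [← Fin.succAbove_predAbove hm.1]; exact (succAbove_eq_succ_iff i _).2 h3)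
      hm.2
  · push Not at hm
    rw [Fin.succAbove_predAbove hm.1]

variable {G : Type} [Group G] {q : ℕ}

theorem mX_wt_con (a : Mat G q) {n : ℕ} (i : Fin n) (τ : Fin (n + 1) → Fin 3)
    (h1 : τ i.castSucc = 0) (h2 : τ i.succ = 0) : mX i (wt a τ) = wt a (con i τ) := by
  funext k
  simp only [mX, wt, con, contract_apply]
  split_ifs
  · rw [h1, h2]; rfl
  · rfl

theorem pb_dg_con {n : ℕ} (i : Fin n) (τ : Fin (n + 1) → Fin 3)
    (h1 : τ i.castSucc = 0) (h2 : τ i.succ = 0) : pb i (dg τ) = dg (con i τ) := by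
  funext k
  simp only [pb, dg, con, contract_apply]
  split_ifs
  · rw [h1, h2]; exact one_add_one_eq_two
  · rfl

/-- exchange the letters `i` and `i+1` -/
def sw {n : ℕ} (i : Fin n) (τ : Fin (n + 1) → Fin 3) : Fin (n + 1) → Fin 3 :=
  τ ∘ Equiv.swap i.castSucc i.succ

theorem sw_sw {n : ℕ} (i : Fin n) (τ : Fin (n + 1) → Fin 3) : sw i (sw i τ) = τ := by
  funext m; simp [sw]

theorem sw_cs {n : ℕ} (i : Fin n) (τ : Fin (n + 1) → Fin 3) : sw i τ i.castSucc = τ i.succ := by
  simp [sw]

theorem sw_s {n : ℕ} (i : Fin n) (τ : Fin (n + 1) → Fin 3) : sw i τ i.succ = τ i.castSucc := by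
  simp [sw]

theorem sw_ne {n : ℕ} (i : Fin n) (τ : Fin (n + 1) → Fin 3) {m : Fin (n + 1)}
    (h1 : m ≠ i.castSucc) (h2 : m ≠ i.succ) : sw i τ m = τ m := by
  simp [sw, Equiv.swap_apply_of_ne_of_ne h1 h2]

theorem sw_succAbove {n : ℕ} (i : Fin n) (τ : Fin (n + 1) → Fin 3) {k : Fin n} (hk : k ≠ i) :
    sw i τ (i.castSucc.succAbove k) = τ (i.castSucc.succAbove k) :=
  sw_ne i τ (Fin.succAbove_ne _ _) fun h => hk ((succAbove_eq_succ_iff i k).1 h)

theorem card_sw {n : ℕ} (i : Fin n) (τ : Fin (n + 1) → Fin 3) :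
    (aset (sw i τ)).card = (aset τ).card := by
  refine card_bijective (Equiv.swap i.castSucc i.succ) (Equiv.bijective _) fun m => ?_
  simp [aset, sw]

theorem mX_wt_sw (a : Mat G q) {n : ℕ} (i : Fin n) (τ : Fin (n + 1) → Fin 3)
    (h1 : τ i.castSucc = 0) : mX i (wt a (sw i τ)) = mX i (wt a τ) := by
  funext k
  simp only [mX, wt, contract_apply]
  split_ifs with hk
  · rw [sw_cs, sw_s, h1]
    generalize τ i.succ = c
    fin_cases c
    · rfl
    · exact mul_assoc a a a
    · exact (neg_mul a a).trans (mul_neg a a).symm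
  · rw [sw_succAbove i τ hk]

theorem pb_dg_sw {n : ℕ} (i : Fin n) (τ : Fin (n + 1) → Fin 3) :
    pb i (dg (sw i τ)) = pb i (dg τ) := by
  funext k
  simp only [pb, dg, contract_apply]
  split_ifs with hk
  · rw [sw_cs, sw_s, add_comm]
  · rw [sw_succAbove i τ hk]

theorem erase_sw {n : ℕ} (i : Fin n) (τ : Fin (n + 1) → Fin 3) (h2 : τ i.succ ≠ 0) :
    (aset (sw i τ)).erase i.succ = (aset τ).erase i.castSucc := by
  ext m
  simp only [aset, mem_erase, mem_filter, mem_univ, true_and]
  constructor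
  · rintro ⟨h3, h4⟩
    have h5 : m ≠ i.castSucc := by
      rintro rfl
      rw [sw_cs] at h4; exact h2 h4
    exact ⟨h5, by rwa [sw_ne i τ h5 h3] at h4⟩
  · rintro ⟨h3, h4⟩
    have h5 : m ≠ i.succ := by
      rintro rfl
      exact h2 h4
    exact ⟨h5, by rwa [sw_ne i τ h3 h5]⟩

theorem rk_sw {n : ℕ} (i : Fin n) (τ : Fin (n + 1) → Fin 3) (h2 : τ i.succ ≠ 0) :
    rk (aset (sw i τ)) i.succ = rk (aset τ) i.castSucc := by
  unfold rk
  congr 1
  ext m
  simp only [aset, mem_filter, mem_univ, true_and]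
  constructor
  · rintro ⟨h3, h4⟩
    have h5 : m ≠ i.castSucc := by
      rintro rfl
      rw [sw_cs] at h3; exact h2 h3
    refine ⟨by rwa [sw_ne i τ h5 h4.ne] at h3, lt_of_le_of_ne (Fin.le_castSucc_iff.2 h4) h5⟩
  · rintro ⟨h3, h4⟩
    have h5 : m < i.succ := h4.trans Fin.castSucc_lt_succ
    exact ⟨by rwa [sw_ne i τ h4.ne h5.ne], h5⟩

theorem rk_last {n : ℕ} (T : Finset (Fin (n + 1))) (h : Fin.last n ∈ T) :
    rk T (Fin.last n) + 1 = T.card := by
  rw [← card_erase_add_one h]
  unfold rk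
  congr 2
  ext m
  simp only [mem_filter, mem_erase]
  constructor
  · rintro ⟨h1, h2⟩; exact ⟨h2.ne, h1⟩
  · rintro ⟨h1, h2⟩; exact ⟨h2, lt_of_le_of_ne (Fin.le_last m) h1⟩

theorem rk_zero {n : ℕ} (T : Finset (Fin (n + 1))) : rk T 0 = 0 := by
  simp [rk]

theorem ok_of {S : Finset G} {C : Set G} {a : Mat G q} (hS : Supp S a) {n : ℕ}
    (τ : Fin n → Fin 3) (x : Fin n → G) (h : ∀ i, cf (wt a τ i) (x i) ≠ 0)
    (hC : (List.ofFn x).prod ∈ C) : Ok S C x := by
  refine ⟨fun i => ?_, hC⟩
  have h1 := h i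
  simp only [wt] at h1
  generalize τ i = c at h1
  fin_cases c
  · exact (hS _).1 h1
  · exact (hS _).2 h1
  · refine (hS _).1 fun h2 => h1 ?_
    ext k l
    have h3 := congrFun (congrFun h2 k) l
    change ((-a) k l).coeff (x i) = 0
    change (a k l).coeff (x i) = 0 at h3
    rw [Matrix.neg_apply]
    simp [h3]

end ALGA

open ALGA

theorem alga (hPR : PRStmt) : ALGAStmt := by
  classical
  intro G _ q S C N K η Y a j n hS hn
  obtain ⟨-, -, hcg, hlin, hmx, hrot, -, -⟩ := hPR G q C n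
  obtain ⟨-, -, hcg', hlin', -, -, -, -⟩ := hPR G q C (n + 1)
  have hsub : ∀ (w : Fin (n + 1) → Mat G q) (c c' : ℝ) (Φ Φ' : (Fin (n + 1) → G) → ℝ),
      pr C.carrier w (fun x => c * Φ x - c' * Φ' x) =
        (c : ℂ) * pr C.carrier w Φ - (c' : ℂ) * pr C.carrier w Φ' := by
    intro w c c' Φ Φ'
    have := hlin' w Bool univ (fun b => cond b c (-c')) (fun b => cond b Φ Φ')
    simp only [Fintype.sum_bool, cond_true, cond_false, neg_mul, Complex.ofReal_neg] at this
    simpa only [sub_eq_add_neg] using this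
  have hcong : ∀ (τ : Fin (n + 1) → Fin 3) (Φ Φ' : (Fin (n + 1) → G) → ℝ),
      (∀ x, Ok S C.carrier x → Φ x = Φ' x) →
      pr C.carrier (wt a τ) Φ = pr C.carrier (wt a τ) Φ' := fun τ Φ Φ' h =>
    hcg' _ _ _ fun x h1 h2 => h x (ok_of hS τ x h1 h2)
  let U : (Fin (n + 1) → Fin 3) → Fin (n + 1) → ℂ := fun τ m =>
    if τ m = 0 then (-1) ^ rk (aset τ) m *
      pr C.carrier (wt a τ) (fun x => Y.Up j n x (dg τ) m (aset τ)) else 0
  let Lw : (Fin (n + 1) → Fin 3) → Fin (n + 1) → ℂ := fun τ m =>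
    if τ m = 0 then (-1) ^ rk (aset τ) m *
      pr C.carrier (wt a τ) (fun x => Y.Lo j n x (dg τ) m (aset τ)) else 0
  have mem_aset : ∀ {k : ℕ} (τ : Fin k → Fin 3) (m : Fin k), m ∈ aset τ ↔ τ m = 0 := by
    intro k τ m; simp [aset]
  have mem_Wd : ∀ {k p : ℕ} (τ : Fin k → Fin 3), τ ∈ Wd k p ↔ (aset τ).card = p := by
    intro k p τ; simp [Wd]
  -- step 1
  have step1 : ∀ τ : Fin (n + 1) → Fin 3,
      pr C.carrier (wt a τ) (fun x => Y.D (j + 1) (n + 1) x (dg τ) (aset τ)) =
        -((U τ (Fin.last n) - Lw τ 0) + ∑ i : Fin n, (U τ i.castSucc - Lw τ i.succ)) := by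
    intro τ
    have h1 : pr C.carrier (wt a τ) (fun x => Y.D (j + 1) (n + 1) x (dg τ) (aset τ)) =
        pr C.carrier (wt a τ) (fun x => ∑ m ∈ aset τ, (-1 : ℝ) *
          ((-1) ^ rk (aset τ) m * Y.Up j n x (dg τ) m (aset τ) -
            (-1) ^ rk (aset τ) m * Y.Lo j n x (dg τ) m (aset τ))) := by
      refine hcong τ _ _ fun x hx => ?_
      rw [Y.stk j n x _ _ hn hx, ← sum_neg_distrib]
      exact sum_congr rfl fun m _ => by ring
    rw [h1, hlin']
    have h2 : ∀ m ∈ aset τ, (((-1 : ℝ) : ℝ) : ℂ) * pr C.carrier (wt a τ) (fun x =>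
        (-1) ^ rk (aset τ) m * Y.Up j n x (dg τ) m (aset τ) -
          (-1) ^ rk (aset τ) m * Y.Lo j n x (dg τ) m (aset τ)) = -(U τ m - Lw τ m) := by
      intro m hm
      rw [hsub]
      simp only [U, Lw, if_pos ((mem_aset τ m).1 hm)]
      push_cast
      ring
    rw [sum_congr rfl h2, sum_neg_distrib]
    congr 1
    have h3 : ∑ m ∈ aset τ, (U τ m - Lw τ m) = ∑ m, (U τ m - Lw τ m) := by
      refine sum_subset (subset_univ _) fun m _ hm => ?_
      have hm' : ¬ τ m = 0 := fun h => hm ((mem_aset τ m).2 h)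
      simp only [U, Lw, if_neg hm', sub_zero]
    rw [h3, sum_sub_distrib, Fin.sum_univ_castSucc (U τ), Fin.sum_univ_succ (Lw τ),
      sum_sub_distrib]
    ring
  -- the rotation
  have step2 : ∑ τ ∈ Wd (n + 1) (2 * j + 3), U τ (Fin.last n) =
      ∑ τ ∈ Wd (n + 1) (2 * j + 3), Lw τ 0 := by
    refine sum_bijective rotV ?_ (fun τ => ?_) fun τ hτ => ?_
    · have : (rotV : (Fin (n + 1) → Fin 3) → _) = fun u => u ∘ (finRotate (n + 1)).symm :=
        funext rotV_eq
      rw [this]
      exact (finRotate (n + 1)).symm.bijective.comp_right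
    · rw [mem_Wd, mem_Wd, aset_rotV, card_image_of_injective _ (finRotate (n + 1)).injective]
    · have h0 : rotV τ 0 = τ (Fin.last n) := by simp [rotV]
      simp only [U, Lw, h0]
      split_ifs with hl
      · have hl' := (mem_aset τ _).2 hl
        have h1 : rk (aset τ) (Fin.last n) = 2 * (j + 1) := by
          have := rk_last _ hl'
          rw [(mem_Wd τ).1 hτ] at this
          omega
        rw [h1, rk_zero, pow_mul, neg_one_sq, one_pow, pow_zero]
        congr 1
        rw [hcong τ _ _ fun x hx => Y.rot j n x (dg τ) (aset τ) hn hx hl',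
          hrot (wt a τ) fun x => Y.Lo j n x (rotV (dg τ)) 0 ((aset τ).image (finRotate (n + 1))),
          aset_rotV]
        simp only [rotV_eq]
        rfl
      · rfl
  -- the collisions
  have step3 : ∀ i : Fin n, ∑ τ ∈ Wd (n + 1) (2 * j + 3), (U τ i.castSucc - Lw τ i.succ) =
      ∑ τ ∈ (Wd n (2 * j + 1)).filter (fun τ => τ i = 1),
        pr C.carrier (wt a τ) fun x => Y.Gc j n x (dg τ) i (aset τ) := by
    intro i
    have hsplit : ∀ τ : Fin (n + 1) → Fin 3, U τ i.castSucc - Lw τ i.succ =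
        (if τ i.castSucc = 0 ∧ τ i.succ = 0 then U τ i.castSucc - Lw τ i.succ else 0) +
        ((if τ i.castSucc = 0 ∧ τ i.succ ≠ 0 then U τ i.castSucc else 0) -
          (if τ i.succ = 0 ∧ τ i.castSucc ≠ 0 then Lw τ i.succ else 0)) := by
      intro τ
      by_cases h1 : τ i.castSucc = 0 <;> by_cases h2 : τ i.succ = 0 <;>
        simp only [U, Lw, h1, h2, ne_eq, not_true_eq_false, not_false_eq_true, and_self, and_true,
          and_false, if_true, if_false, sub_zero, add_zero, zero_add]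
    rw [sum_congr rfl fun τ _ => hsplit τ, sum_add_distrib, sum_sub_distrib]
    have hBC : ∑ τ ∈ Wd (n + 1) (2 * j + 3),
        (if τ i.castSucc = 0 ∧ τ i.succ ≠ 0 then U τ i.castSucc else 0) =
        ∑ τ ∈ Wd (n + 1) (2 * j + 3),
          (if τ i.succ = 0 ∧ τ i.castSucc ≠ 0 then Lw τ i.succ else 0) := by
      refine sum_bijective (sw i) (Function.Involutive.bijective (sw_sw i)) (fun τ => ?_)
        fun τ _ => ?_
      · rw [mem_Wd, mem_Wd, card_sw]
      · rw [sw_cs, sw_s]
        split_ifs with h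
        · obtain ⟨h1, h2⟩ := h
          have h3 : sw i τ i.succ = 0 := by rw [sw_s, h1]
          have h4 : sw i τ i.castSucc ≠ 0 := by rw [sw_cs]; exact h2
          simp only [U, Lw, if_pos h1, if_pos h3]
          rw [rk_sw i τ h2]
          congr 1
          rw [hcong τ _ _ fun x hx => Y.colB j n x (dg τ) (aset τ) i hn hx ((mem_aset τ _).2 h1)
              fun h => h2 ((mem_aset τ _).1 h),
            hcong (sw i τ) _ _ fun x hx => Y.colC j n x (dg (sw i τ)) (aset (sw i τ)) i hn hx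
              (fun h => h4 ((mem_aset _ _).1 h)) ((mem_aset _ _).2 h3),
            hmx (wt a τ) i fun x => Y.Gd j n x (pb i (dg τ))
              (((aset τ).erase i.castSucc).image i.predAbove),
            hmx (wt a (sw i τ)) i fun x => Y.Gd j n x (pb i (dg (sw i τ)))
              (((aset (sw i τ)).erase i.succ).image i.predAbove),
            mX_wt_sw a i τ h1, pb_dg_sw, erase_sw i τ h2]
        · rfl
    rw [hBC, sub_self, add_zero, ← sum_filter]
    refine sum_nbij' (con i) (exd i) (fun τ hτ => ?_) (fun τ hτ => ?_) (fun τ hτ => ?_)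
      (fun τ hτ => ?_) fun τ hτ => ?_
    · obtain ⟨h0, h1, h2⟩ := mem_filter.1 hτ
      refine mem_filter.2 ⟨(mem_Wd _).2 ?_, by simp [con, contract_apply]⟩
      have := card_con i τ h1 h2
      rw [(mem_Wd τ).1 h0] at this
      omega
    · obtain ⟨h0, h1⟩ := mem_filter.1 hτ
      have h2 : exd i τ i.castSucc = 0 := by simp [exd]
      have h3 : exd i τ i.succ = 0 := by simp [exd]
      refine mem_filter.2 ⟨(mem_Wd _).2 ?_, h2, h3⟩
      rw [card_con i _ h2 h3, con_exd i τ h1, (mem_Wd τ).1 h0]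
    · obtain ⟨-, h1, h2⟩ := mem_filter.1 hτ
      exact exd_con i τ h1 h2
    · exact con_exd i τ (mem_filter.1 hτ).2
    · obtain ⟨-, h1, h2⟩ := mem_filter.1 hτ
      simp only [U, Lw, if_pos h1, if_pos h2]
      have h3 := hsub (wt a τ) ((-1) ^ rk (aset τ) i.castSucc) ((-1) ^ rk (aset τ) i.succ)
        (fun x => Y.Up j n x (dg τ) i.castSucc (aset τ))
        (fun x => Y.Lo j n x (dg τ) i.succ (aset τ))
      push_cast at h3
      rw [← h3, hcong τ _ _ fun x hx => Y.colA j n x (dg τ) (aset τ) i hn hx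
          ((mem_aset τ _).2 h1) ((mem_aset τ _).2 h2),
        hmx (wt a τ) i fun x => Y.Gc j n x (pb i (dg τ)) i
          ((((aset τ).erase i.castSucc).erase i.succ).image i.predAbove),
        mX_wt_con a i τ h1 h2, pb_dg_con i τ h1 h2, aset_con]
  rw [sum_congr rfl fun τ _ => step1 τ, sum_neg_distrib, sum_add_distrib, sum_sub_distrib, step2,
    sub_self, zero_add, sum_comm, sum_congr rfl fun i _ => step3 i]
  congr 1
  unfold Fs
  simp_rw [sum_filter]
  exact sum_comm

end Crest.Agent.R192B
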