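import Crest.Agent.R192B.D1

/-! Row 192, task ALGB. -/

set_option autoImplicit false

open MeasureTheory Set Polynomial

namespace Crest.Agent.R192B

open Crest.Agent.R192 (Mat nrm trC nrm_nonneg)

namespace ALGB

theorem sum_rk {n : ℕ} (T : Finset (Fin n)) (f : ℕ → ℝ) :
    ∑ i ∈ T, f (rk T i) = ∑ k ∈ Finset.range T.card, f k := by
  induction T using Finset.induction_on_max with
  | empty => simp
  | insert a s ha ih =>
    have hn : a ∉ s := fun h => lt_irrefl _ (ha a h)
    rw [Finset.sum_insert hn, Finset.card_insert_of_notMem hn, Finset.sum_range_succ, ← ih,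
      add_comm]
    congr 1
    · refine Finset.sum_congr rfl fun i hi => ?_
      congr 1
      unfold rk
      rw [Finset.filter_insert, if_neg (not_lt.2 (ha i hi).le)]
    · congr 1
      unfold rk
      rw [Finset.filter_insert, if_neg (lt_irrefl _), Finset.filter_true_of_mem ha]

theorem sum_sign {n : ℕ} (T : Finset (Fin n)) (h : Even T.card) :
    ∑ i ∈ T, (-1 : ℝ) ^ rk T i = 0 := by
  rw [sum_rk T (fun k => (-1 : ℝ) ^ k), neg_one_geom_sum, if_pos h]

variable {G : Type} [Group G] {q : ℕ}

theorem cf_neg (u : Mat G q) (x : G) : cf (-u) x = -cf u x := by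
  ext i j; simp [cf]

theorem cf_add (u v : Mat G q) (x : G) : cf (u + v) x = cf u x + cf v x := by
  ext i j; simp [cf]

theorem mem_of_wt {S : Finset G} {a : Mat G q} (hS : Supp S a) {n : ℕ} (τ : Fin n → Fin 3)
    (x : Fin n → G) (h : ∀ i, cf (wt a τ i) (x i) ≠ 0) (i : Fin n) : x i ∈ S := by
  have h1 := h i
  unfold wt at h1
  generalize τ i = c at h1
  fin_cases c
  · exact (hS _).1 h1
  · exact (hS _).2 h1
  · refine (hS _).1 fun h2 => h1 ?_
    show cf (-a) (x i) = 0
    rw [cf_neg, h2, neg_zero]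

/-- `pr` as a multilinear map -/
noncomputable def ml (hPR : PRStmt) (C : ConjClasses G) {n : ℕ} (Φ : (Fin n → G) → ℝ) :
    MultilinearMap ℕ (fun _ : Fin n => Mat G q) ℂ where
  toFun w := pr C.carrier w Φ
  map_update_add' := by
    intro inst w i u u'
    have h := (hPR G q C n).1 w i u u' Φ
    convert h
  map_update_smul' := by
    intro inst w i c u
    have h := (AddMonoidHom.mk' (fun u : Mat G q => pr C.carrier (Function.update w i u) Φ)
      (fun u u' => by convert (hPR G q C n).1 w i u u' Φ)).map_nsmul c u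
    exact h

/-- weights after summing the letters `1` and `2` -/
noncomputable def wT (a : Mat G q) {n : ℕ} (T : Finset (Fin n)) : Fin n → Mat G q :=
  fun i => if i ∈ T then a else a * a - a

theorem group (hPR : PRStmt) (C : ConjClasses G) {n : ℕ} (Φ : (Fin n → G) → ℝ) (a : Mat G q)
    (T : Finset (Fin n)) :
    ∑ τ ∈ Finset.univ.filter (fun τ : Fin n → Fin 3 => aset τ = T), pr C.carrier (wt a τ) Φ =
      pr C.carrier (wT a T) Φ := by
  have h := (ml (q := q) hPR C Φ).map_sum_finset (fun _ (c : Fin 3) => ![a, a * a, -a] c)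
    (fun i => if i ∈ T then {0} else {1, 2})
  have h1 : (fun i => ∑ c ∈ (if i ∈ T then {0} else {1, 2} : Finset (Fin 3)),
      ![a, a * a, -a] c) = wT a T := by
    funext i
    unfold wT
    split_ifs
    · simp
    · rw [Finset.sum_pair (by decide)]
      simp [sub_eq_add_neg]
  have h2 : Fintype.piFinset (fun i => (if i ∈ T then {0} else {1, 2} : Finset (Fin 3))) =
      Finset.univ.filter (fun τ : Fin n → Fin 3 => aset τ = T) := by
    ext τ
    simp only [Fintype.mem_piFinset, Finset.mem_filter, Finset.mem_univ, true_and, aset,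
      Finset.ext_iff]
    refine forall_congr' fun i => ?_
    generalize τ i = c
    by_cases hi : i ∈ T
    · simp [hi]
    · simp only [hi, if_false, iff_false]
      revert c
      decide
  rw [h1, h2] at h
  exact h.symm

theorem part2 (hPR : PRStmt) (S : Finset G) (C : ConjClasses G) (N : ℕ) (K η : ℝ)
    (Y : Sys S C.carrier N K η) (a : Mat G q) (j n : ℕ) (hS : Supp S a) (hn : n + 1 ≤ 3 * N)
    (hj : j ≤ N) (hK : 0 ≤ K) (hη : 0 ≤ η) :
    ‖∑ τ ∈ Wd (n + 1) (2 * j + 1), pr C.carrier (wt a τ) (fun x => Y.X j (n + 1) x (aset τ))‖ ≤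
        2 ^ (n + 1) * (K * η ^ j * ((N : ℝ) ^ (n + 1) / (n + 1).factorial)) *
          nrm a ^ (2 * j + 1) * nrm (a * a - a) ^ (n + 1 - (2 * j + 1)) := by
  set B : ℝ := K * η ^ j * ((N : ℝ) ^ (n + 1) / (n + 1).factorial) with hB
  have hB0 : 0 ≤ B := by positivity
  have ha := nrm_nonneg a
  have hb := nrm_nonneg (a * a - a)
  rw [← Finset.sum_fiberwise_of_maps_to (g := fun τ => aset τ)
    (t := Finset.univ.filter fun T : Finset (Fin (n + 1)) => T.card = 2 * j + 1)
    (fun τ hτ => by simpa [Wd] using hτ)]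
  have key : ∀ T ∈ Finset.univ.filter fun T : Finset (Fin (n + 1)) => T.card = 2 * j + 1,
      ‖∑ τ ∈ Wd (n + 1) (2 * j + 1) with aset τ = T,
        pr C.carrier (wt a τ) (fun x => Y.X j (n + 1) x (aset τ))‖ ≤
        B * nrm a ^ (2 * j + 1) * nrm (a * a - a) ^ (n + 1 - (2 * j + 1)) := by
    intro T hT
    have hT' : T.card = 2 * j + 1 := (Finset.mem_filter.1 hT).2
    have e1 : ∑ τ ∈ Wd (n + 1) (2 * j + 1) with aset τ = T,
        pr C.carrier (wt a τ) (fun x => Y.X j (n + 1) x (aset τ)) =
        pr C.carrier (wT a T) (fun x => Y.X j (n + 1) x T) := by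
      rw [← group hPR C]
      refine Finset.sum_congr ?_ fun τ hτ => by rw [(Finset.mem_filter.1 hτ).2]
      ext τ
      simp only [Wd, Finset.mem_filter, Finset.mem_univ, true_and]
      exact ⟨fun h => h.2, fun h => ⟨by rw [h, hT'], h⟩⟩
    rw [e1]
    have e2 := (hPR G q C n).2.2.2.2.2.2.1 (wT a T) (fun x => Y.X j (n + 1) x T) B hB0
      (fun x hx hC => Y.bd j (n + 1) x T hn ⟨fun i => ?_, hC⟩ hj hT')
    · refine e2.trans (le_of_eq ?_)
      have : ∏ i, nrm (wT a T i) = nrm a ^ (2 * j + 1) * nrm (a * a - a) ^ (n + 1 - (2 * j + 1)) := by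
        simp only [wT, apply_ite nrm]
        rw [Finset.prod_ite, Finset.prod_const, Finset.prod_const, Finset.filter_mem_eq_inter,
          Finset.univ_inter, hT']
        congr 2
        have : (Finset.univ.filter fun i => i ∉ T) = Tᶜ := by ext i; simp
        rw [this, Finset.card_compl, hT', Fintype.card_fin]
      rw [this]
      ring
    · have h1 := hx i
      unfold wT at h1
      split_ifs at h1
      · exact (hS _).1 h1
      · by_contra h2
        apply h1
        have h3 : cf a (x i) = 0 := by_contra fun h => h2 ((hS _).1 h)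
        have h4 : cf (a * a) (x i) = 0 := by_contra fun h => h2 ((hS _).2 h)
        rw [sub_eq_add_neg, cf_add, cf_neg, h3, h4, neg_zero, add_zero]
  refine (norm_sum_le _ _).trans ((Finset.sum_le_sum key).trans ?_)
  rw [Finset.sum_const, nsmul_eq_mul]
  have hc : ((Finset.univ.filter fun T : Finset (Fin (n + 1)) => T.card = 2 * j + 1).card : ℝ) ≤
      2 ^ (n + 1) := by
    have := Finset.card_le_univ
      (Finset.univ.filter fun T : Finset (Fin (n + 1)) => T.card = 2 * j + 1)
    rw [Fintype.card_finset, Fintype.card_fin] at this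
    exact_mod_cast this
  calc _ ≤ 2 ^ (n + 1) * (B * nrm a ^ (2 * j + 1) * nrm (a * a - a) ^ (n + 1 - (2 * j + 1))) := by
        gcongr
    _ = _ := by ring

theorem aset_update_two {n : ℕ} (τ : Fin n → Fin 3) (i : Fin n) :
    aset (Function.update τ i 2) = (aset τ).erase i := by
  ext l
  by_cases h : l = i
  · subst h; simp [aset]
  · simp [aset, h]

theorem aset_update_zero {n : ℕ} (τ : Fin n → Fin 3) (i : Fin n) :
    aset (Function.update τ i 0) = insert i (aset τ) := by
  ext l
  by_cases h : l = i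
  · subst h; simp [aset]
  · simp [aset, h]

theorem term (hPR : PRStmt) (S : Finset G) (C : ConjClasses G) (N : ℕ) (K η : ℝ)
    (Y : Sys S C.carrier N K η) (a : Mat G q) (j n : ℕ) (hS : Supp S a) (hn : n ≤ 3 * N)
    (τ : Fin n → Fin 3) (i : Fin n) (hi : τ i = 0) :
    pr C.carrier (wt a (Function.update τ i 2))
      (fun x => Y.Gc j n x (dg (Function.update τ i 2)) i (aset (Function.update τ i 2))) =
      -((((-1 : ℝ) ^ rk (aset τ) i : ℝ) : ℂ) *
        pr C.carrier (wt a τ) (fun x => Y.Gd j n x (dg τ) (aset τ))) := by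
  have h1 : wt a (Function.update τ i 2) = Function.update (wt a τ) i (-a) := by
    funext l
    by_cases h : l = i
    · subst h; simp [wt]
    · simp [wt, h]
  have h2 : Function.update (wt a τ) i a = wt a τ := by
    funext l
    by_cases h : l = i
    · subst h; simp [wt, hi]
    · simp [h]
  have h3 : dg (Function.update τ i 2) = dg τ := by
    funext l
    by_cases h : l = i
    · subst h; simp [dg, hi]
    · simp [dg, h]
  have hi' : i ∈ aset τ := by simp [aset, hi]
  rw [h1, (hPR G q C n).2.1, h2, h3, aset_update_two]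
  congr 1
  have h4 := (hPR G q C n).2.2.2.1 (wt a τ) Unit Finset.univ (fun _ => (-1 : ℝ) ^ rk (aset τ) i)
    (fun _ x => Y.Gd j n x (dg τ) (aset τ))
  simp only [Finset.univ_unique, Finset.sum_singleton] at h4
  rw [← h4]
  exact (hPR G q C n).2.2.1 _ _ _ fun x hx hC =>
    Y.sw j n x (dg τ) (aset τ) i hn ⟨mem_of_wt hS τ x hx, hC⟩ hi'

theorem part1 (hPR : PRStmt) (S : Finset G) (C : ConjClasses G) (N : ℕ) (K η : ℝ)
    (Y : Sys S C.carrier N K η) (a : Mat G q) (j n : ℕ) (hS : Supp S a) (hn : n ≤ 3 * N) :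
    Fs Y a j n 2 = 0 := by
  unfold Fs
  have h1 : ∑ τ ∈ Wd n (2 * j + 1), ∑ i ∈ Finset.univ.filter (fun i => τ i = 2),
      pr C.carrier (wt a τ) (fun x => Y.Gc j n x (dg τ) i (aset τ)) =
      ∑ τ ∈ Wd n (2 * j + 2), ∑ i ∈ aset τ,
        pr C.carrier (wt a (Function.update τ i 2))
          (fun x => Y.Gc j n x (dg (Function.update τ i 2)) i (aset (Function.update τ i 2))) := by
    rw [Finset.sum_sigma', Finset.sum_sigma']
    refine Finset.sum_nbij' (fun z => ⟨Function.update z.1 z.2 0, z.2⟩)
      (fun z => ⟨Function.update z.1 z.2 2, z.2⟩) ?_ ?_ ?_ ?_ ?_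
    · rintro ⟨τ, i⟩ h
      simp only [Finset.mem_sigma, Wd, Finset.mem_filter, Finset.mem_univ, true_and] at h ⊢
      have hn' : i ∉ aset τ := by simp [aset, h.2]
      rw [aset_update_zero, Finset.card_insert_of_notMem hn', h.1]
      exact ⟨rfl, Finset.mem_insert_self _ _⟩
    · rintro ⟨τ, i⟩ h
      simp only [Finset.mem_sigma, Wd, Finset.mem_filter, Finset.mem_univ, true_and] at h ⊢
      rw [aset_update_two, Finset.card_erase_of_mem h.2, h.1]
      exact ⟨rfl, by simp⟩
    · rintro ⟨τ, i⟩ h
      simp only [Finset.mem_sigma, Wd, Finset.mem_filter, Finset.mem_univ, true_and] at h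
      simp only [Function.update_idem]
      rw [← h.2, Function.update_eq_self]
    · rintro ⟨τ, i⟩ h
      simp only [Finset.mem_sigma, aset, Finset.mem_filter, Finset.mem_univ, true_and] at h
      simp only [Function.update_idem]
      rw [← h.2, Function.update_eq_self]
    · rintro ⟨τ, i⟩ h
      simp only [Finset.mem_sigma, Wd, Finset.mem_filter, Finset.mem_univ, true_and] at h
      simp only [Function.update_idem]
      have : Function.update τ i 2 = τ := by rw [← h.2, Function.update_eq_self]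
      rw [this]
  rw [h1]
  refine Finset.sum_eq_zero fun τ hτ => ?_
  have hc : (aset τ).card = 2 * j + 2 := (Finset.mem_filter.1 hτ).2
  rw [Finset.sum_congr (s₁ := aset τ) rfl fun i hi =>
    term hPR S C N K η Y a j n hS hn τ i (Finset.mem_filter.1 hi).2]
  rw [Finset.sum_neg_distrib, ← Finset.sum_mul, ← Complex.ofReal_sum,
    sum_sign _ (by rw [hc]; exact ⟨j + 1, by ring⟩)]
  simp

end ALGB

theorem algb : PRStmt → ALGBStmt := fun hPR _ _ _ S C N K η Y a j n hS hn =>
  ⟨ALGB.part1 hPR S C N K η Y a j (n + 1) hS hn,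
    ALGB.part2 hPR S C N K η Y a j n hS hn⟩

end Crest.Agent.R192B
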