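import Crest.Agent.R192B.D1

/-! Row 192: the bottom term of the telescoping identity. -/

set_option autoImplicit false

open Polynomial

namespace Crest.Agent.R192B
open Crest.Agent.R192 (Mat nrm trC)
namespace ALGC

/-- `X^m ↦ X^m / m` -/
noncomputable def Jl : ℂ[X] →ₗ[ℂ] ℂ[X] :=
  Polynomial.lsum fun m : ℕ => ((m : ℂ)⁻¹) • (monomial m : ℂ →ₗ[ℂ] ℂ[X])

theorem Jl_monomial (m : ℕ) (c : ℂ) : Jl (monomial m c) = ((m : ℂ)⁻¹) • monomial m c := by
  unfold Jl
  rw [Polynomial.lsum_apply, Polynomial.sum_monomial_index]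
  · rfl
  · simp

theorem der_Jl (p : ℂ[X]) : derivative (Jl (X * p)) = p := by
  induction p using Polynomial.induction_on' with
  | add p q hp hq => rw [mul_add, map_add, map_add, hp, hq]
  | monomial n c =>
    rw [X_mul_monomial, Jl_monomial, derivative_smul, derivative_monomial, smul_monomial]
    have : ((n + 1 : ℕ) : ℂ) ≠ 0 := by exact_mod_cast Nat.succ_ne_zero n
    simp only [Nat.add_sub_cancel, smul_eq_mul]
    congr 1
    field_simp

theorem eval0_Jl (p : ℂ[X]) : (Jl (X * p)).eval 0 = 0 := by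
  induction p using Polynomial.induction_on' with
  | add p q hp hq => rw [mul_add, map_add, eval_add, hp, hq, add_zero]
  | monomial n c =>
    rw [X_mul_monomial, Jl_monomial, eval_smul, eval_monomial]
    simp

theorem beta (b : ℕ) : ∀ a : ℕ, (Jl (X ^ (a + 1) * (1 - X) ^ b)).eval 1 =
    (a.factorial * b.factorial : ℂ) / (a + b + 1).factorial := by
  induction b with
  | zero =>
    intro a
    rw [pow_zero, mul_one, ← monomial_one_right_eq_X_pow, Jl_monomial, eval_smul, eval_monomial,
      add_zero, Nat.factorial_succ]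
    have h1 : ((a + 1 : ℕ) : ℂ) ≠ 0 := by exact_mod_cast Nat.succ_ne_zero a
    have h2 : (a.factorial : ℂ) ≠ 0 := by exact_mod_cast a.factorial_ne_zero
    simp only [smul_eq_mul, one_pow, mul_one, Nat.factorial_zero, Nat.cast_one, Nat.cast_mul]
    field_simp
  | succ b ih =>
    intro a
    have : (X : ℂ[X]) ^ (a + 1) * (1 - X) ^ (b + 1)
        = X ^ (a + 1) * (1 - X) ^ b - X ^ (a + 1 + 1) * (1 - X) ^ b := by ring
    rw [this, map_sub, eval_sub, ih a, ih (a + 1), show a + 1 + b + 1 = (a + b + 1) + 1 by ring,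
      show a + (b + 1) + 1 = (a + b + 1) + 1 by ring, Nat.factorial_succ (a + b + 1),
      Nat.factorial_succ a, Nat.factorial_succ b]
    have h1 : ((a + b + 1 + 1 : ℕ) : ℂ) ≠ 0 := Nat.cast_ne_zero.2 (Nat.succ_ne_zero (a + b + 1))
    have h2 : ((a + b + 1).factorial : ℂ) ≠ 0 := by exact_mod_cast Nat.factorial_ne_zero _
    push_cast at h1 ⊢
    field_simp
    ring

def dN : Fin 3 → ℕ := ![1, 2, 1]
noncomputable def sg : Fin 3 → ℂ := ![1, 1, -1]
noncomputable def wP (c : Fin 3) : ℂ[X] := monomial (dN c) (sg c)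

theorem prod_mono {ι : Type} (s : Finset ι) (d : ι → ℕ) (c : ι → ℂ) :
    ∏ i ∈ s, (monomial (d i) (c i) : ℂ[X]) = monomial (∑ i ∈ s, d i) (∏ i ∈ s, c i) := by
  classical
  induction s using Finset.induction_on with
  | empty => simp
  | insert a s ha ih =>
    rw [Finset.prod_insert ha, Finset.sum_insert ha, Finset.prod_insert ha, ih,
      monomial_mul_monomial]

theorem wP0 : wP 0 = X := monomial_one_one_eq_X
theorem wP1 : wP 1 = X ^ 2 := monomial_one_right_eq_X_pow 2
theorem wP2 : wP 2 = -X := by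
  show monomial 1 (-1 : ℂ) = -X
  rw [map_neg, monomial_one_one_eq_X]

theorem c3 (c : Fin 3) : c = 0 ∨ c = 1 ∨ c = 2 := by revert c; decide

theorem sum_words (N : ℕ) :
    ∑ τ ∈ Wd (N + 1) 1, ∏ i, wP (τ i) = ((N + 1 : ℕ) : ℂ) • (X * (X ^ 2 - X) ^ N) := by
  classical
  have h1 : ∑ τ ∈ Wd (N + 1) 1, ∏ i, wP (τ i)
      = ∑ τ : Fin (N + 1) → Fin 3, ∑ i : Fin (N + 1),
        if aset τ = {i} then ∏ l, wP (τ l) else 0 := by
    rw [Wd, Finset.sum_filter]
    refine Finset.sum_congr rfl fun τ _ => ?_
    split_ifs with h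
    · obtain ⟨i0, hi0⟩ := Finset.card_eq_one.1 h
      rw [Finset.sum_eq_single i0]
      · rw [if_pos hi0]
      · intro i _ hi
        rw [if_neg]
        rw [hi0]
        exact fun hh => hi (Finset.singleton_injective hh).symm
      · simp
    · refine (Finset.sum_eq_zero fun i _ => if_neg fun hh => h ?_).symm
      rw [hh, Finset.card_singleton]
  have h2 : ∀ i : Fin (N + 1), ∑ τ : Fin (N + 1) → Fin 3,
      (if aset τ = {i} then ∏ l, wP (τ l) else 0) = X * (X ^ 2 - X) ^ N := by
    intro i
    have e1 : (Finset.univ.filter fun τ : Fin (N + 1) → Fin 3 => aset τ = {i})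
        = Fintype.piFinset fun l => if l = i then ({0} : Finset (Fin 3)) else {1, 2} := by
      ext τ
      simp only [Finset.mem_filter, Finset.mem_univ, true_and, Fintype.mem_piFinset, aset,
        Finset.ext_iff, Finset.mem_singleton]
      refine forall_congr' fun l => ?_
      by_cases hl : l = i
      · simp [hl]
      · simp only [hl, iff_false, if_false, Finset.mem_insert, Finset.mem_singleton]
        generalize τ l = c
        revert c; decide
    rw [← Finset.sum_filter, e1, ← Finset.prod_univ_sum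
      (fun l => if l = i then ({0} : Finset (Fin 3)) else {1, 2}) (fun _ c => wP c),
      Fin.prod_univ_succAbove _ i]
    have e2 : ∀ l : Fin N, ∑ c ∈ (if i.succAbove l = i then ({0} : Finset (Fin 3)) else {1, 2}),
        wP c = X ^ 2 - X := by
      intro l
      rw [if_neg (Fin.succAbove_ne i l), Finset.sum_pair (by decide), wP1, wP2]; ring
    simp_rw [e2]
    simp [wP0]
  rw [h1, Finset.sum_comm]
  simp_rw [h2]
  rw [Finset.sum_const, Finset.card_univ, Fintype.card_fin, Nat.cast_smul_eq_nsmul]

end ALGC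
open ALGC

theorem algc (hPR : PRStmt) : ALGCStmt := by
  intro N hN
  set P : ℂ[X] := Jl (X * (X ^ 2 - X) ^ N) with hP
  have hP1 : P.eval 1 = (-1) ^ N * ((N.factorial * N.factorial : ℂ) / (2 * N + 1).factorial) := by
    have : (X : ℂ[X]) * (X ^ 2 - X) ^ N = ((-1 : ℂ) ^ N) • (X ^ (N + 1) * (1 - X) ^ N) := by
      have e : (X : ℂ[X]) ^ 2 - X = (-1) * (X * (1 - X)) := by ring
      rw [e, smul_eq_C_mul, mul_pow, mul_pow]
      simp only [map_pow, map_neg, map_one]
      ring
    rw [hP, this, map_smul, eval_smul, beta, smul_eq_mul, show N + N + 1 = 2 * N + 1 by ring]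
  have hf1 : (N.factorial : ℂ) ≠ 0 := by exact_mod_cast N.factorial_ne_zero
  have hf2 : ((2 * N + 1).factorial : ℂ) ≠ 0 := by exact_mod_cast Nat.factorial_ne_zero _
  set c : ℂ := (-1) ^ N * (((2 * N + 1).factorial : ℂ) / (N.factorial * N.factorial)) with hc
  refine ⟨c • P, c, ?_, ?_, ?_, ?_, ?_⟩
  · rw [eval_smul, hP, eval0_Jl, smul_zero]
  · rw [eval_smul, hP1, smul_eq_mul, hc]
    have : ((-1 : ℂ) ^ N) * (-1) ^ N = 1 := by rw [← mul_pow]; simp
    field_simp
    linear_combination this
  · rw [derivative_smul, hP, der_Jl, smul_eq_C_mul]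
  · rw [hc, norm_mul, norm_pow, norm_neg, norm_one, one_pow, one_mul, norm_div, norm_mul]
    simp
  · intro G _ q S C K η Y a hS
    obtain ⟨-, -, p3, p4, -, -, -, p8⟩ := hPR G q C (N + 1)
    set B : ℝ := (N : ℝ) ^ (N + 1) / (N + 1).factorial with hB
    have hw : ∀ (τ : Fin (N + 1) → Fin 3) i, wt a τ i = aeval a (wP (τ i)) := by
      intro τ i
      unfold wt
      generalize τ i = c
      rcases c3 c with rfl | rfl | rfl
      · rw [wP0, aeval_X]; rfl
      · rw [wP1, map_pow, aeval_X, sq]; rfl
      · rw [wP2, map_neg, aeval_X]; rfl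
    have hterm : ∀ τ ∈ Wd (N + 1) 1,
        pr C.carrier (wt a τ) (fun x => Y.D 0 (N + 1) x (dg τ) (aset τ))
          = (B : ℂ) * trC C.carrier (aeval a (Jl (∏ i, wP (τ i)))) := by
      intro τ hτ
      obtain ⟨i0, hi0⟩ := Finset.card_eq_one.1 (Finset.mem_filter.1 hτ).2
      have hτ0 : τ i0 = 0 := by
        have : i0 ∈ aset τ := by rw [hi0]; exact Finset.mem_singleton_self _
        simpa [aset] using this
      have hdg : ∑ l, dg τ l = ((∑ l, dN (τ l) : ℕ) : ℝ) := by
        push_cast
        refine Finset.sum_congr rfl fun l _ => ?_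
        unfold dg
        generalize τ l = c
        rcases c3 c with rfl | rfl | rfl
        · exact Nat.cast_one.symm
        · exact Nat.cast_ofNat.symm
        · exact Nat.cast_one.symm
      set m : ℕ := ∑ l, dN (τ l) with hm
      have e1 : pr C.carrier (wt a τ) (fun x => Y.D 0 (N + 1) x (dg τ) (aset τ))
          = pr C.carrier (wt a τ)
            (fun x => ∑ _u ∈ ({()} : Finset Unit), ((m : ℝ)⁻¹ * B) * (fun _ => (1 : ℝ)) x) := by
        refine p3 _ _ _ fun x hx hx' => ?_
        have hok : Ok S C.carrier x := by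
          refine ⟨fun i => ?_, hx'⟩
          have h1 := hx i
          unfold wt at h1
          generalize τ i = c at h1
          rcases c3 c with rfl | rfl | rfl
          · exact (hS _).1 h1
          · exact (hS _).2 h1
          · refine (hS _).1 fun h0 => h1 ?_
            ext u v
            have := congrFun (congrFun h0 u) v
            simp only [cf, Matrix.zero_apply] at this
            simp [cf, this]
        rw [hi0, Y.d0 (N + 1) x (dg τ) i0 (by omega) hok, hdg]
        have : dg τ i0 = 1 := by unfold dg; rw [hτ0]; rfl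
        rw [this]
        simp [hB]
      rw [e1, p4 (wt a τ) Unit {()} (fun _ => (m : ℝ)⁻¹ * B) (fun _ _ => 1), Finset.sum_singleton,
        p8]
      have e2 : (List.ofFn (wt a τ)).prod = aeval a (∏ i, wP (τ i)) := by
        rw [← List.prod_ofFn, map_list_prod, List.map_ofFn]
        congr 2
        funext i
        exact hw τ i
      have e3 : Jl (∏ i, wP (τ i)) = ((m : ℂ)⁻¹) • ∏ i, wP (τ i) := by
        unfold wP
        rw [prod_mono, Jl_monomial]
      rw [e2, e3, map_smul, map_smul, smul_eq_mul]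
      push_cast
      ring
    rw [Finset.sum_congr rfl hterm, ← Finset.mul_sum, ← map_sum, ← map_sum, ← map_sum, sum_words,
      map_smul, map_smul, map_smul, map_smul, map_smul, ← hP, smul_eq_mul, smul_eq_mul, hB,
      Nat.factorial_succ]
    have h1 : ((N : ℂ) + 1) ≠ 0 := by exact_mod_cast Nat.succ_ne_zero N
    push_cast
    field_simp

end Crest.Agent.R192B
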