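import Crest.Agent.R192B.D2

/-! Row 192: task AQE. -/

set_option autoImplicit false

open MeasureTheory Set
open scoped ContDiff

namespace Crest.Agent.R192B

theorem aqe (hCS : CSStmt) (hK : KINStmt) (hF : FRMDStmt) (hD : DFAStmt) (hP : PROFStmt)
    (hW : WQGStmt) (h1 : QA1Stmt) (h2 : QA2Stmt) : AQEStmt := by
  intro Z d M D n X J m a L k E K p hM ha ha1 ham hX hk hkL hKer hp t ht
  have hL : 0 < L := by linarith
  obtain ⟨hmono, hK1, -, -⟩ := hK L k K hk hkL hKer
  obtain ⟨B, -, -, hPr⟩ := hP Z d M D n p hM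
  obtain ⟨hcp, hgr, hprof⟩ := hPr L K hL.le hKer.smooth hmono hKer.per hp
  obtain ⟨w1, w2, w3, -, w5, -, -, w8⟩ :=
    hW Z d M D n X J m a E (fK d K p) B t (hprof t ht) ha ha1 ham hX
  obtain ⟨-, -, -, -, -, -, -, hT⟩ := hD n
  have hAQ : AQ d L X J a E K p = fun t => ∑ z ∈ B,
      frm L (lag L (wQ d X J a E (fK d K p) z)) (wQ d X J a E (fK d K p) z) t := by
    funext t'
    unfold AQ
    apply finsum_eq_sum_of_support_subset
    intro z hz
    by_contra hzB
    apply hz
    funext l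
    simp [frm, lag, w2 z hzB]
  rw [hAQ]
  generalize wQ d X J a E (fK d K p) = w at w1 w2 w3 w5 w8
  have hc : 0 ≤ 4 * cS ^ 2 * (J : ℝ) ^ 2 / a := by positivity
  have key : ∀ (T : Finset (Fin n)) (s : ℝ),
      ∑ z ∈ B, nT T (gr (w z) s t) ≤ 4 * cS ^ 2 * (J : ℝ) ^ 2 / a * aK K T t s :=
    fun T s => w8 T s _ ((hT T).2.1 _) fun z => hgr z T s t
  have hcg : ∀ z, Continuous fun s => gr (w z) s t := fun z => ((hF n).1 _ (w1 z) t).2.1
  refine ⟨ContDiff.sum fun z _ => ((hF n).2 L _ _ (h1 n L (w z) hL (w1 z)).1 (w1 z)).1, ?_, ?_⟩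
  · intro l
    have hi : ∀ z ∈ B, IntervalIntegrable (fun s => lag L (w z) s t * gr (w z) s t l) volume 0 L :=
      fun z _ => (((hF n).1 _ (h1 n L (w z) hL (w1 z)).1 t).1.mul
        ((continuous_apply l).comp (hcg z))).intervalIntegrable _ _
    simp only [Finset.sum_apply, frm]
    rw [← intervalIntegral.integral_finset_sum hi, ← Real.norm_eq_abs]
    refine (intervalIntegral.norm_integral_le_of_norm_le_const
      (C := L * (40 * cS ^ 2 * J ^ 2 / (a * k))) fun s _ => ?_).trans (le_of_eq ?_)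
    · have e1 : aK K {l} t s ≤ 10 / k := by
        unfold aK
        rw [(hT {l}).2.2.2.2.2.2, abs_of_nonneg (hKer.d_nonneg _)]
        exact hKer.d_le _
      calc ‖∑ z ∈ B, lag L (w z) s t * gr (w z) s t l‖
          ≤ ∑ z ∈ B, L * nT {l} (gr (w z) s t) := by
            refine (norm_sum_le _ _).trans (Finset.sum_le_sum fun z _ => ?_)
            rw [Real.norm_eq_abs, abs_mul, (hT {l}).2.2.2.2.2.2]
            refine mul_le_mul_of_nonneg_right ?_ (abs_nonneg _)
            refine (h1 n L (w z) hL (w1 z)).2.1 s t fun s' => ?_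
            rw [abs_of_nonneg (w3 z s' t).1]
            exact (w3 z s' t).2
        _ ≤ L * (4 * cS ^ 2 * (J : ℝ) ^ 2 / a * (10 / k)) := by
            rw [← Finset.mul_sum]
            exact mul_le_mul_of_nonneg_left
              ((key {l} s).trans (mul_le_mul_of_nonneg_left e1 hc)) hL.le
        _ = L * (40 * cS ^ 2 * J ^ 2 / (a * k)) := by field_simp; ring
    · rw [sub_zero, abs_of_pos hL]; ring
  · intro T ρ x hρ hx
    have := h2 n L Z B w T ρ t x (4 * cS ^ 2 * (J : ℝ) ^ 2 / a * √(10 * L * T.card / k)) hL w1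
      (w5 L fun z => (hcp z).2) hρ hx ?_
    · convert this using 3
      ring
    · obtain ⟨c1, -, c3⟩ := hK1 n T t
      calc (∫ s in (0 : ℝ)..L, ∑ z ∈ B, nT T (gr (w z) s t))
          ≤ ∫ s in (0 : ℝ)..L, 4 * cS ^ 2 * (J : ℝ) ^ 2 / a * aK K T t s :=
            intervalIntegral.integral_mono_on hL.le
              ((continuous_finset_sum _ fun z _ => (hT T).1.comp (hcg z)).intervalIntegrable _ _)
              ((continuous_const.mul c1).intervalIntegrable _ _) fun s _ => key T s
        _ ≤ _ := by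
            rw [intervalIntegral.integral_const_mul]
            exact mul_le_mul_of_nonneg_left c3 hc

end Crest.Agent.R192B
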