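import Crest.Agent.R192B.D2

/-! Row 192, task AQP: positivity of the marker part. -/

set_option autoImplicit false

open MeasureTheory Set
open scoped ContDiff

namespace Crest.Agent.R192B

theorem aqp (hLIN : LINStmt) (hKIN : KINStmt) (hFR : FRMDStmt) (hPR : PROFStmt) (hWQ : WQGStmt)
    (hQA : QA1Stmt) (hS : SINLStmt) : AQPStmt := by
  classical
  intro Z d M D n X J m ρ₀ a L k E K p hmet ha ha1 ham hD hk hkL hK hloop hρ t ht
  have hL : 0 < L := by linarith
  have hpi := Real.pi_pos
  obtain ⟨hmono, -, -, hint⟩ := hKIN L k K hk hkL hK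
  obtain ⟨B, hB, hout, hrest⟩ := hPR Z d M D n p hmet
  obtain ⟨hcp, -, hprof⟩ := hrest L K hL.le hK.smooth hmono hK.per hloop
  obtain ⟨wsm, wout, w01, wcov, wper, wzero, wone, -⟩ :=
    hWQ Z d M D n X J m a E (fK d K p) B t (hprof t ht) ha ha1 ham hD
  set w := wQ d X J a E (fK d K p) with hw
  have hq := fun x => hQA n L (w x) hL (wsm x)
  have hcont : ∀ x, Continuous fun s => Real.pi / (2 * L) *
      ∫ r in (0 : ℝ)..L, Real.sin (Real.pi * r / L) * (w x s t - w x (s - r) t) ^ 2 :=
    fun x => continuous_const.mul ((hq x).2.2.1 t)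
  have hnn : ∀ x s, 0 ≤ Real.pi / (2 * L) *
      ∫ r in (0 : ℝ)..L, Real.sin (Real.pi * r / L) * (w x s t - w x (s - r) t) ^ 2 := by
    intro x s
    refine mul_nonneg (by positivity) (intervalIntegral.integral_nonneg hL.le fun r hr => ?_)
    refine mul_nonneg (Real.sin_nonneg_of_nonneg_of_le_pi ?_ ?_) (sq_nonneg _)
    · exact div_nonneg (mul_nonneg hpi.le hr.1) hL.le
    · rw [div_le_iff₀ hL]; exact mul_le_mul_of_nonneg_left hr.2 hpi.le
  refine ⟨fun s => ∑ x ∈ B, Real.pi / (2 * L) *
      ∫ r in (0 : ℝ)..L, Real.sin (Real.pi * r / L) * (w x s t - w x (s - r) t) ^ 2,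
    continuous_finsetSum _ fun x _ => hcont x, fun s => Finset.sum_nonneg fun x _ => hnn x s, ?_, ?_⟩
  · have h1 : AQ d L X J a E K p t = ∑ x ∈ B, frm L (lag L (w x)) (w x) t := by
      unfold AQ
      refine finsum_eq_sum_of_support_subset _ fun x hx => ?_
      by_contra hxB
      apply hx
      funext l
      have h0 : ∀ s, lag L (w x) s t = 0 := fun s => by
        unfold lag
        simp [wout x hxB]
      show (∫ s in (0 : ℝ)..L, lag L (w x) s t * gr (w x) s t l) = 0
      simp [h0]
    rw [h1, intervalIntegral.integral_finsetSum fun x _ => (hcont x).intervalIntegrable _ _]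
    simp only [Finset.sum_apply]
    rw [Finset.sum_comm]
    exact Finset.sum_congr rfl fun x _ =>
      (hq x).2.2.2 (wcov (fun z => (hcp z).1) x) (wper L (fun z => (hcp z).2) x) t
  · intro s x hg hx hmin hmz
    have hDr : (2 * X + 2 : ℝ) ≤ D := by exact_mod_cast hD
    have hX0 : (0 : ℝ) ≤ X := Nat.cast_nonneg _
    have hxB : x ∈ B := by
      by_contra hxB
      rw [hout K x hxB] at hx
      linarith
    have h1 : w x s t = 1 := wone x s t hg hx fun x' hx' => hmin x' ((hB x').1 hx')
    refine le_trans ?_ (Finset.single_le_sum (f := fun x => Real.pi / (2 * L) *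
      ∫ r in (0 : ℝ)..L, Real.sin (Real.pi * r / L) * (w x s t - w x (s - r) t) ^ 2)
      (fun x _ => hnn x s) hxB)
    show 3 / 1000 ≤ Real.pi / (2 * L) *
      ∫ r in (0 : ℝ)..L, Real.sin (Real.pi * r / L) * (w x s t - w x (s - r) t) ^ 2
    rw [h1]
    have hwc : Continuous fun u => w x u t := ((hFR n).1 (w x) (wsm x) t).1
    have hYc : Continuous fun r => (1 - w x (s - r) t) ^ 2 :=
      (continuous_const.sub (hwc.comp (continuous_const.sub continuous_id))).pow 2
    set ind : Fin (n + 1) → ℝ := fun j => if d x (p j) ≤ ρ₀ then 1 else 0 with hind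
    have hil : ind (Fin.last n) = ind 0 := by simp only [hind, hloop.1]
    obtain ⟨bsm, -, -, bper, -⟩ := (hLIN n K hK.smooth).1 1 ind
    have bc : Continuous fun u => lin K 1 ind u t := ((hFR n).1 _ bsm t).1
    have bp : Function.Periodic (fun u => lin K 1 ind u t) L := fun u => bper L hK.per hil u t
    have bint : (∫ r in (0 : ℝ)..L, lin K 1 ind (s - r) t) = L * mz d ρ₀ L p x t := by
      rw [intervalIntegral.integral_comp_sub_left (fun u => lin K 1 ind u t) s]
      have := bp.intervalIntegral_add_eq (s - L) 0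
      rw [sub_add_cancel, zero_add] at this
      rw [sub_zero, this]
      exact hint n ind t hil
    have hρr : (100 * (X + 1) : ℝ) ≤ ρ₀ := by exact_mod_cast hρ
    have hpt : ∀ u, 99 / 100 - lin K 1 ind u t ≤ (1 - w x u t) ^ 2 := by
      intro u
      obtain ⟨ν, ν0, ν1, hν⟩ := (hLIN n K hK.smooth).2 L hL.le hmono hK.per t ht u
      have e1 := hν ind hil
      have e2 : fK d K p x u t = ∑ j, ν j * (d x (p j) : ℝ) :=
        hν (fun j => (d x (p j) : ℝ)) (by simp only [hloop.1])
      have b0 : 0 ≤ lin K 1 ind u t := by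
        rw [e1]
        refine Finset.sum_nonneg fun j _ => mul_nonneg (ν0 j) ?_
        simp only [hind]; split_ifs <;> norm_num
      by_cases hf : (X : ℝ) + 1 ≤ fK d K p x u t
      · rw [wzero x u t hf]; linarith
      · have b1 : ρ₀ * (1 - lin K 1 ind u t) ≤ fK d K p x u t := by
          rw [e1, e2, ← ν1, ← Finset.sum_sub_distrib, Finset.mul_sum]
          refine Finset.sum_le_sum fun j _ => ?_
          have := ν0 j
          have h2 : (0 : ℝ) ≤ d x (p j) := Nat.cast_nonneg _
          simp only [hind]
          split_ifs with hj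
          · nlinarith
          · have : (ρ₀ : ℝ) ≤ d x (p j) := by exact_mod_cast (not_le.1 hj).le
            nlinarith
        have b2 : 1 - lin K 1 ind u t ≤ 1 / 100 := by
          by_contra hh
          push Not at hh hf
          nlinarith
        nlinarith [sq_nonneg (1 - w x u t)]
    have hY : 9 / 100 * L ≤ ∫ r in (0 : ℝ)..L, (1 - w x (s - r) t) ^ 2 := by
      have bc' : Continuous fun r => lin K 1 ind (s - r) t :=
        bc.comp (continuous_const.sub continuous_id)
      have := intervalIntegral.integral_mono_on (μ := volume)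
        (f := fun r => 99 / 100 - lin K 1 ind (s - r) t) hL.le
        ((continuous_const.sub bc').intervalIntegrable 0 L) (hYc.intervalIntegrable 0 L)
        (fun r _ => hpt (s - r))
      rw [intervalIntegral.integral_sub (continuous_const.intervalIntegrable _ _)
        (bc'.intervalIntegrable _ _), bint, intervalIntegral.integral_const] at this
      simp only [sub_zero, smul_eq_mul] at this
      nlinarith
    have h5 := hS L _ hL hYc (fun r => ⟨sq_nonneg _, by
      have := w01 x (s - r) t
      nlinarith [this.1, this.2]⟩) hY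
    have h6 : Real.pi / (2 * L) * (L / 500) = Real.pi / 1000 := by field_simp; ring
    have h7 := mul_le_mul_of_nonneg_left h5 (by positivity : 0 ≤ Real.pi / (2 * L))
    linarith [Real.pi_gt_three]

end Crest.Agent.R192B
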