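import Crest.Agent.R192B.D1

set_option autoImplicit false

open MeasureTheory Set

namespace Crest.Agent.R192B
namespace ROT

theorem rot_castSucc {n : ℕ} (k : Fin n) : finRotate (n + 1) k.castSucc = k.succ := by
  apply Fin.ext
  rw [coe_finRotate_of_ne_last (Fin.castSucc_ne_last k)]
  rfl

theorem rotV_rot {α : Type} {n : ℕ} (u : Fin (n + 1) → α) (k : Fin (n + 1)) :
    rotV u (finRotate (n + 1) k) = u k := by
  induction k using Fin.lastCases with
  | last => rw [finRotate_last]; rfl
  | cast k => rw [rot_castSucc]; rfl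

/-- `rotV` as a continuous linear equivalence -/
noncomputable def R (n : ℕ) : (Fin (n + 1) → ℝ) ≃L[ℝ] (Fin (n + 1) → ℝ) :=
  (LinearEquiv.funCongrLeft ℝ ℝ (finRotate (n + 1)).symm).toContinuousLinearEquiv

theorem R_rot {n : ℕ} (u : Fin (n + 1) → ℝ) (k : Fin (n + 1)) :
    R n u (finRotate (n + 1) k) = u k := by
  show u ((finRotate (n + 1)).symm (finRotate (n + 1) k)) = u k
  rw [Equiv.symm_apply_apply]

theorem R_eq {n : ℕ} (u : Fin (n + 1) → ℝ) : R n u = rotV u := by
  funext i
  obtain ⟨k, rfl⟩ := (finRotate (n + 1)).surjective i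
  rw [R_rot, rotV_rot]

theorem sum_R {n : ℕ} (u : Fin (n + 1) → ℝ) : ∑ i, R n u i = ∑ i, u i := by
  rw [← Equiv.sum_comp (finRotate (n + 1))]
  simp only [R_rot]

theorem R_ee {n : ℕ} (k : Fin (n + 1)) : R n (ee k) = ee (finRotate (n + 1) k) := by
  funext i
  obtain ⟨l, rfl⟩ := (finRotate (n + 1)).surjective i
  rw [R_rot]
  simp only [ee, Pi.single_apply, (finRotate (n + 1)).injective.eq_iff]

theorem rotT_eq (L : ℝ) {n : ℕ} (t : Fin (n + 1) → ℝ) : rotT L t = R n t - L • ee 0 := by
  rw [R_eq]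
  funext i
  induction i using Fin.cases with
  | zero => simp [rotT, rotV]
  | succ i => simp [rotT, rotV]

theorem gam_rot (L : ℝ) (j n : ℕ) (d : Fin (n + 1) → ℝ) (f f' : Vf (n + 1))
    (h : ∀ t, f' (rotT L t) = rotV (f t)) (s : Fin (n + 1) → ℝ) :
    gam j (rotV d) f' (rotT L s) =
      ExteriorAlgebra.map (R n : (Fin (n + 1) → ℝ) →ₗ[ℝ] (Fin (n + 1) → ℝ)) (gam j d f s) := by
  have hth : ∀ t, th f' (rotT L t) = R n (th f t) := by
    intro t
    simp only [th]
    rw [h, ← R_eq, sum_R, map_smul]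
  have hth0 : th0 (rotV d) = R n (th0 d) := by
    simp only [th0]
    rw [← R_eq, sum_R, map_smul]
  have hD : ∀ v, fderiv ℝ (th f') (rotT L s) (R n v) = R n (fderiv ℝ (th f) s v) := by
    intro v
    have e1 : (fun u => th f' (u - L • ee 0)) ∘ (R n) = (R n) ∘ th f := by
      funext t
      simp only [Function.comp]
      rw [← rotT_eq, hth]
    have e2 := (R n).comp_right_fderiv (f := fun u => th f' (u - L • ee 0)) (x := s)
    rw [e1, (R n).comp_fderiv, fderiv_comp_sub, ← rotT_eq] at e2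
    exact (congrArg (fun A : (Fin (n + 1) → ℝ) →L[ℝ] (Fin (n + 1) → ℝ) => A v) e2).symm
  have hdF : dF (th f') (rotT L s) =
      ExteriorAlgebra.map (R n : (Fin (n + 1) → ℝ) →ₗ[ℝ] (Fin (n + 1) → ℝ)) (dF (th f) s) := by
    simp only [dF, map_sum, map_mul, ExteriorAlgebra.map_apply_ι]
    rw [← Equiv.sum_comp (finRotate (n + 1))]
    refine Finset.sum_congr rfl fun k _ => ?_
    rw [← R_ee, hD]
    rfl
  simp only [gam, map_mul, map_pow, ExteriorAlgebra.map_apply_ι]
  rw [hdF, hth, hth0]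
  rfl

theorem dirs_rot {n : ℕ} (T : Finset (Fin (n + 1))) :
    (dirs ((T.image (finRotate (n + 1))).erase 0)).map (fun w => w ∘ finRotate (n + 1)) =
      dirs (T.erase (Fin.last n)) := by
  have e1 : (T.image (finRotate (n + 1))).erase 0 =
      (T.erase (Fin.last n)).map (finRotate (n + 1)).toEmbedding := by
    rw [Finset.map_erase, Finset.map_eq_image]
    simp only [Equiv.coe_toEmbedding, finRotate_last]
  have e2 := Finset.map_sort (finRotate (n + 1)).toEmbedding (T.erase (Fin.last n)) (· ≤ ·) (· ≤ ·)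
    (fun a ha b hb => by
      have ha' := coe_finRotate_of_ne_last (Finset.ne_of_mem_erase ha)
      have hb' := coe_finRotate_of_ne_last (Finset.ne_of_mem_erase hb)
      simp only [Equiv.coe_toEmbedding, Fin.le_def]
      omega)
  rw [dirs, dirs, e1, ← e2, List.map_map, List.map_map]
  refine List.map_congr_left fun k _ => ?_
  funext i
  simp only [Function.comp, Equiv.coe_toEmbedding, ee, Pi.single_apply,
    (finRotate (n + 1)).injective.eq_iff]

theorem face (L : ℝ) {n : ℕ} (t : Fin n → ℝ) : rotT L (upF L (Fin.last n) t) = loF 0 t := by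
  simp [rotT, upF, loF, Fin.insertNth_last', Fin.insertNth_zero']

end ROT
open ROT

theorem rot (_ : SIMPStmt) (hE : EVStmt) : ROTStmt := by
  intro L j n d f f' T _ _ h _
  unfold cUp cLo
  congr 1
  funext t
  rw [← face L t, gam_rot L j n d f f' h,
    (hE (n + 1)).2.2.2.2.2.2 (n + 1) _ (fun w => w ∘ finRotate (n + 1)) ?_, dirs_rot]
  intro u w
  rw [← Equiv.sum_comp (finRotate (n + 1))]
  exact Finset.sum_congr rfl fun k _ => congrArg _ (R_rot u k)

end Crest.Agent.R192B
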