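import Crest.Agent.R192B.D2
import Crest.Agent.R192B.ROT

set_option autoImplicit false

open scoped ContDiff

namespace Crest.Agent.R192B
namespace AZA
open Finset Complex

theorem gam_congr (L ϑ : ℝ) {b b' : Prop} [Decidable b] [Decidable b'] (h : b ↔ b') (v : ℝ) :
    Gam L ϑ b v = Gam L ϑ b' v := by
  unfold Gam
  rw [if_congr h rfl rfl]

theorem gam_zero (L ϑ : ℝ) (b b' : Prop) [Decidable b] [Decidable b'] :
    Gam L ϑ b 0 = Gam L ϑ b' 0 := by
  unfold Gam
  split_ifs <;> simp

theorem zz (ϑ : ℝ) : exp (ϑ * I) * exp (-(ϑ * I)) = 1 := by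
  rw [← exp_add]; simp

theorem conj_z (ϑ : ℝ) : (starRingEnd ℂ) (exp (ϑ * I)) = exp (-(ϑ * I)) := by
  rw [← exp_conj]; simp

theorem conj_z' (ϑ : ℝ) : (starRingEnd ℂ) (exp (-(ϑ * I))) = exp (ϑ * I) := by
  rw [← exp_conj]; simp

theorem gam_shift (L ϑ : ℝ) {b b' : Prop} [Decidable b] [Decidable b'] (hb : b) (hb' : ¬ b')
    (v v' : ℝ) (h : v' = v + L) : exp (ϑ * I) * Gam L ϑ b v' = Gam L ϑ b' v := by
  unfold Gam
  rw [if_pos hb, if_neg hb', ← mul_div_assoc, h]
  congr 1
  push_cast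
  linear_combination ((v : ℂ) + L) * zz ϑ

theorem gam_shift' (L ϑ : ℝ) {b b' : Prop} [Decidable b] [Decidable b'] (hb : b) (hb' : ¬ b')
    (v v' : ℝ) (h : v' = v + L) : exp (-(ϑ * I)) * Gam L ϑ b' v = Gam L ϑ b v' := by
  rw [← gam_shift L ϑ hb hb' v v' h, ← mul_assoc, mul_comm (exp (-(ϑ * I))), zz, one_mul]

theorem four_sin (ϑ : ℝ) : ((4 * Real.sin (ϑ / 2) ^ 2 : ℝ) : ℂ) =
    (1 - exp (ϑ * I)) * (1 - exp (-(ϑ * I))) := by
  have h1 : 4 * Real.sin (ϑ / 2) ^ 2 = 2 - 2 * Real.cos ϑ := by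
    have := Real.cos_two_mul (ϑ / 2)
    rw [show 2 * (ϑ / 2) = ϑ by ring] at this
    have h2 := Real.sin_sq_add_cos_sq (ϑ / 2)
    linarith
  have h2 := Complex.two_cos (ϑ : ℂ)
  rw [h1]
  push_cast
  rw [show -(ϑ : ℂ) * I = -(ϑ * I) by ring] at h2
  linear_combination (-1 : ℂ) * h2 - zz ϑ

theorem smooth (L ϑ : ℝ) {n : ℕ} (P : Fin (n + 1) → ℂ) : ContDiff ℝ ∞ (AZ1 L ϑ P) := by
  refine contDiff_pi.2 fun l => ?_
  refine reCLM.contDiff.comp (ContDiff.sum fun i _ => contDiff_const.mul ?_)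
  have h : ContDiff ℝ ∞ fun t : Fin n → ℝ => ((t l - t i : ℝ) : ℂ) :=
    ofRealCLM.contDiff.comp ((contDiff_apply ℝ ℝ l).sub (contDiff_apply ℝ ℝ i))
  unfold Gam
  refine ContDiff.div_const ?_ _
  split_ifs
  · exact contDiff_const.sub (h.mul contDiff_const)
  · exact contDiff_const.add (h.mul contDiff_const)

theorem contract_eq {α : Type} [AddCommMonoid α] {n : ℕ} (i : Fin n) (f : Fin (n + 1) → α)
    (m : Fin n) : Fin.contractNth i.castSucc (· + ·) f m =
      f (i.castSucc.succAbove m) + if m = i then f i.castSucc else 0 := by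
  by_cases h : m = i
  · subst h
    rw [Fin.contractNth_apply_of_eq _ _ _ _ rfl, if_pos rfl, Fin.succAbove_castSucc_self, add_comm]
  · rw [Fin.contractNth_apply_of_ne _ _ _ _ (fun h' => h (Fin.ext h'.symm)), if_neg h, add_zero]

theorem sum_contract {n : ℕ} (i : Fin n) (f : Fin (n + 1) → ℂ) (g : Fin n → ℂ) :
    ∑ k, f k * g (i.predAbove k) =
      ∑ m, (f (i.castSucc.succAbove m) + if m = i then f i.castSucc else 0) * g m := by
  rw [Fin.sum_univ_succAbove _ i.castSucc]
  simp only [Fin.predAbove_succAbove, Fin.predAbove_castSucc_self, add_mul, sum_add_distrib,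
    ite_mul, zero_mul, sum_ite_eq', mem_univ, if_true]
  ring

theorem vsa {n : ℕ} (p : Fin (n + 1)) (k : Fin n) :
    (p.succAbove k : ℕ) = if (k : ℕ) < p then (k : ℕ) else k + 1 := by
  unfold Fin.succAbove
  split_ifs with h1 h2 h2
  · rfl
  · exact absurd h1 h2
  · exact absurd h2 h1
  · rfl

theorem delta_mer {n : ℕ} (P : Fin (n + 2) → ℂ) (i m : Fin n) :
    mer i P m.succ - mer i P m.castSucc =
      (P (i.castSucc.succAbove m).succ - P (i.castSucc.succAbove m).castSucc) +
        if m = i then P i.castSucc.succ - P i.castSucc.castSucc else 0 := by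
  unfold mer
  have e1 : i.succ.castSucc.succAbove m.succ = (i.castSucc.succAbove m).succ := by
    apply Fin.ext
    simp only [vsa, Fin.val_succ, Fin.val_castSucc]
    split_ifs <;> omega
  by_cases h : m = i
  · subst h
    have e2 : m.succ.castSucc.succAbove m.castSucc = m.castSucc.castSucc := by
      apply Fin.ext
      simp only [vsa, Fin.val_succ, Fin.val_castSucc]
      split_ifs <;> omega
    have e3 : (m.castSucc.succAbove m).castSucc = m.castSucc.succ := by
      apply Fin.ext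
      simp only [vsa, Fin.val_succ, Fin.val_castSucc]
      split_ifs <;> omega
    rw [e1, e2, e3, if_pos rfl]; ring
  · have h' : (m : ℕ) ≠ i := fun h' => h (Fin.ext h')
    have e2 : i.succ.castSucc.succAbove m.castSucc = (i.castSucc.succAbove m).castSucc := by
      apply Fin.ext
      simp only [vsa, Fin.val_succ, Fin.val_castSucc]
      split_ifs <;> omega
    rw [e1, e2, if_neg h, add_zero]

theorem coll (L ϑ : ℝ) {n : ℕ} (P : Fin (n + 2) → ℂ) (i : Fin n) (t : Fin n → ℝ) :
    AZ1 L ϑ (mer i P) t = pb i (AZ1 L ϑ P (dup i t)) := by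
  have hg : ∀ k' k : Fin (n + 1), Gam L ϑ (k' ≤ k) (dup i t k - dup i t k') =
      Gam L ϑ (i.predAbove k' ≤ i.predAbove k) (t (i.predAbove k) - t (i.predAbove k')) := by
    intro k' k
    unfold dup
    by_cases h : i.predAbove k' = i.predAbove k
    · rw [h, sub_self]; exact gam_zero _ _ _ _
    · refine gam_congr _ _ ⟨fun h' => Fin.predAbove_right_monotone i h', fun h' => ?_⟩ _
      by_contra hc
      exact h (le_antisymm h' (Fin.predAbove_right_monotone i (not_le.1 hc).le))
  have hA : ∀ k : Fin (n + 1), AZ1 L ϑ P (dup i t) k = ((P k.succ - P k.castSucc) *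
      ∑ m : Fin n, (starRingEnd ℂ) (mer i P m.succ - mer i P m.castSucc) *
        Gam L ϑ (m ≤ i.predAbove k) (t (i.predAbove k) - t m)).re := by
    intro k
    unfold AZ1
    congr 1
    have := sum_contract i (fun k' => (starRingEnd ℂ) (P k'.succ - P k'.castSucc))
      (fun m => Gam L ϑ (m ≤ i.predAbove k) (t (i.predAbove k) - t m))
    simp only [hg]
    rw [show ∑ m : Fin n, (starRingEnd ℂ) (mer i P m.succ - mer i P m.castSucc) *
        Gam L ϑ (m ≤ i.predAbove k) (t (i.predAbove k) - t m) = _ from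
        (sum_congr rfl fun m _ => ?_).trans this.symm, mul_sum]
    · exact sum_congr rfl fun k' _ => by ring
    · rw [delta_mer, map_add]
      split_ifs <;> simp
  funext m
  rw [pb, contract_eq, hA, hA, Fin.predAbove_succAbove, Fin.predAbove_castSucc_self]
  have hL : AZ1 L ϑ (mer i P) t m = ((mer i P m.succ - mer i P m.castSucc) *
      ∑ m' : Fin n, (starRingEnd ℂ) (mer i P m'.succ - mer i P m'.castSucc) *
        Gam L ϑ (m' ≤ m) (t m - t m')).re := by
    unfold AZ1
    congr 1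
    rw [mul_sum]
    exact sum_congr rfl fun k' _ => by ring
  rw [hL, delta_mer P i m]
  split_ifs with h
  · subst h
    rw [add_mul, add_re]
  · rw [add_zero, add_zero]

theorem rot (L ϑ : ℝ) {n : ℕ} (P P' : Fin (n + 2) → ℂ)
    (h1 : P (Fin.last (n + 1)) = exp (ϑ * I) * P 0)
    (h2 : exp (ϑ * I) * P' 0 = P (Fin.last n).castSucc)
    (h3 : ∀ j : Fin (n + 1), P' j.succ = P j.castSucc) (t : Fin (n + 1) → ℝ) :
    AZ1 L ϑ P' (rotT L t) = rotV (AZ1 L ϑ P t) := by
  have d0 : P' (0 : Fin (n + 1)).succ - P' (0 : Fin (n + 1)).castSucc =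
      exp (-(ϑ * I)) * (P (Fin.last n).succ - P (Fin.last n).castSucc) := by
    rw [h3, Fin.succ_last, h1, ← h2]
    simp only [Fin.castSucc_zero]
    linear_combination (P' 0 - P 0) * zz ϑ
  have ds : ∀ k : Fin n, P' k.succ.succ - P' k.succ.castSucc =
      P k.castSucc.succ - P k.castSucc.castSucc := by
    intro k
    rw [h3, ← Fin.succ_castSucc, h3, Fin.succ_castSucc]
  have t0 : rotT L t 0 = t (Fin.last n) - L := rfl
  have ts : ∀ k : Fin n, rotT L t k.succ = t k.castSucc := fun _ => rfl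
  funext l
  induction l using Fin.cases with
  | zero =>
    show _ = AZ1 L ϑ P t (Fin.last n)
    unfold AZ1
    congr 1
    rw [Fin.sum_univ_succ, Fin.sum_univ_castSucc, add_comm]
    congr 1
    · refine sum_congr rfl fun k _ => ?_
      rw [d0, ds, t0, ts, ← gam_shift' L ϑ (b := k.castSucc ≤ Fin.last n) (b' := k.succ ≤ 0)
        (Fin.le_last _) (by simp) (t (Fin.last n) - L - t k.castSucc) _ (by ring)]
      ring
    · rw [d0, sub_self, sub_self, map_mul, conj_z',
        gam_zero L ϑ ((0 : Fin (n + 1)) ≤ 0) (Fin.last n ≤ Fin.last n)]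
      linear_combination ((starRingEnd ℂ) (P (Fin.last n).succ - P (Fin.last n).castSucc) *
        (P (Fin.last n).succ - P (Fin.last n).castSucc) * Gam L ϑ (Fin.last n ≤ Fin.last n) 0) * zz ϑ
  | succ l =>
    show _ = AZ1 L ϑ P t l.castSucc
    unfold AZ1
    congr 1
    rw [Fin.sum_univ_succ, Fin.sum_univ_castSucc, add_comm]
    congr 1
    · refine sum_congr rfl fun k _ => ?_
      rw [ds, ds, ts, ts, gam_congr L ϑ (b := k.succ ≤ l.succ) (b' := k.castSucc ≤ l.castSucc)
        (by simp)]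
    · rw [d0, ds, t0, ts, map_mul, conj_z', ← gam_shift L ϑ (b := (0 : Fin (n + 1)) ≤ l.succ)
        (b' := Fin.last n ≤ l.castSucc) (Fin.zero_le _) (not_le.2 (Fin.castSucc_lt_last l))
        (t l.castSucc - t (Fin.last n)) (t l.castSucc - (t (Fin.last n) - L)) (by ring)]
      ring

theorem tele {n : ℕ} (Q : Fin (n + 1) → ℂ) (k : Fin (n + 1)) :
    ∑ i : Fin n, (if (i : ℕ) < k then Q i.succ - Q i.castSucc else 0) = Q k - Q 0 := by
  induction k using Fin.induction with
  | zero => simp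
  | succ k ih =>
    have : ∀ i : Fin n, (if (i : ℕ) < k.succ then Q i.succ - Q i.castSucc else 0) =
        (if (i : ℕ) < k.castSucc then Q i.succ - Q i.castSucc else 0) +
          if i = k then Q i.succ - Q i.castSucc else 0 := by
      intro i
      simp only [Fin.val_succ, Fin.val_castSucc, Fin.ext_iff]
      split_ifs <;> first | omega | simp
    simp only [this]
    rw [sum_add_distrib, ih, sum_ite_eq']
    simp

theorem split {n : ℕ} (Q : Fin (n + 1) → ℂ) (k : Fin (n + 1)) (a b : ℂ) (p : Fin n → Prop)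
    [DecidablePred p] (hp : ∀ i, p i ↔ (i : ℕ) < k) :
    ∑ i : Fin n, (Q i.succ - Q i.castSucc) * (if p i then a else b) =
      a * (Q k - Q 0) + b * (Q (Fin.last n) - Q k) := by
  have h1 := tele Q k
  have h2 := tele Q (Fin.last n)
  have : Q (Fin.last n) - Q k = (Q (Fin.last n) - Q 0) - (Q k - Q 0) := by ring
  rw [this, ← h1, ← h2, ← sum_sub_distrib, mul_sum, mul_sum, ← sum_add_distrib]
  refine sum_congr rfl fun i _ => ?_
  have hi : (i : ℕ) < Fin.last n := i.2
  rw [if_pos hi, if_congr (hp i) rfl rfl]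
  split_ifs <;> ring

theorem total (L ϑ : ℝ) {n : ℕ} (P : Fin (n + 1) → ℂ) (h1 : P (Fin.last n) = exp (ϑ * I) * P 0)
    (hL : L ≠ 0) (hs : Real.sin (ϑ / 2) ≠ 0) (t : Fin n → ℝ) :
    ∑ l, AZ1 L ϑ P t l = L * avg L (fun j => ‖P j‖ ^ 2) t := by
  set z := exp (ϑ * I) with hz
  set z' := exp (-(ϑ * I)) with hz'
  have hzz : z * z' = 1 := zz ϑ
  set s : ℂ := ((4 * Real.sin (ϑ / 2) ^ 2 : ℝ) : ℂ) with hs'
  have hs0 : s ≠ 0 := by
    rw [hs']; exact_mod_cast mul_ne_zero (by norm_num) (pow_ne_zero 2 hs)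
  have hs1 : s = (1 - z) * (1 - z') := four_sin ϑ
  set Q : Fin (n + 1) → ℂ := fun j => (starRingEnd ℂ) (P j) with hQ
  have h2 : Q (Fin.last n) = z' * Q 0 := by
    simp only [hQ]
    rw [h1, map_mul, hz, conj_z]
  set w : Fin n → Fin n → ℂ := fun i l => if i ≤ l then -(1 - z') else 1 - z with hw
  have hG : ∀ (i l : Fin n) (v : ℝ), Gam L ϑ (i ≤ l) v = (L + v * w i l) / s := by
    intro i l v
    simp only [Gam, hw]
    split_ifs
    · congr 1; ring
    · rfl
  have a1 : ∀ m : Fin n, ∑ i : Fin n, (Q i.succ - Q i.castSucc) * w i m = -s * Q m.succ := by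
    intro m
    rw [split Q m.succ _ _ (fun i => i ≤ m) (fun i => Nat.lt_succ_iff.symm), h2, hs1]
    linear_combination (Q m.succ - Q 0) * hzz
  have a2 : ∀ m : Fin n, ∑ l : Fin n, (P l.succ - P l.castSucc) * w m l = s * P m.castSucc := by
    intro m
    have : ∀ l, w m l = if l < m then 1 - z else -(1 - z') := by
      intro l
      simp only [hw]
      by_cases h : m ≤ l
      · rw [if_pos h, if_neg (not_lt.2 h)]
      · rw [if_neg h, if_pos (not_le.1 h)]
    simp only [this]
    rw [split P m.castSucc _ _ (fun l => l < m) (fun i => Iff.rfl), h1, hs1]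
    linear_combination (P 0 - P m.castSucc) * hzz
  have a3 : ∑ i : Fin n, (P i.succ - P i.castSucc) = (z - 1) * P 0 := by
    have := tele P (Fin.last n)
    rw [h1] at this
    rw [sub_mul, one_mul, ← this]
    exact sum_congr rfl fun i _ => (if_pos i.2).symm
  have a4 : ∑ i : Fin n, (Q i.succ - Q i.castSucc) = (z' - 1) * Q 0 := by
    have := tele Q (Fin.last n)
    rw [h2] at this
    rw [sub_mul, one_mul, ← this]
    exact sum_congr rfl fun i _ => (if_pos i.2).symm
  have hn : ∀ j, ((‖P j‖ ^ 2 : ℝ) : ℂ) = Q j * P j := by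
    intro j
    simp only [hQ]
    rw [conj_mul']
    push_cast; rfl
  have key : ∑ l : Fin n, ∑ i : Fin n, (starRingEnd ℂ) (P i.succ - P i.castSucc) *
      (P l.succ - P l.castSucc) * Gam L ϑ (i ≤ l) (t l - t i) =
      ((L * avg L (fun j => ‖P j‖ ^ 2) t : ℝ) : ℂ) := by
    have e1 : ∀ l i : Fin n, (starRingEnd ℂ) (P i.succ - P i.castSucc) *
        (P l.succ - P l.castSucc) * Gam L ϑ (i ≤ l) (t l - t i) =
        L / s * ((P l.succ - P l.castSucc) * (Q i.succ - Q i.castSucc)) +
        (t l * (P l.succ - P l.castSucc) / s * ((Q i.succ - Q i.castSucc) * w i l) -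
         t i * (Q i.succ - Q i.castSucc) / s * ((P l.succ - P l.castSucc) * w i l)) := by
      intro l i
      rw [hG, map_sub]
      simp only [hQ]
      push_cast
      field_simp
    simp only [e1, sum_add_distrib, sum_sub_distrib]
    rw [sum_comm (f := fun l i : Fin n =>
      t i * (Q i.succ - Q i.castSucc) / s * ((P l.succ - P l.castSucc) * w i l))]
    simp only [← mul_sum, ← sum_mul, a1, a2, a3, a4]
    rw [← sum_sub_distrib]
    have hLc : (L : ℂ) ≠ 0 := by exact_mod_cast hL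
    simp only [avg, lin]
    push_cast
    have hn' : ∀ j, ((‖P j‖ : ℝ) : ℂ) ^ 2 = Q j * P j := fun j => by rw [← hn]; push_cast; rfl
    simp only [hn']
    rw [mul_add, mul_sum]
    congr 1
    · field_simp
      rw [hs1]; ring
    · refine sum_congr rfl fun m _ => ?_
      field_simp
      ring
  unfold AZ1
  rw [← re_sum, key, ofReal_re]

end AZA
open AZA

theorem aza : AZAStmt := by
  intro L ϑ n
  refine ⟨fun P => ⟨smooth L ϑ P, fun t c => ?_, fun c hc => ?_⟩, coll L ϑ, AZA.rot L ϑ,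
    fun P h1 hL hs t => total L ϑ P h1 hL hs t⟩
  · funext l
    simp only [AZ1, add_sub_add_right_eq_sub]
  · funext t l
    unfold AZ1
    congr 1
    refine Finset.sum_congr rfl fun i _ => ?_
    have : (starRingEnd ℂ) c * c = 1 := by
      rw [Complex.conj_mul', hc]; simp
    rw [← mul_sub, ← mul_sub, map_mul]
    linear_combination ((starRingEnd ℂ) (P i.succ - P i.castSucc) * (P l.succ - P l.castSucc) *
      Gam L ϑ (i ≤ l) (t l - t i)) * this

end Crest.Agent.R192B
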