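import Crest.Agent.R192B.D2

set_option autoImplicit false

open MeasureTheory Set
open scoped ContDiff

namespace Crest.Agent.R192B

namespace AZB

lemma gam_eq (L ϑ v : ℝ) (b : Prop) [Decidable b] (hs : Real.sin (ϑ / 2) ≠ 0) :
    Gam L ϑ b v = ((L / (4 * Real.sin (ϑ / 2) ^ 2) + v * (if b then -1 / 2 else 1 / 2) : ℝ) : ℂ)
      - ((v * (Real.cos (ϑ / 2) / Real.sin (ϑ / 2) / 2) : ℝ) : ℂ) * Complex.I := by
  have hc : Real.cos ϑ = 1 - 2 * Real.sin (ϑ / 2) ^ 2 := by
    have h1 := Real.cos_two_mul (ϑ / 2)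
    have h2 := Real.sin_sq_add_cos_sq (ϑ / 2)
    rw [show 2 * (ϑ / 2) = ϑ by ring] at h1
    linarith
  have hsn : Real.sin ϑ = 2 * Real.sin (ϑ / 2) * Real.cos (ϑ / 2) := by
    have h1 := Real.sin_two_mul (ϑ / 2)
    rwa [show 2 * (ϑ / 2) = ϑ by ring] at h1
  have e1 : Complex.exp (ϑ * Complex.I) = ((Real.cos ϑ : ℝ) : ℂ) + ((Real.sin ϑ : ℝ) : ℂ) * Complex.I := by
    rw [Complex.exp_mul_I]; push_cast; ring
  have e2 : Complex.exp (-(ϑ * Complex.I)) =
      ((Real.cos ϑ : ℝ) : ℂ) - ((Real.sin ϑ : ℝ) : ℂ) * Complex.I := by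
    rw [show -((ϑ : ℂ) * Complex.I) = ((-ϑ : ℝ) : ℂ) * Complex.I by push_cast; ring,
      Complex.exp_mul_I, ← Complex.ofReal_cos, ← Complex.ofReal_sin, Real.cos_neg, Real.sin_neg]
    push_cast; ring
  unfold Gam
  rw [e1, e2, hc, hsn]
  generalize Real.sin (ϑ / 2) = s at hs ⊢
  generalize Real.cos (ϑ / 2) = c
  have hs' : (s : ℂ) ≠ 0 := by exact_mod_cast hs
  split_ifs
  · push_cast; field_simp; ring
  · push_cast; field_simp; ring

lemma gam_norm (L ϑ v c₀ : ℝ) (b : Prop) [Decidable b] (hL : 0 ≤ L) (hv : |v| ≤ L) (hc : 0 < c₀)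
    (hs : c₀ ≤ |Real.sin (ϑ / 2)|) : ‖Gam L ϑ b v‖ ≤ 3 * L / (4 * c₀ ^ 2) := by
  have hD : 4 * c₀ ^ 2 ≤ 4 * Real.sin (ϑ / 2) ^ 2 := by
    have : c₀ ^ 2 ≤ |Real.sin (ϑ / 2)| ^ 2 := pow_le_pow_left₀ hc.le hs 2
    rw [sq_abs] at this; linarith
  have hpos : 0 < 4 * c₀ ^ 2 := by positivity
  have h2 : ∀ z : ℂ, ‖z‖ = 1 → ‖(v : ℂ) * (1 - z)‖ ≤ 2 * L := by
    intro z hz
    rw [norm_mul, Complex.norm_real, Real.norm_eq_abs]
    have : ‖1 - z‖ ≤ 2 := by
      have := norm_sub_le (1 : ℂ) z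
      rw [norm_one, hz] at this; linarith
    have h3 := mul_le_mul hv this (norm_nonneg _) hL
    linarith
  have hLn : ‖(L : ℂ)‖ = L := by rw [Complex.norm_real, Real.norm_eq_abs, abs_of_nonneg hL]
  unfold Gam
  rw [norm_div, Complex.norm_real, Real.norm_eq_abs, abs_of_nonneg (hpos.le.trans hD)]
  refine div_le_div₀ (by positivity) ?_ hpos hD
  split_ifs
  · have h3 := h2 (Complex.exp (-(ϑ * Complex.I))) (by
      rw [show -((ϑ : ℂ) * Complex.I) = ((-ϑ : ℝ) : ℂ) * Complex.I by push_cast; ring]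
      exact Complex.norm_exp_ofReal_mul_I _)
    have := norm_sub_le (L : ℂ) ((v : ℂ) * (1 - Complex.exp (-(ϑ * Complex.I))))
    linarith
  · have h3 := h2 (Complex.exp (ϑ * Complex.I)) (Complex.norm_exp_ofReal_mul_I _)
    have := norm_add_le (L : ℂ) ((v : ℂ) * (1 - Complex.exp (ϑ * Complex.I)))
    linarith

lemma io_sub {n : ℕ} (u v : Fin n → ℝ) : io (u - v) = io u - io v := map_sub _ u v

lemma io_smul {n : ℕ} (c : ℝ) (u : Fin n → ℝ) : io (c • u) = c • io u := map_smul _ c u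

lemma io_sum {n : ℕ} (u : Fin n → Fin n → ℝ) : io (∑ i, u i) = ∑ i, io (u i) := map_sum _ u _

lemma io_sq {n : ℕ} (u : Fin n → ℝ) : io u * io u = 0 := ExteriorAlgebra.ι_sq_zero u

/-- the derivative of an affine form -/
lemma dF_aff {n : ℕ} (c0 : Fin n → ℝ) (C : Fin n → Fin n → ℝ) (t : Fin n → ℝ) :
    dF (fun t l => c0 l + ∑ i, (t l - t i) * C i l) t =
      -∑ m, ∑ l, C m l • (io (ee m) * io (ee l)) := by
  classical
  let M : (Fin n → ℝ) →ₗ[ℝ] (Fin n → ℝ) :=
    LinearMap.pi fun l => ∑ i, C i l • ((LinearMap.proj l : (Fin n → ℝ) →ₗ[ℝ] ℝ) - LinearMap.proj i)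
  have hM : ∀ t l, M t l = ∑ i, (t l - t i) * C i l := by
    intro t l
    simp [M, LinearMap.sum_apply, mul_comm]
  have hf : (fun (t : Fin n → ℝ) l => c0 l + ∑ i, (t l - t i) * C i l) =
      fun t => c0 + LinearMap.toContinuousLinearMap M t := by
    funext t l
    simp [hM]
  have hd : fderiv ℝ (fun (t : Fin n → ℝ) l => c0 l + ∑ i, (t l - t i) * C i l) t =
      LinearMap.toContinuousLinearMap M := by
    rw [hf, fderiv_const_add, ContinuousLinearMap.fderiv]
  unfold dF
  rw [hd, ← Finset.sum_neg_distrib]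
  refine Finset.sum_congr rfl fun m _ => ?_
  have he : (LinearMap.toContinuousLinearMap M) (ee m) =
      (∑ i, C i m) • ee m - ∑ l, C m l • ee l := by
    funext l
    simp only [LinearMap.coe_toContinuousLinearMap', hM, Pi.sub_apply, Pi.smul_apply,
      Finset.sum_apply, smul_eq_mul, ee, sub_mul, Finset.sum_sub_distrib]
    congr 1
    · by_cases h : l = m
      · subst h; simp
      · simp [Pi.single_eq_of_ne h]
    · simp [Pi.single_apply]
  rw [he, io_sub, io_smul, io_sum, mul_sub, mul_smul_comm, io_sq, smul_zero,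
    zero_sub, Finset.mul_sum]
  congr 1
  refine Finset.sum_congr rfl fun l _ => ?_
  rw [io_smul, mul_smul_comm]

lemma io_eq {n : ℕ} (a : Fin n → ℝ) : io a = ∑ m, a m • io (ee m) := by
  classical
  have : a = ∑ m, a m • ee m := by
    funext l; simp [Finset.sum_apply, Pi.single_apply]
  conv_lhs => rw [this]
  rw [io_sum]
  simp only [io_smul]

lemma anti {n : ℕ} (u v : Fin n → ℝ) : io u * io v = -(io v * io u) :=
  eq_neg_of_add_eq_zero_left (ExteriorAlgebra.ι_add_mul_swap u v)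

/-- the ordered quadratic element -/
noncomputable def oq {n : ℕ} (a : Fin n → ℝ) : Ext n :=
  ∑ l, ∑ i, if i < l then (a i * a l) • (io (ee i) * io (ee l)) else 0

lemma sgn_sum {n : ℕ} (a : Fin n → ℝ) :
    ∑ m, ∑ l, (a m * a l * (if m ≤ l then -1 / 2 else 1 / 2)) • (io (ee m) * io (ee l)) = -oq a := by
  have h1 : ∀ m l : Fin n, (a m * a l * (if m ≤ l then -1 / 2 else 1 / 2)) • (io (ee m) * io (ee l)) =
      (-1 / 2 : ℝ) • (if m < l then (a m * a l) • (io (ee m) * io (ee l)) else 0) +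
      (-1 / 2 : ℝ) • (if l < m then (a l * a m) • (io (ee l) * io (ee m)) else 0) := by
    intro m l
    rcases lt_trichotomy m l with h | h | h
    · rw [if_pos h.le, if_pos h, if_neg (not_lt.2 h.le), smul_zero, add_zero, smul_smul, mul_comm]
    · subst h; simp
    · rw [if_neg (not_le.2 h), if_neg (not_lt.2 h.le), if_pos h, smul_zero, zero_add, smul_smul,
        anti (ee l) (ee m), smul_neg, ← neg_smul]
      congr 1; ring
  simp_rw [h1, Finset.sum_add_distrib, ← Finset.smul_sum]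
  rw [Finset.sum_comm]
  unfold oq
  rw [← add_smul, ← neg_one_smul ℝ]
  congr 1; norm_num

lemma cross_sum {n : ℕ} (a b : Fin n → ℝ) (κ : ℝ) :
    ∑ m, ∑ l, ((a m * b l - b m * a l) * (κ / 2)) • (io (ee m) * io (ee l)) =
      κ • (io a * io b) := by
  have h1 : ∀ a b : Fin n → ℝ, io a * io b = ∑ m, ∑ l, (a m * b l) • (io (ee m) * io (ee l)) := by
    intro a b
    rw [io_eq a, io_eq b, Finset.sum_mul_sum]
    refine Finset.sum_congr rfl fun m _ => Finset.sum_congr rfl fun l _ => ?_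
    rw [smul_mul_smul_comm]
  have h2 : κ • (io a * io b) = (κ / 2) • (io a * io b) - (κ / 2) • (io b * io a) := by
    rw [anti b a, smul_neg, sub_neg_eq_add, ← add_smul]; congr 1; ring
  rw [h2, h1 a b, h1 b a, Finset.smul_sum, Finset.smul_sum, ← Finset.sum_sub_distrib]
  refine Finset.sum_congr rfl fun m _ => ?_
  rw [Finset.smul_sum, Finset.smul_sum, ← Finset.sum_sub_distrib]
  refine Finset.sum_congr rfl fun l _ => ?_
  rw [smul_smul, smul_smul, ← sub_smul]; congr 1; ring

lemma dF_AZ1 (L ϑ : ℝ) {n : ℕ} (P : Fin (n + 1) → ℂ) (hs : Real.sin (ϑ / 2) ≠ 0) (t : Fin n → ℝ) :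
    dF (AZ1 L ϑ P) t = (oq (fun l => (P l.succ - P l.castSucc).re) +
      oq (fun l => (P l.succ - P l.castSucc).im)) +
      (-(Real.cos (ϑ / 2) / Real.sin (ϑ / 2))) •
        (io (fun l => (P l.succ - P l.castSucc).re) * io (fun l => (P l.succ - P l.castSucc).im)) := by
  set a : Fin n → ℝ := fun l => (P l.succ - P l.castSucc).re with ha
  set b : Fin n → ℝ := fun l => (P l.succ - P l.castSucc).im with hb
  set κ := Real.cos (ϑ / 2) / Real.sin (ϑ / 2) with hκ
  have hf : AZ1 L ϑ P = fun t l => (∑ i, (a i * a l + b i * b l) * (L / (4 * Real.sin (ϑ / 2) ^ 2))) +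
      ∑ i, (t l - t i) * (a i * a l * (if i ≤ l then -1 / 2 else 1 / 2) +
        b i * b l * (if i ≤ l then -1 / 2 else 1 / 2) + (a i * b l - b i * a l) * (κ / 2)) := by
    funext t l
    unfold AZ1
    rw [Complex.re_sum, ← Finset.sum_add_distrib]
    refine Finset.sum_congr rfl fun i _ => ?_
    rw [gam_eq _ _ _ _ hs]
    simp only [Complex.mul_re, Complex.mul_im, Complex.sub_re, Complex.sub_im, Complex.ofReal_re,
      Complex.ofReal_im, Complex.I_re, Complex.I_im, Complex.conj_re, Complex.conj_im, ha, hb, hκ]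
    ring
  rw [hf, dF_aff]
  simp_rw [add_smul, Finset.sum_add_distrib]
  rw [sgn_sum, sgn_sum, cross_sum, neg_smul]
  abel

lemma nT_single {n : ℕ} (T : Finset (Fin n)) (i : Fin n) (c : ℝ) :
    nT T (c • ee i) = if i ∈ T then |c| else 0 := by
  classical
  unfold nT
  have : ∀ j, ((c • ee i : Fin n → ℝ) j) ^ 2 = if j = i then c ^ 2 else 0 := by
    intro j; by_cases h : j = i
    · subst h; simp
    · simp [h]
  simp_rw [this]
  rw [Finset.sum_ite_eq']
  split_ifs
  · exact Real.sqrt_sq_eq_abs c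
  · exact Real.sqrt_zero

lemma gb_oq (hDBD : DBDStmt) (hGEN : GENStmt) {n : ℕ} (a : Fin n → ℝ) (γ : ℝ) (hγ : 0 ≤ γ)
    (ha : ∀ l, |a l| ≤ γ) (T : Finset (Fin n)) (ρ : Ext n →ₐ[ℝ] Op n) (x : ℝ) (hρ : IsJW T ρ)
    (hx : 0 ≤ x) : GB (ρ (oq a)) x (Real.exp (√x * (γ * T.card))) := by
  classical
  let y : ℕ → Op n := fun i => if h : i < n then ρ (io (a ⟨i, h⟩ • ee ⟨i, h⟩)) else 0
  have hy : ∀ i : Fin n, y i = ρ (io (a i • ee i)) := by
    intro i; simp only [y, dif_pos i.2]
  have hanti : ∀ i l, y i * y l = -(y l * y i) := by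
    intro i l
    simp only [y]
    split_ifs
    · rw [← map_mul ρ, ← map_mul ρ, ← map_neg ρ, anti]
    all_goals simp
  have hD := hDBD (Op n) Unit n (fun _ => ()) y hanti
  have he : (∑ l ∈ Finset.range n, ∑ i ∈ (Finset.range l).filter (fun i => (fun _ : ℕ => ()) i =
      (fun _ : ℕ => ()) l), y i * y l) = ρ (oq a) := by
    unfold oq
    rw [map_sum, Finset.sum_range]
    refine Finset.sum_congr rfl fun l _ => ?_
    rw [Finset.filter_true_of_mem (fun _ _ => rfl), map_sum]
    have h1 : ∑ i ∈ Finset.range (l : ℕ), y i * y l =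
        ∑ i ∈ Finset.range n, if i < (l : ℕ) then y i * y l else 0 := by
      rw [← Finset.sum_filter]
      congr 1
      ext i
      simp only [Finset.mem_range, Finset.mem_filter]
      have := l.2
      omega
    rw [h1, Finset.sum_range]
    refine Finset.sum_congr rfl fun i _ => ?_
    by_cases h : i < l
    · rw [if_pos h, if_pos (show (i : ℕ) < l from h), hy, hy, ← map_mul ρ, io_smul, io_smul,
        smul_mul_smul_comm]
    · rw [if_neg h, if_neg (show ¬ (i : ℕ) < l from h), map_zero]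
  have hΦ : ∑ i ∈ Finset.range n, ‖y i‖ ≤ γ * T.card := by
    rw [Finset.sum_range]
    calc ∑ i : Fin n, ‖y i‖ ≤ ∑ i : Fin n, if i ∈ T then γ else 0 := by
          refine Finset.sum_le_sum fun i _ => ?_
          rw [hy]
          refine (hρ.1 _).trans ?_
          rw [nT_single]
          split_ifs
          · exact ha i
          · exact le_rfl
      _ = γ * T.card := by
          rw [Finset.sum_ite_mem, Finset.univ_inter, Finset.sum_const, nsmul_eq_mul, mul_comm]
  have h6 := (hGEN (Op n) x hx).2.2.2.2.2.1 (ρ (oq a)) 1 (γ * T.card) zero_le_one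
    (mul_nonneg hγ (Nat.cast_nonneg _))
    (fun m => by
      have h := hD m
      rw [he] at h
      refine h.trans ?_
      have : (∑ i ∈ Finset.range n, ‖y i‖) ^ (2 * m) ≤ (γ * T.card) ^ (2 * m) :=
        pow_le_pow_left₀ (Finset.sum_nonneg fun _ _ => norm_nonneg _) hΦ _
      gcongr)
  rwa [one_smul, one_mul] at h6

end AZB

open AZB in
theorem azb : DFAStmt → DBDStmt → GENStmt → AZBStmt := by
  intro hDFA hDBD hGEN L ϑ γ c₀ n P hL hγ hc hs hP
  refine ⟨fun t ht l => ?_, fun t T ρ x hρ hx => ?_⟩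
  · unfold AZ1
    refine (Complex.abs_re_le_norm _).trans ((norm_sum_le _ _).trans ?_)
    calc _ ≤ ∑ _i : Fin n, γ ^ 2 * (3 * L / (4 * c₀ ^ 2)) := by
          refine Finset.sum_le_sum fun i _ => ?_
          rw [norm_mul, norm_mul, RCLike.norm_conj]
          have h1 : |t l - t i| ≤ L := by
            have := ht.1 l; have := ht.1 i
            simp only [mem_Icc] at *
            rw [abs_le]; constructor <;> linarith
          have h2 := gam_norm L ϑ (t l - t i) c₀ (i ≤ l) hL h1 hc hs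
          have h3 := hP i
          have h4 := hP l
          rw [sq γ]
          gcongr
      _ = _ := by simp [mul_assoc]
  · have hs0 : Real.sin (ϑ / 2) ≠ 0 := by
      intro h; rw [h, abs_zero] at hs; linarith
    rw [dF_AZ1 L ϑ P hs0]
    set a : Fin n → ℝ := fun l => (P l.succ - P l.castSucc).re with ha
    set b : Fin n → ℝ := fun l => (P l.succ - P l.castSucc).im with hb
    have hab : ∀ l, |a l| ≤ γ := fun l => (Complex.abs_re_le_norm _).trans (hP l)
    have hbb : ∀ l, |b l| ≤ γ := fun l => (Complex.abs_im_le_norm _).trans (hP l)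
    have hG := hGEN (Op n) x hx
    have hD := hDFA n
    have hcom : ∀ (a : Fin n → ℝ) (α : Ext n), Commute (oq a) α := by
      intro a α
      unfold oq
      refine Commute.sum_left _ _ _ fun l _ => Commute.sum_left _ _ _ fun i _ => ?_
      split_ifs
      · exact (hD.2.2.2.1 _ _ α).smul_left _
      · exact Commute.zero_left _
    have g1 := gb_oq hDBD hGEN a γ hγ hab T ρ x hρ hx
    have g2 := gb_oq hDBD hGEN b γ hγ hbb T ρ x hρ hx
    have g12 := hG.1 _ _ _ _ ((hcom a (oq b)).map ρ) g1 g2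
    have hκ : |Real.cos (ϑ / 2) / Real.sin (ϑ / 2)| ≤ 1 / c₀ := by
      rw [abs_div]
      exact div_le_div₀ zero_le_one (Real.abs_cos_le_one _) hc hs
    have hT : (T.card : ℝ) ≤ n := by
      have := Finset.card_le_univ T
      rw [Fintype.card_fin] at this
      exact_mod_cast this
    have hn : ∀ u : Fin n → ℝ, (∀ l, |u l| ≤ γ) → ‖ρ (io u)‖ ≤ n * γ := fun u hu =>
      (hρ.1 u).trans (((hD.2.2.2.2.2.2.2 T).2.2.2.2.2.1 u γ hγ hu).trans (by gcongr))
    have g3 := hG.2.2.2.1 (ρ ((-(Real.cos (ϑ / 2) / Real.sin (ϑ / 2))) • (io a * io b)))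
      ((n * γ) ^ 2 / c₀) (by
        rw [← map_mul, smul_mul_smul_comm, (hD.2.2.2.2.1 a b).2, smul_zero, map_zero]) (by
        rw [map_smul, norm_smul, map_mul, Real.norm_eq_abs, abs_neg]
        have h1 := norm_mul_le (ρ (io a)) (ρ (io b))
        have h2 := hn a hab
        have h3 := hn b hbb
        calc _ ≤ (1 / c₀) * ((n * γ) * (n * γ)) := by
              refine mul_le_mul hκ (h1.trans ?_) (norm_nonneg _) (by positivity)
              gcongr
          _ = _ := by ring)
    have hc3 : Commute (oq a + oq b) ((-(Real.cos (ϑ / 2) / Real.sin (ϑ / 2))) • (io a * io b)) :=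
      (hcom a _).add_left (hcom b _)
    rw [← map_add] at g12
    have g := hG.1 _ _ _ _ (hc3.map ρ) g12 g3
    rw [← map_add, ← Real.exp_add] at g
    convert g using 3
    ring

end Crest.Agent.R192B
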