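import Crest.Agent.R192B.D2

/-! Row 192, task AZE: estimates for the dominant part. -/

set_option autoImplicit false

open MeasureTheory Set
open scoped ContDiff

namespace Crest.Agent.R192B

namespace AZE

variable {Z : Type}

/-- indicator vertex data -/
noncomputable def ind (d : Z → Z → ℕ) (ρ₀ : ℕ) {n : ℕ} (p : Fin (n + 1) → Z) (z : Z) :
    Fin (n + 1) → ℝ := fun j => if d z (p j) ≤ ρ₀ then 1 else 0

lemma mz_eq (d : Z → Z → ℕ) (ρ₀ : ℕ) (L : ℝ) {n : ℕ} (p : Fin (n + 1) → Z) (z : Z) :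
    mz d ρ₀ L p z = lin (fun u => u / L) 1 (ind d ρ₀ p z) 0 := rfl

lemma ind_step (d : Z → Z → ℕ) (ρ₀ : ℕ) {n : ℕ} (p : Fin (n + 1) → Z) (z : Z)
    (i j : Fin (n + 1)) : |ind d ρ₀ p z i - ind d ρ₀ p z j| ≤ 1 := by
  unfold ind
  split_ifs <;> simp

lemma mz_zero (d : Z → Z → ℕ) (ρ₀ : ℕ) (L : ℝ) {n : ℕ} (p : Fin (n + 1) → Z) (z : Z)
    (h : ∀ j, ¬ d z (p j) ≤ ρ₀) (t : Fin n → ℝ) : mz d ρ₀ L p z t = 0 := by
  rw [mz_eq]
  simp [lin, ind, h]

lemma sm_slice {n : ℕ} (u : Fn n) (hu : Sm u) (s : ℝ) : ContDiff ℝ ∞ (u s) := by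
  have : u s = (fun p : (Fin n → ℝ) × ℝ => u p.2 p.1) ∘ fun t => (t, s) := rfl
  rw [this]
  exact hu.comp (contDiff_id.prodMk contDiff_const)

lemma contK (L : ℝ) : ContDiff ℝ ∞ (fun u : ℝ => u / L) := contDiff_id.div_const L

/-- the cutoff -/
noncomputable def chi (d : Z → Z → ℕ) (ρ₀ : ℕ) (L : ℝ) {n : ℕ} (p : Fin (n + 1) → Z) (z : Z)
    (t : Fin n → ℝ) : ℝ := ST (10 * mz d ρ₀ L p z t - 8)

lemma mz_smooth (hL : LINStmt) (d : Z → Z → ℕ) (ρ₀ : ℕ) (L : ℝ) {n : ℕ} (p : Fin (n + 1) → Z)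
    (z : Z) : ContDiff ℝ ∞ (mz d ρ₀ L p z) := by
  rw [mz_eq]
  exact sm_slice _ ((hL n _ (contK L)).1 1 _).1 0

lemma chi_smooth (hL : LINStmt) (d : Z → Z → ℕ) (ρ₀ : ℕ) (L : ℝ) {n : ℕ} (p : Fin (n + 1) → Z)
    (z : Z) : ContDiff ℝ ∞ (chi d ρ₀ L p z) := by
  unfold chi
  exact Real.smoothTransition.contDiff.comp
    ((contDiff_const.mul (mz_smooth hL d ρ₀ L p z)).sub contDiff_const)

lemma chi_fderiv (hL : LINStmt) (d : Z → Z → ℕ) (ρ₀ : ℕ) (L : ℝ) {n : ℕ} (p : Fin (n + 1) → Z)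
    (z : Z) (t : Fin n → ℝ) (l : Fin n) :
    fderiv ℝ (chi d ρ₀ L p z) t (ee l) = deriv ST (10 * mz d ρ₀ L p z t - 8) *
      (10 * (-(ind d ρ₀ p z l.succ - ind d ρ₀ p z l.castSucc) * (1 / L))) := by
  have h1 : DifferentiableAt ℝ (mz d ρ₀ L p z) t :=
    ((mz_smooth hL d ρ₀ L p z).differentiable (by simp)).differentiableAt
  have h2 : HasFDerivAt (fun t => 10 * mz d ρ₀ L p z t - 8)
      ((10 : ℝ) • fderiv ℝ (mz d ρ₀ L p z) t) t :=
    (h1.hasFDerivAt.const_mul 10).sub_const 8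
  have h3 : HasDerivAt ST (deriv ST (10 * mz d ρ₀ L p z t - 8)) (10 * mz d ρ₀ L p z t - 8) :=
    ((Real.smoothTransition.contDiff (n := 1)).differentiable (by simp)).differentiableAt.hasDerivAt
  have h4 := h3.comp_hasFDerivAt t h2
  have h5 : fderiv ℝ (chi d ρ₀ L p z) t =
      deriv ST (10 * mz d ρ₀ L p z t - 8) • ((10 : ℝ) • fderiv ℝ (mz d ρ₀ L p z) t) :=
    h4.fderiv
  have h6 : fderiv ℝ (mz d ρ₀ L p z) t (ee l) =
      -(ind d ρ₀ p z l.succ - ind d ρ₀ p z l.castSucc) * (1 / L) := by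
    have := ((hL n _ (contK L)).1 1 (ind d ρ₀ p z)).2.2.1 0 t l
    rw [mz_eq]
    unfold gr at this
    rw [this]
    congr 1
    simp
  rw [h5]
  simp only [smul_apply, smul_eq_mul, h6]

lemma chi_mem (d : Z → Z → ℕ) (ρ₀ : ℕ) (L : ℝ) {n : ℕ} (p : Fin (n + 1) → Z)
    (z : Z) (t : Fin n → ℝ) : 0 ≤ chi d ρ₀ L p z t ∧ chi d ρ₀ L p z t ≤ 1 :=
  ⟨Real.smoothTransition.nonneg _, Real.smoothTransition.le_one _⟩

end AZE

open AZE in
theorem aze : CSStmt → METStmt → LINStmt → PROFStmt → DFAStmt → GENStmt → AZAStmt → AZBStmt →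
    AZEStmt := by
  intro hCS hMET hLIN hPROF hDFA hGEN hAZA hAZB
  intro G _ S M D len g ρ₀ ρ₁ n γ c₀ L Ψ ϑ y hlen hM hΨ h01 h0D hγ0 hγ1 hc₀ hL1 hn hcl hst t ht
  classical
  obtain ⟨hcS1, hcSb, hcS0, -⟩ := hCS
  obtain ⟨hmet, hpg, -⟩ := hMET G S M D len g hlen
  have hL0 : 0 < L := by linarith
  set d := dq g len with hd
  set p : Fin (n + 1) → Zq g := fun j => pZ g (y j) with hp
  have hplast : p (Fin.last n) = p 0 := by
    simp only [hp]
    rw [hcl, hpg]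
  obtain ⟨B, hB, -⟩ := hPROF (Zq g) d M D n p hmet
  set P : Zq g → Fin (n + 1) → ℂ := fun z j => Ψ z.out (y j) with hP
  set f : Zq g → Vf n := fun z => AZ1 L (ϑ z.out) (P z) with hf
  set χ : Zq g → (Fin n → ℝ) → ℝ := fun z => chi d ρ₀ L p z with hχ
  have hc1 : c₀ ≤ 1 := (hΨ.sin_ge 1).trans (Real.abs_sin_le_one _)
  have hmz0 : ∀ z, z ∉ B → ∀ t', mz d ρ₀ L p z t' = 0 := by
    intro z hz t'
    apply mz_zero
    intro j hj
    exact hz ((hB z).2 ⟨j, by omega⟩)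
  have hAZ : AZ g len L ρ₀ Ψ ϑ y = fun t' => ∑ z ∈ B, χ z t' • f z t' := by
    funext t'
    unfold AZ
    apply finsum_eq_sum_of_support_subset
    intro z hz
    by_contra hzB
    apply hz
    have : mz (dq g len) ρ₀ L (fun j => pZ g (y j)) z t' = 0 := hmz0 z hzB t'
    simp only [this]
    have h0 : ST (10 * 0 - 8) = 0 := Real.smoothTransition.zero_of_nonpos (by norm_num)
    rw [h0, zero_smul]
  have hfs : ∀ z, ContDiff ℝ ∞ (f z) := fun z => ((hAZA L (ϑ z.out) n).1 (P z)).1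
  have hχs : ∀ z, ContDiff ℝ ∞ (χ z) := fun z => chi_smooth hLIN d ρ₀ L p z
  have hcfs : ∀ z, ContDiff ℝ ∞ (fun t' => χ z t' • f z t') := fun z => (hχs z).smul (hfs z)
  -- weights
  obtain ⟨ν, hν0, hν1, hν⟩ := (hLIN n _ (contK L)).2 L hL0.le
    (fun a b hab => div_le_div_of_nonneg_right hab hL0.le)
    (fun u => by field_simp) t ht 0
  have hmzν : ∀ z, mz d ρ₀ L p z t = ∑ j, ν j * ind d ρ₀ p z j := by
    intro z
    rw [mz_eq]
    apply hν
    simp only [ind, hplast]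
  set A := B.filter (fun z => 8 / 10 < mz d ρ₀ L p z t) with hA
  have hAB : A ⊆ B := Finset.filter_subset _ _
  have hoff : ∀ z ∈ B, z ∉ A → 10 * mz d ρ₀ L p z t - 8 ≤ 0 := by
    intro z hz hzA
    have : ¬ 8 / 10 < mz d ρ₀ L p z t := fun h => hzA (Finset.mem_filter.2 ⟨hz, h⟩)
    linarith [not_lt.1 this]
  have hχ0 : ∀ z ∈ B, z ∉ A → χ z t = 0 := fun z hz hzA =>
    Real.smoothTransition.zero_of_nonpos (hoff z hz hzA)
  have hAcard : A.card ≤ M ^ (2 * ρ₀) := by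
    rcases A.eq_empty_or_nonempty with h | ⟨z0, hz0⟩
    · rw [h]; simp
    obtain ⟨B', hB'c, hB'⟩ := hmet.ball z0 (2 * ρ₀) h0D
    refine le_trans (Finset.card_le_card ?_) hB'c
    intro z hz
    apply hB'
    have h1 := (Finset.mem_filter.1 hz0).2
    have h2 := (Finset.mem_filter.1 hz).2
    rw [hmzν] at h1 h2
    by_contra hcon
    have hle : ∑ j, ν j * ind d ρ₀ p z0 j + ∑ j, ν j * ind d ρ₀ p z j ≤ ∑ j, ν j := by
      rw [← Finset.sum_add_distrib]
      apply Finset.sum_le_sum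
      intro j _
      have hj := hν0 j
      unfold ind
      split_ifs with ha hb hb
      · exfalso
        apply hcon
        have := hmet.tri z0 (p j) z
        rw [hmet.symm (p j) z] at this
        omega
      · simp
      · simp
      · simpa using hj
    linarith
  have hstep : ∀ z, ∀ l : Fin n, ‖P z l.succ - P z l.castSucc‖ ≤ γ := by
    intro z l
    have := hΨ.lip z.out (y l.castSucc) _ (hst l)
    simpa [hP] using this
  have hAZBz := fun z => hAZB L (ϑ z.out) γ c₀ n (P z) hL0.le hγ0 hc₀ (hΨ.sin_ge _) (hstep z)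
  have hn0 : (0 : ℝ) ≤ n := Nat.cast_nonneg n
  have hfb : ∀ z l, |f z t l| ≤ 9 * L ^ 2 / (4 * c₀ ^ 2) := by
    intro z l
    refine ((hAZBz z).1 t ht l).trans ?_
    have h1 : (n : ℝ) * γ ^ 2 ≤ 3 * L := by
      have : γ ^ 2 ≤ 1 := by nlinarith
      nlinarith
    calc (n : ℝ) * γ ^ 2 * (3 * L / (4 * c₀ ^ 2)) ≤ 3 * L * (3 * L / (4 * c₀ ^ 2)) := by gcongr
      _ = 9 * L ^ 2 / (4 * c₀ ^ 2) := by ring
  have hsumA : ∀ l, AZ g len L ρ₀ Ψ ϑ y t l = ∑ z ∈ A, χ z t * f z t l := by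
    intro l
    rw [hAZ]
    simp only [Finset.sum_apply, Pi.smul_apply, smul_eq_mul]
    symm
    apply Finset.sum_subset hAB
    intro z hz hzA
    rw [hχ0 z hz hzA, zero_mul]
  -- the trace
  have htr : ∀ z, ∑ l, f z t l = L * ∑ j, ν j * ‖P z j‖ ^ 2 := by
    intro z
    have hPl : P z (Fin.last n) = Complex.exp (ϑ z.out * Complex.I) * P z 0 := by
      simp only [hP]
      rw [hcl, hΨ.tw]
    have hs : Real.sin (ϑ z.out / 2) ≠ 0 := by
      intro h
      have := hΨ.sin_ge z.out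
      rw [h, abs_zero] at this
      linarith
    rw [(hAZA L (ϑ z.out) n).2.2.2 (P z) hPl hL0.ne' hs t]
    congr 1
    apply hν
    simp only [hPl, norm_mul, Complex.norm_exp_ofReal_mul_I, one_mul]
  have htot : ∑ l, AZ g len L ρ₀ Ψ ϑ y t l =
      ∑ z ∈ B, χ z t * (L * ∑ j, ν j * ‖P z j‖ ^ 2) := by
    rw [hAZ]
    simp only [Finset.sum_apply, Pi.smul_apply, smul_eq_mul]
    rw [Finset.sum_comm]
    apply Finset.sum_congr rfl
    intro z _
    rw [← Finset.mul_sum, htr]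
  have hterm : ∀ z, 0 ≤ χ z t * (L * ∑ j, ν j * ‖P z j‖ ^ 2) := fun z =>
    mul_nonneg (chi_mem d ρ₀ L p z t).1 (mul_nonneg hL0.le
      (Finset.sum_nonneg fun j _ => mul_nonneg (hν0 j) (sq_nonneg _)))
  refine ⟨?_, ?_, ?_, ?_, ?_⟩
  · rw [hAZ]
    exact ContDiff.sum fun z _ => hcfs z
  · intro l
    rw [hsumA]
    have hb : ∀ z ∈ A, |χ z t * f z t l| ≤ 3 * L ^ 2 / c₀ ^ 2 := by
      intro z _
      rw [abs_mul]
      have h1 : |χ z t| ≤ 1 := abs_le.2 ⟨by linarith [(chi_mem d ρ₀ L p z t).1],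
        (chi_mem d ρ₀ L p z t).2⟩
      have h2 := hfb z l
      have h3 : 9 * L ^ 2 / (4 * c₀ ^ 2) ≤ 3 * L ^ 2 / c₀ ^ 2 := by
        rw [div_le_div_iff₀ (by positivity) (by positivity)]
        have : 0 ≤ L ^ 2 * c₀ ^ 2 := by positivity
        nlinarith
      calc |χ z t| * |f z t l| ≤ 1 * (9 * L ^ 2 / (4 * c₀ ^ 2)) := by gcongr
        _ ≤ _ := by linarith
    calc |∑ z ∈ A, χ z t * f z t l| ≤ ∑ z ∈ A, |χ z t * f z t l| := Finset.abs_sum_le_sum_abs _ _
      _ ≤ A.card • (3 * L ^ 2 / c₀ ^ 2) := Finset.sum_le_card_nsmul _ _ _ hb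
      _ = (A.card : ℝ) * (3 * L ^ 2 / c₀ ^ 2) := by rw [nsmul_eq_mul]
      _ ≤ (M : ℝ) ^ (2 * ρ₀) * (3 * L ^ 2 / c₀ ^ 2) := by
        gcongr
        exact_mod_cast hAcard
  · intro T ρ x hρ hx
    obtain ⟨hD1, -, hD3, hD4, hD5, hD6, -, hD8⟩ := hDFA n
    obtain ⟨-, hT0, -, -, -, hTb, -⟩ := hD8 T
    obtain ⟨hG1, hG2, -, hG4, hG5, -, hG7, -⟩ := hGEN (Op n) x hx
    set u : Zq g → Fin n → ℝ := fun z l => fderiv ℝ (χ z) t (ee l) with hu
    set ϖ : Zq g → Ext n := fun z => io (u z) * io (f z t) + χ z t • dF (f z) t with hϖ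
    have hdF : dF (AZ g len L ρ₀ Ψ ϑ y) t = ∑ z ∈ A, ϖ z := by
      rw [hAZ, hD1 _ B (fun z t' => χ z t' • f z t') t (fun z _ => hcfs z)]
      rw [← Finset.sum_subset hAB]
      · exact Finset.sum_congr rfl fun z _ => hD3 _ _ t (hχs z) (hfs z)
      · intro z hz hzA
        rw [hD3 _ _ t (hχs z) (hfs z), hχ0 z hz hzA]
        have : (fun l => fderiv ℝ (χ z) t (ee l)) = 0 := by
          funext l
          simp only [hχ]
          rw [chi_fderiv hLIN, hcS0 _ (hoff z hz hzA), zero_mul]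
          rfl
        rw [this]
        simp
    have hTn : (T.card : ℝ) ≤ 3 * L := by
      have : T.card ≤ n := (Finset.card_le_univ T).trans (Fintype.card_fin n).le
      exact le_trans (by exact_mod_cast this) hn
    set b : ℝ := 300 * cS * L ^ 3 / c₀ ^ 2 with hb
    have hb0 : 0 ≤ b := by positivity
    set E : ℝ := Real.exp (√x * (2 * γ * T.card)) with hE
    have hE1 : 1 ≤ E := Real.one_le_exp (mul_nonneg (Real.sqrt_nonneg x)
      (mul_nonneg (mul_nonneg zero_le_two hγ0) (Nat.cast_nonneg _)))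
    have hcomm : ∀ z (α : Ext n), Commute (ϖ z) α := fun z α =>
      (hD4 _ _ α).add_left ((hD6 _ t α).smul_left _)
    have hub : ∀ z l, |u z l| ≤ 10 * cS / L := by
      intro z l
      simp only [hu, hχ]
      rw [chi_fderiv hLIN, abs_mul, abs_mul, abs_mul, abs_neg]
      have h1 := hcSb (10 * mz d ρ₀ L p z t - 8)
      have h2 := ind_step d ρ₀ p z l.succ l.castSucc
      rw [abs_of_pos (by norm_num : (0 : ℝ) < 10), abs_of_pos (by positivity : (0 : ℝ) < 1 / L)]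
      calc _ ≤ cS * (10 * (1 * (1 / L))) := by gcongr
        _ = 10 * cS / L := by ring
    have hone : ∀ z, GB (ρ (ϖ z)) x (E * (1 + x * b) ^ 2) := by
      intro z
      have h1 : GB (ρ (io (u z) * io (f z t))) x (1 + x * b) := by
        apply hG4
        · rw [← map_mul, (hD5 _ _).2, map_zero]
        · rw [map_mul]
          refine (norm_mul_le _ _).trans ?_
          have a1 := (hρ.1 (u z)).trans (hTb (u z) _ (by positivity) (hub z))
          have a2 := (hρ.1 (f z t)).trans (hTb (f z t) _ (by positivity) (hfb z))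
          calc _ ≤ (3 * L * (10 * cS / L)) * (3 * L * (9 * L ^ 2 / (4 * c₀ ^ 2))) := by
                apply mul_le_mul _ _ (norm_nonneg _) (by positivity)
                · exact a1.trans (by gcongr)
                · exact a2.trans (by gcongr)
            _ = 405 / 2 * (cS * L ^ 3 / c₀ ^ 2) := by field_simp; ring
            _ ≤ 300 * (cS * L ^ 3 / c₀ ^ 2) := by gcongr; norm_num
            _ = b := by rw [hb]; ring
      have h2 : GB (χ z t • ρ (dF (f z) t)) x (E * (1 + x * b)) := by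
        apply hG5
        · exact abs_le.2 ⟨by linarith [(chi_mem d ρ₀ L p z t).1], (chi_mem d ρ₀ L p z t).2⟩
        refine hG7 _ _ _ ?_ ((hAZBz z).2 t T ρ x hρ hx)
        have h3 : ((n : ℝ) * γ) ^ 2 / c₀ ≤ b := by
          rw [hb, div_le_div_iff₀ hc₀ (by positivity)]
          have h4 : (n : ℝ) * γ ≤ 3 * L := by nlinarith
          have h5 : ((n : ℝ) * γ) ^ 2 ≤ (3 * L) ^ 2 := by gcongr
          have h6 : c₀ ^ 2 ≤ c₀ := by nlinarith
          have h7 : L ^ 2 ≤ cS * L ^ 3 := by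
            have : L ^ 2 ≤ L ^ 3 := pow_le_pow_right₀ hL1 (by norm_num)
            have : L ^ 3 ≤ cS * L ^ 3 := le_mul_of_one_le_left (by positivity) hcS1
            linarith
          calc ((n : ℝ) * γ) ^ 2 * c₀ ^ 2 ≤ (3 * L) ^ 2 * c₀ := by gcongr
            _ = 9 * L ^ 2 * c₀ := by ring
            _ ≤ 300 * (cS * L ^ 3) * c₀ := by gcongr; norm_num
            _ = _ := by ring
        gcongr
      have h3 := hG1 _ _ _ _ (by
        rw [← map_smul]
        exact (hD4 _ _ _).map ρ) h1 h2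
      have h4 : ρ (ϖ z) = ρ (io (u z) * io (f z t)) + χ z t • ρ (dF (f z) t) := by
        simp only [hϖ, map_add, map_smul]
      rw [h4]
      refine hG7 _ _ _ (le_of_eq ?_) h3
      ring
    rw [hdF, map_sum]
    refine hG7 _ _ _ ?_ (hG2 _ A (fun z => ρ (ϖ z)) (fun _ => E * (1 + x * b) ^ 2)
      (fun z _ z' _ => (hcomm z _).map ρ) (fun z _ => hone z))
    rw [Finset.prod_const]
    apply pow_le_pow_right₀ _ hAcard
    have : 1 ≤ (1 + x * b) ^ 2 := one_le_pow₀ (by nlinarith [mul_nonneg hx hb0])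
    nlinarith
  · rw [htot]
    exact Finset.sum_nonneg fun z _ => hterm z
  · rintro ⟨z, hz⟩
    have hz' : 9 / 10 ≤ mz d ρ₀ L p z t := hz
    have hzB : z ∈ B := by
      by_contra h
      rw [hmz0 z h] at hz'
      norm_num at hz'
    rw [htot]
    refine le_trans ?_ (Finset.single_le_sum (fun z _ => hterm z) hzB)
    have h1 : χ z t = 1 := Real.smoothTransition.one_of_one_le (by linarith)
    have h2 : 9 / 16 * mz d ρ₀ L p z t ≤ ∑ j, ν j * ‖P z j‖ ^ 2 := by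
      rw [hmzν, Finset.mul_sum]
      apply Finset.sum_le_sum
      intro j _
      have hj := hν0 j
      unfold ind
      split_ifs with ha
      · have h3 : 3 / 4 ≤ ‖P z j‖ := by
          apply hΨ.big
          have : pZ g z.out = z := Quotient.out_eq z
          rw [this]
          exact ha.trans h01
        have h4 : 9 / 16 ≤ ‖P z j‖ ^ 2 := by nlinarith
        nlinarith
      · have := mul_nonneg hj (sq_nonneg ‖P z j‖)
        linarith
    rw [h1, one_mul]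
    nlinarith

end Crest.Agent.R192B
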