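import Crest.Agent.R192B.D2

/-! Row 192, task CELL. -/

set_option autoImplicit false

open MeasureTheory Set
open scoped ContDiff

namespace Crest.Agent.R192B

theorem cell (hJ : JWStmt) (_hG : GENStmt) (hD : DFAStmt) : CELLStmt := by
  intro η c₁ c₂ P hη hc₁ hc₂
  refine ⟨⌈3000 * c₁ * (1 + c₂) ^ P⌉₊ + (3 * P + 3), fun N n j f t T hN hn hS hf hGB => ?_⟩
  obtain ⟨ρ, hρ⟩ := hJ n T
  obtain ⟨Λ, hΛ, hev⟩ := hρ.2 (T.sort (· ≤ ·)) (fun i hi => (Finset.mem_sort _).mp hi)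
  have hN1 : (1 : ℝ) ≤ N := by exact_mod_cast hN
  have hN0 : (0 : ℝ) < N := by linarith
  set S := ∑ l, f t l with hSdef
  set B := Real.exp (4 * j) * (1 + c₂ * (N : ℝ) ^ 3) ^ P with hB
  have hB0 : 0 ≤ B := by positivity
  set y := η / 60000 * N with hy
  have hy0 : 0 < y := by positivity
  have h1 : ‖ρ (io (f t))‖ ≤ 3 * c₁ * (N : ℝ) ^ 3 := by
    refine (hρ.1 _).trans (((hD n).2.2.2.2.2.2.2 T).2.2.2.2.2.1 _ _ (by positivity) hf |>.trans ?_)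
    have : (T.card : ℝ) ≤ 3 * N := by
      have := Finset.card_le_univ T
      rw [Fintype.card_fin] at this
      exact_mod_cast this.trans hn
    calc (T.card : ℝ) * (c₁ * (N : ℝ) ^ 2) ≤ 3 * N * (c₁ * (N : ℝ) ^ 2) := by gcongr
      _ = _ := by ring
  have h2 : ‖ρ (dF f t) ^ j‖ ≤ B * y ^ j := by
    have a1 := hGB ρ hρ j
    have a2 : ‖ρ (dF f t) ^ j‖ * ((j : ℝ) / y) ^ j / j.factorial ≤ B :=
      le_trans (Finset.single_le_sum (f := fun m => ‖ρ (dF f t) ^ m‖ * ((j : ℝ) / y) ^ m /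
        m.factorial) (fun m _ => by positivity) (Finset.self_mem_range_succ j)) a1
    have a3 : (0 : ℝ) < j.factorial := by exact_mod_cast j.factorial_pos
    have a4 : (j.factorial : ℝ) ≤ (j : ℝ) ^ j := by exact_mod_cast j.factorial_le_pow
    rw [div_le_iff₀ a3, div_pow, ← mul_div_assoc, div_le_iff₀ (by positivity)] at a2
    have a5 : ‖ρ (dF f t) ^ j‖ * j.factorial ≤ B * y ^ j * j.factorial :=
      calc ‖ρ (dF f t) ^ j‖ * j.factorial ≤ ‖ρ (dF f t) ^ j‖ * (j : ℝ) ^ j := by gcongr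
        _ ≤ B * j.factorial * y ^ j := a2
        _ = _ := by ring
    exact le_of_mul_le_mul_right a5 a3
  have hS0 : 0 < S := lt_of_lt_of_le (by positivity) hS
  have he : Real.exp 4 ≤ 60 := by
    have b1 := Real.exp_one_lt_d9
    have b2 : Real.exp 4 = Real.exp 1 ^ 4 := by rw [← Real.exp_nat_mul]; norm_num
    have b3 : Real.exp 1 ^ 4 ≤ (2.72 : ℝ) ^ 4 := by
      gcongr
      linarith
    rw [b2]; refine b3.trans (by norm_num)
  have h3 : Real.exp (4 * j) * y ^ j ≤ η ^ j * S ^ j := by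
    rw [mul_comm (4 : ℝ), Real.exp_nat_mul, ← mul_pow, ← mul_pow]
    refine pow_le_pow_left₀ (by positivity) ?_ j
    calc Real.exp 4 * y ≤ 60 * y := by gcongr
      _ = η * (N / 1000) := by rw [hy]; ring
      _ ≤ η * S := by gcongr
  have h4 : (1 + c₂ * (N : ℝ) ^ 3) ^ P ≤ (1 + c₂) ^ P * (N : ℝ) ^ (3 * P) := by
    rw [pow_mul, ← mul_pow]
    gcongr
    have : (1 : ℝ) ≤ (N : ℝ) ^ 3 := one_le_pow₀ hN1
    linarith
  have h5 : 1 ≤ 1000 * S := by linarith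
  set K₀ := ⌈3000 * c₁ * (1 + c₂) ^ P⌉₊ + (3 * P + 3) with hK
  have h6 : 3000 * c₁ * (1 + c₂) ^ P ≤ K₀ := by
    refine (Nat.le_ceil _).trans ?_
    exact_mod_cast Nat.le_add_right _ _
  have h7 : (N : ℝ) ^ (3 * P + 3) ≤ (N : ℝ) ^ K₀ := pow_le_pow_right₀ hN1 (Nat.le_add_left _ _)
  unfold dirs
  rw [hev, map_mul, map_pow]
  calc |Λ (ρ (io (f t)) * ρ (dF f t) ^ j)| ≤ ‖ρ (io (f t)) * ρ (dF f t) ^ j‖ := hΛ _
    _ ≤ ‖ρ (io (f t))‖ * ‖ρ (dF f t) ^ j‖ := norm_mul_le _ _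
    _ ≤ (3 * c₁ * (N : ℝ) ^ 3) * (B * y ^ j) := by gcongr
    _ = (3 * c₁ * (N : ℝ) ^ 3) * (1 + c₂ * (N : ℝ) ^ 3) ^ P * (Real.exp (4 * j) * y ^ j) * 1 := by
        rw [hB]; ring
    _ ≤ (3 * c₁ * (N : ℝ) ^ 3) * ((1 + c₂) ^ P * (N : ℝ) ^ (3 * P)) * (η ^ j * S ^ j) *
          (1000 * S) := by gcongr
    _ = (3000 * c₁ * (1 + c₂) ^ P) * (N : ℝ) ^ (3 * P + 3) * η ^ j * S ^ (j + 1) := by ring
    _ ≤ K₀ * (N : ℝ) ^ K₀ * η ^ j * S ^ (j + 1) := by gcongr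

end Crest.Agent.R192B
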