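import Crest.Agent.R192B.D1

/-! Row 192, task COL: collision faces. -/

set_option autoImplicit false

open MeasureTheory Set
open scoped ContDiff

namespace Crest.Agent.R192B
namespace COL

variable {n : ℕ}

theorem val_pa (i : Fin n) (m : Fin (n + 1)) :
    (i.predAbove m).val = if i.val < m.val then m.val - 1 else m.val := by
  unfold Fin.predAbove
  by_cases h : i.castSucc < m
  · rw [dif_pos h, if_pos (by simpa [Fin.lt_def] using h)]; rfl
  · rw [dif_neg h, if_neg (by simpa [Fin.lt_def] using h)]; rfl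

/-- `pb i` as a linear map -/
noncomputable def pbL (i : Fin n) : (Fin (n + 1) → ℝ) →ₗ[ℝ] (Fin n → ℝ) where
  toFun u k := ∑ m, if i.predAbove m = k then u m else 0
  map_add' u v := by
    funext k
    simp only [Pi.add_apply, ← Finset.sum_add_distrib]
    refine Finset.sum_congr rfl fun m _ => ?_
    split_ifs <;> simp
  map_smul' c u := by
    funext k
    simp only [Pi.smul_apply, smul_eq_mul, RingHom.id_apply, Finset.mul_sum]
    refine Finset.sum_congr rfl fun m _ => ?_
    split_ifs <;> simp

theorem pbL_apply (i : Fin n) (u : Fin (n + 1) → ℝ) (k : Fin n) :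
    pbL i u k = ∑ m, if i.predAbove m = k then u m else 0 := rfl

theorem pb_eq (i : Fin n) (u : Fin (n + 1) → ℝ) : pb i u = pbL i u := by
  funext k
  rw [pbL_apply]
  unfold pb
  rcases lt_trichotomy k.val i.val with h | h | h
  · rw [Fin.contractNth_apply_of_lt _ _ _ _ (by simpa using h), Finset.sum_eq_single k.castSucc]
    · rw [if_pos]
      ext; rw [val_pa]; simp; omega
    · intro m _ hm
      rw [if_neg]
      intro h2
      have := congrArg Fin.val h2
      rw [val_pa] at this
      apply hm; ext; simp only [Fin.val_castSucc]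
      split_ifs at this <;> omega
    · simp
  · rw [Fin.contractNth_apply_of_eq _ _ _ _ (by simpa using h),
      Finset.sum_eq_add k.castSucc k.succ (Fin.castSucc_lt_succ).ne]
    · rw [if_pos, if_pos]
      · ext; rw [val_pa]; simp; omega
      · ext; rw [val_pa]; simp; omega
    · intro m _ hm
      rw [if_neg]
      intro h2
      have := congrArg Fin.val h2
      rw [val_pa] at this
      have h3 : m.val ≠ k.val := fun h4 => hm.1 (by ext; simpa using h4)
      have h4 : m.val ≠ k.val + 1 := fun h4 => hm.2 (by ext; simpa using h4)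
      split_ifs at this <;> omega
    · simp
    · simp
  · rw [Fin.contractNth_apply_of_gt _ _ _ _ (by simpa using h), Finset.sum_eq_single k.succ]
    · rw [if_pos]
      ext; rw [val_pa]; simp; omega
    · intro m _ hm
      rw [if_neg]
      intro h2
      have := congrArg Fin.val h2
      rw [val_pa] at this
      apply hm; ext; simp only [Fin.val_succ]
      split_ifs at this <;> omega
    · simp

/-- `dup i` as a linear map -/
noncomputable def dupL (i : Fin n) : (Fin n → ℝ) →ₗ[ℝ] (Fin (n + 1) → ℝ) :=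
  LinearMap.funLeft ℝ ℝ i.predAbove

theorem dupL_apply (i : Fin n) (t : Fin n → ℝ) : dupL i t = dup i t := rfl

theorem transp (i : Fin n) (u : Fin (n + 1) → ℝ) (w : Fin n → ℝ) :
    ∑ k, w k * pbL i u k = ∑ m, dup i w m * u m := by
  simp only [pbL_apply, Finset.mul_sum, dup]
  rw [Finset.sum_comm]
  refine Finset.sum_congr rfl fun m _ => ?_
  simp

theorem sum_pbL (i : Fin n) (u : Fin (n + 1) → ℝ) : ∑ k, pbL i u k = ∑ m, u m := by
  simpa [dup] using transp i u (fun _ => 1)

theorem pbL_ee (i : Fin n) (m : Fin (n + 1)) : pbL i (ee m) = ee (i.predAbove m) := by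
  funext k
  rw [pbL_apply, Finset.sum_eq_single m]
  · simp [Pi.single_apply, eq_comm]
  · intro m' _ hm; simp [hm]
  · simp

theorem dup_ee (i k : Fin n) :
    dup i (ee k) = ∑ m, if i.predAbove m = k then ee m else 0 := by
  funext m'
  simp only [dup, Finset.sum_apply]
  rw [Finset.sum_eq_single m']
  · split_ifs with h <;> simp [Pi.single_apply, h]
  · intro m _ hm
    split_ifs <;> simp [Ne.symm hm]
  · simp

theorem pa_inj (i : Fin n) {m m' : Fin (n + 1)} (h1 : m ≠ i.castSucc) (h2 : m ≠ i.succ)
    (h : i.predAbove m' = i.predAbove m) : m' = m := by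
  have := congrArg Fin.val h
  rw [val_pa, val_pa] at this
  have h3 : m.val ≠ i.val := fun h4 => h1 (by ext; simpa using h4)
  have h4 : m.val ≠ i.val + 1 := fun h4 => h2 (by ext; simpa using h4)
  ext
  split_ifs at this <;> omega

theorem dup_ee_pa (i : Fin n) {m : Fin (n + 1)} (h1 : m ≠ i.castSucc) (h2 : m ≠ i.succ) :
    dup i (ee (i.predAbove m)) = ee m := by
  funext m'
  simp only [dup, Pi.single_apply]
  by_cases h : m' = m
  · simp [h]
  · rw [if_neg h, if_neg fun h3 => h (pa_inj i h1 h2 h3)]

theorem dup_ee_self (i : Fin n) : dup i (ee i) = ee i.castSucc + ee i.succ := by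
  funext m
  simp only [dup, Pi.single_apply, Pi.add_apply, Fin.ext_iff, val_pa, Fin.val_castSucc,
    Fin.val_succ]
  split_ifs <;> first | omega | simp

theorem dirs_image (i : Fin n) (U : Finset (Fin (n + 1))) (h1 : i.castSucc ∉ U)
    (h2 : i.succ ∉ U) : (dirs (U.image i.predAbove)).map (dup i) = dirs U := by
  have hne : ∀ m ∈ U, m ≠ i.castSucc ∧ m ≠ i.succ := fun m hm =>
    ⟨fun h => h1 (h ▸ hm), fun h => h2 (h ▸ hm)⟩
  have hnd : ((U.sort (· ≤ ·)).map i.predAbove).Nodup := by
    refine (Finset.sort_nodup U _).map_on fun a ha b hb hab => ?_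
    have hb' := hne b ((Finset.mem_sort _).mp hb)
    exact pa_inj i hb'.1 hb'.2 hab
  have hs : (U.image i.predAbove).sort (· ≤ ·) = (U.sort (· ≤ ·)).map i.predAbove := by
    have e : U.image i.predAbove = ((U.sort (· ≤ ·)).map i.predAbove).toFinset := by
      ext k; simp
    rw [e, List.toFinset_sort _ hnd, List.pairwise_map]
    exact (Finset.pairwise_sort U _).imp fun hab => Fin.predAbove_right_monotone i hab
  unfold dirs
  rw [hs, List.map_map, List.map_map]
  refine List.map_congr_left fun m hm => ?_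
  have hm' := hne m ((Finset.mem_sort _).mp hm)
  exact dup_ee_pa i hm'.1 hm'.2

theorem th_smooth {L : ℝ} {f : Vf n} (hf : Reg L f) {s : Fin n → ℝ} (hs : s ∈ Sx L n) :
    ContDiffAt ℝ ∞ (th f) s := by
  have h1 : ContDiffAt ℝ ∞ (fun t => ∑ i, f t i) s :=
    ContDiffAt.sum fun i _ => (contDiff_pi.mp hf.1 i).contDiffAt
  exact (h1.inv (hf.2 s hs)).smul hf.1.contDiffAt

theorem gam_map (L : ℝ) (j : ℕ) (d : Fin (n + 1) → ℝ) (f : Vf (n + 1)) (f' : Vf n) (i : Fin n)
    (hf : Reg L f) (hf' : ∀ t, f' t = pb i (f (dup i t))) (t : Fin n → ℝ)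
    (ht : dup i t ∈ Sx L (n + 1)) :
    gam j (pb i d) f' t = ExteriorAlgebra.map (pbL i) (gam j d f (dup i t)) := by
  have e0 : th0 (pb i d) = pbL i (th0 d) := by
    unfold th0
    rw [pb_eq, sum_pbL, map_smul]
  have e1 : ∀ t, th f' t = pbL i (th f (dup i t)) := by
    intro t
    unfold th
    rw [hf', pb_eq, sum_pbL, map_smul]
  have hd : DifferentiableAt ℝ (th f) (dup i t) :=
    (th_smooth hf ht).differentiableAt (by simp)
  have e2 : HasFDerivAt (th f') ((LinearMap.toContinuousLinearMap (pbL i)).comp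
      ((fderiv ℝ (th f) (dup i t)).comp (LinearMap.toContinuousLinearMap (dupL i)))) t := by
    have : th f' = (LinearMap.toContinuousLinearMap (pbL i)) ∘ (th f) ∘
        (LinearMap.toContinuousLinearMap (dupL i)) := funext e1
    rw [this]
    exact (ContinuousLinearMap.hasFDerivAt _).comp t
      (HasFDerivAt.comp t hd.hasFDerivAt (ContinuousLinearMap.hasFDerivAt _))
  have e3 : dF (th f') t = ExteriorAlgebra.map (pbL i) (dF (th f) (dup i t)) := by
    unfold dF
    rw [e2.fderiv, map_sum]
    simp only [map_mul, ExteriorAlgebra.map_apply_ι, pbL_ee, ContinuousLinearMap.comp_apply,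
      LinearMap.coe_toContinuousLinearMap', dupL_apply, dup_ee, map_sum, Finset.mul_sum]
    rw [Finset.sum_comm]
    refine Finset.sum_congr rfl fun m _ => ?_
    rw [Finset.sum_eq_single (i.predAbove m)]
    · simp
    · intro k _ hk
      rw [if_neg (Ne.symm hk)]; simp
    · simp
  unfold gam
  rw [e0, e1, e3]
  simp only [map_mul, map_pow, ExteriorAlgebra.map_apply_ι]

theorem cont_gam (hJ : JWStmt) {L : ℝ} (j : ℕ) (d : Fin n → ℝ) {f : Vf n} (hf : Reg L f)
    (T : Finset (Fin n)) {s : Fin n → ℝ} (hs : s ∈ Sx L n) :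
    ContinuousAt (fun s => evL (dirs T) (gam j d f s)) s := by
  obtain ⟨ρ, -, hρ⟩ := hJ n Finset.univ
  obtain ⟨Λ, -, hΛ⟩ := hρ (T.sort (· ≤ ·)) (fun _ _ => Finset.mem_univ _)
  have hc : Continuous (fun u : Fin n → ℝ => ρ (io u)) :=
    (ρ.toLinearMap ∘ₗ ExteriorAlgebra.ι ℝ).continuous_of_finiteDimensional
  have h1 := th_smooth hf hs
  have h2 : ContinuousAt (fderiv ℝ (th f)) s := h1.continuousAt_fderiv (by simp)
  unfold dirs
  simp only [hΛ, gam, dF, map_mul, map_pow, map_sum]
  refine Λ.continuous.continuousAt.comp ?_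
  refine (continuousAt_const.mul (hc.continuousAt.comp h1.continuousAt)).mul
    (ContinuousAt.pow ?_ j)
  refine tendsto_finsetSum _ fun m _ => ?_
  exact continuousAt_const.mul (hc.continuousAt.comp (h2.clm_apply continuousAt_const))

end COL

open COL in
theorem col (hJ : JWStmt) (hS : SIMPStmt) (hE : EVStmt) : COLStmt := by
  intro L j n d f f' T i hL hf hf'
  obtain ⟨hc, hm, -, hF, hD, -⟩ := hS L hL n
  have hdup : ∀ t ∈ Sx L n, dup i t ∈ Sx L (n + 1) := fun t ht =>
    (hD i t).1 ▸ (hF i.castSucc t ht).1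
  obtain ⟨-, ev2, -, -, ev5, -, ev7⟩ := hE (n + 1)
  have key : ∀ l, ∀ t ∈ Sx L n, evL l (gam j (pb i d) f' t) =
      evL (l.map (dup i)) (gam j d f (dup i t)) := by
    intro l t ht
    rw [gam_map L j d f f' i hf hf' t (hdup t ht)]
    exact ev7 n (pbL i) (dup i) (transp i) l _
  have hne : i.castSucc ≠ i.succ := (Fin.castSucc_lt_succ).ne
  refine ⟨fun h1 h2 => ?_, fun h1 h2 => ?_, fun h1 h2 => ?_⟩
  · have hint : ∀ U : Finset (Fin (n + 1)),
        IntegrableOn (fun t => evL (dirs U) (gam j d f (dup i t))) (Sx L n) := by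
      intro U
      refine ContinuousOn.integrableOn_compact hc fun t ht => ?_
      have hcd : Continuous (dup i : (Fin n → ℝ) → (Fin (n + 1) → ℝ)) :=
        (dupL i).continuous_of_finiteDimensional
      exact (ContinuousAt.comp (f := dup i) (cont_gam hJ j d hf U (hdup t ht))
        hcd.continuousAt).continuousWithinAt
    unfold cUp cLo cGc
    simp only [(hD i _).1, (hD i _).2]
    rw [← integral_const_mul, ← integral_const_mul,
      ← integral_sub ((hint _).const_mul _) ((hint _).const_mul _)]
    refine setIntegral_congr_fun hm fun t ht => ?_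
    rw [key _ t ht, List.map_cons, dirs_image i _ (by simp) (by simp), dup_ee_self, ev2]
    have a1 := ev5 (T.erase i.castSucc) i.succ (gam j d f (dup i t))
      (Finset.mem_erase.mpr ⟨hne.symm, h2⟩)
    have a2 := ev5 (T.erase i.succ) i.castSucc (gam j d f (dup i t))
      (Finset.mem_erase.mpr ⟨hne, h1⟩)
    rw [Finset.erase_right_comm] at a2
    have r1 : rk (T.erase i.castSucc) i.succ = rk T i.castSucc := by
      unfold rk
      congr 1
      ext m
      simp only [Finset.mem_filter, Finset.mem_erase, Fin.lt_def, ne_eq, Fin.ext_iff,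
        Fin.val_castSucc, Fin.val_succ]
      constructor
      · rintro ⟨⟨a, b⟩, c⟩; exact ⟨b, by omega⟩
      · rintro ⟨a, b⟩; exact ⟨⟨by omega, a⟩, by omega⟩
    have r2 : rk (T.erase i.succ) i.castSucc = rk T i.castSucc := by
      unfold rk
      congr 1
      ext m
      simp only [Finset.mem_filter, Finset.mem_erase, Fin.lt_def, ne_eq, Fin.ext_iff,
        Fin.val_castSucc, Fin.val_succ]
      constructor
      · rintro ⟨⟨a, b⟩, c⟩; exact ⟨b, c⟩
      · rintro ⟨a, b⟩; exact ⟨⟨by omega, a⟩, b⟩
    have r3 : rk T i.succ = rk T i.castSucc + 1 := by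
      unfold rk
      rw [← Finset.card_insert_of_notMem (a := i.castSucc) (by simp)]
      congr 1
      ext m
      simp only [Finset.mem_filter, Finset.mem_insert, Fin.lt_def, Fin.val_castSucc, Fin.val_succ]
      constructor
      · rintro ⟨a, b⟩
        by_cases h : m = i.castSucc
        · exact Or.inl h
        · have : m.val ≠ i.val := fun h4 => h (by ext; simpa using h4)
          exact Or.inr ⟨a, by omega⟩
      · rintro (rfl | ⟨a, b⟩)
        · exact ⟨h1, by simp⟩
        · exact ⟨a, by omega⟩
    rw [a1, a2, r1, r2, r3]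
    ring
  · unfold cUp cGd
    refine setIntegral_congr_fun hm fun t ht => ?_
    rw [key _ t ht, dirs_image i _ (by simp) (by simp [h2]), (hD i t).1]
  · unfold cLo cGd
    refine setIntegral_congr_fun hm fun t ht => ?_
    rw [key _ t ht, dirs_image i _ (by simp [h1]) (by simp), (hD i t).2]

end Crest.Agent.R192B
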