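import Crest.Agent.R192B.D2

set_option autoImplicit false

open MeasureTheory Set
open scoped ContDiff

namespace Crest.Agent.R192B

theorem conn (hCS : CSStmt) (hLEN : LENStmt) (hPSI : PSIStmt) (hMET : METStmt) (hKER : KERStmt)
    (hENV : ENVStmt) (hGP : GP2Stmt) (hPAR : PARAMStmt) (hPROF : PROFStmt) (hF : ISCFStmt)
    (hQ : ISCQStmt) (hZ : ISCZStmt) (hFR : FRMCStmt) (hEQ : EQVStmt) (hLOC : LOCStmt)
    (hPOS : POSStmt) (hCURV : CURVStmt) (hCELL : CELLStmt) : CONNStmt := by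
  intro G _ S η hη
  obtain ⟨M, hM⟩ : ∃ M, M = 2 * S.card + 2 := ⟨_, rfl⟩
  have hM2 : 2 ≤ M := by omega
  obtain ⟨a, ha0, ha1, C, hC⟩ := hGP M hM2
  obtain ⟨X0, I, ρ₀, ρ₁, D, γ, hP⟩ := hPAR M η a C hM2 hη ha0 ha1
  obtain ⟨len, hlen⟩ := hLEN G S D
  rw [← hM] at hlen
  have h1 := hP.hρ₀
  have h2 := hP.hρ₁
  have h3 := hP.hD₁
  have h4 := hP.X0_ge
  have hX1 : 1 ≤ X0 * 16 ^ I := Nat.mul_pos (by omega) (by positivity)
  obtain ⟨𝒮, c₀, h𝒮, hc₀, hΨ⟩ :=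
    hPSI G S M D len hlen ρ₁ γ hP.hD₁ (by omega) hP.hγρ hP.γ_pos
  refine ⟨𝒮, h𝒮, fun g hg => ?_⟩
  obtain ⟨Ψ, ϑ, hψ⟩ := hΨ g hg
  obtain ⟨m, ν, hν, ham, hrare⟩ := hC (X0 * 16 ^ I) hX1
  obtain ⟨hmet, hπ, -, hstep, -, hσ⟩ := hMET G S M D len g hlen
  have hE : EnvH (dq g len) M D m ν
      (fun E x => GoodQ (dq g len) (X0 * 16 ^ I) (C * (X0 * 16 ^ I) ^ 5) a E x)
      (3 * (X0 * 16 ^ I) + 3) :=
    { met := hmet
      two := hM2
      prob := hν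
      r_pos := by omega
      r_lt := by omega
      loc := fun E E' x h => hLOC.1 _ _ _ _ _ a E E' x (hmet.refl x) h
      equi := fun σ h E x => hEQ.1 _ _ _ _ _ a σ h E x
      rare := fun x => hrare _ _ D hmet hP.hD₂ x }
  obtain ⟨μ, hμ, hinv, hgood⟩ := hENV _ _ M D m ν _ _ hE
  have hcS : 0 ≤ cS := le_trans zero_le_one hCS.1
  obtain ⟨K₀, hK₀⟩ := hCELL η (I + 80 * cS ^ 2 * ((C * (X0 * 16 ^ I) ^ 5 : ℕ) : ℝ) ^ 2 / a +
        3 * (M : ℝ) ^ (2 * ρ₀) / c₀ ^ 2) (300 * cS / (η / 60000 * c₀ ^ 2)) (2 * M ^ (2 * ρ₀)) hη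
        (by positivity) (by positivity)
  refine ⟨K₀, 4 * 16 ^ (21 * I), fun N hN => ?_⟩
  have hN1 : 1 ≤ N := le_trans (Nat.mul_pos (by norm_num) (by positivity)) hN
  have hk : ∀ i, i ≤ I → 4 * (16 : ℝ) ^ (21 * i) ≤ N := by
    intro i hi
    have h5 : (16 : ℝ) ^ (21 * i) ≤ 16 ^ (21 * I) :=
      pow_le_pow_right₀ (by norm_num) (by omega)
    have h6 : ((4 * 16 ^ (21 * I) : ℕ) : ℝ) ≤ N := by exact_mod_cast hN
    push_cast at h6
    linarith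
  have hex : ∀ i, ∃ K, i ≤ I → IsKer N (16 ^ (21 * i)) K := by
    intro i
    by_cases hi : i ≤ I
    · obtain ⟨K, hK⟩ := hKER N (16 ^ (21 * i)) (by positivity) (hk i hi)
      exact ⟨K, fun _ => hK⟩
    · exact ⟨fun _ => 0, fun h => absurd h hi⟩
  choose Ks hKs using hex
  refine ⟨_, inferInstance, μ, fun w => Atot g len N M X0 I C ρ₀ a Ks Ψ ϑ w, hμ, ?_, ?_, ?_, ?_⟩
  · intro w
    obtain ⟨-, hadd, hsum, -, -⟩ := hFR G g N
    have hA : IsConn g (N : ℝ) fun _ y t => ∑ i ∈ Finset.range I,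
        AF (dq g len) N (4 * M) ((X0 * 16 ^ i : ℕ) : ℝ) (Ks i) (Ks (i + 1))
          (fun j => pZ g (y j)) t := by
      refine hsum ℕ (Finset.range I) (fun i _ y => AF (dq g len) N (4 * M) ((X0 * 16 ^ i : ℕ) : ℝ)
        (Ks i) (Ks (i + 1)) (fun j => pZ g (y j))) fun i hi => ?_
      have hi' : i < I := Finset.mem_range.1 hi
      have h7 : X0 * 16 ^ i ≤ X0 * 16 ^ I :=
        Nat.mul_le_mul_left _ (Nat.pow_le_pow_right (by norm_num) hi'.le)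
      refine hF G g _ _ M D (pZ g) N _ _ (16 ^ (21 * i)) (16 ^ (21 * (i + 1))) _ _ hmet hπ ?_
        (by positivity) (pow_le_pow_right₀ (by norm_num) (by omega)) (hk _ hi') (hKs _ hi'.le)
        (hKs _ hi')
      exact_mod_cast (by omega : X0 * 16 ^ i ≤ D)
    have hB1 := hQ G g _ _ M D (pZ g) N a _ (X0 * 16 ^ I) (C * (X0 * 16 ^ I) ^ 5) m w.1 (Ks I) hmet hπ
      (by omega) (hKs I le_rfl)
    have hB2 := hQ G g _ _ M D (pZ g) N a _ (X0 * 16 ^ I) (C * (X0 * 16 ^ I) ^ 5) m w.2 (Ks I) hmet hπ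
      (by omega) (hKs I le_rfl)
    have hC' := hZ G S M D len g ρ₀ ρ₁ γ c₀ N Ψ ϑ hlen hψ (by omega)
      (by exact_mod_cast (by omega : N ≠ 0))
    exact hadd _ _ (hadd _ _ hA (hadd _ _ hB1 hB2)) hC'
  · intro h hh
    obtain ⟨σ, hσ1, hσ2⟩ := hσ h hh
    exact ⟨fun c => (c.1 ∘ σ.symm, c.2 ∘ σ.symm), hinv σ hσ1, fun w n y =>
      hEQ.2 G S M D len g X0 I C ρ₀ ρ₁ m a γ c₀ N Ks Ψ ϑ hlen hψ h σ hh hσ1 hσ2 w n y⟩
  · intro n y
    exact hLOC.2 G S M D len g X0 I C ρ₀ m a N Ks Ψ ϑ hlen (by omega) n y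
  · intro n hn y hcl hst
    obtain ⟨B, hB, -⟩ := hPROF _ (dq g len) M D n (fun j => pZ g (y j)) hmet
    have hae : ∀ᵐ w ∂μ, ∀ x ∈ B, ∀ x' ∈ B, dq g len x x' ≤ 3 * (X0 * 16 ^ I) + 3 →
        GoodQ (dq g len) (X0 * 16 ^ I) (C * (X0 * 16 ^ I) ^ 5) a w.1 x ∨
          GoodQ (dq g len) (X0 * 16 ^ I) (C * (X0 * 16 ^ I) ^ 5) a w.2 x' := by
      refine (Filter.eventually_all_finset B).2 fun x _ =>
        (Filter.eventually_all_finset B).2 fun x' _ => ?_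
      by_cases hd : dq g len x x' ≤ 3 * (X0 * 16 ^ I) + 3
      · filter_upwards [hgood x x' hd] with w hw _ using hw
      · exact Filter.Eventually.of_forall fun w h => absurd h hd
    filter_upwards [hae] with w hw t ht
    have hcell : Cell S M η a C X0 I ρ₀ ρ₁ D γ c₀ len g Ψ ϑ N Ks w y :=
      { prm := hP
        hlen := hlen
        c_pos := hc₀
        psi := hψ
        big := hN
        ker := hKs
        lab := ham
        n_le := hn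
        closed := hcl
        steps := hst
        good := fun x x' hx hx' hd => hw x ((hB x).2 hx) x' ((hB x').2 hx') hd }
    have hpos := hPOS G S M η a C X0 I ρ₀ ρ₁ D γ c₀ len g Ψ ϑ N Ks m w n y hcell t ht
    obtain ⟨hco, hgb⟩ := hCURV G S M η a C X0 I ρ₀ ρ₁ D γ c₀ len g Ψ ϑ N Ks m w n y hcell t ht
    have hNpos : (0 : ℝ) < N := by exact_mod_cast hN1
    refine ⟨lt_of_lt_of_le (by positivity) hpos, fun j hj T hT => ?_⟩
    refine hK₀ N n j _ t T hN1 hn hpos hco fun ρ hρ => ?_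
    have := hgb j T ρ hj hT hρ
    rwa [show 300 * cS * (N : ℝ) ^ 3 / (η / 60000 * c₀ ^ 2) =
      300 * cS / (η / 60000 * c₀ ^ 2) * (N : ℝ) ^ 3 by ring] at this

end Crest.Agent.R192B
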