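import Crest.Agent.R192B.D2

set_option autoImplicit false

open MeasureTheory Set
open scoped ContDiff

namespace Crest.Agent.R192B
namespace CURV

lemma geo (I : ℕ) : ∑ i ∈ Finset.range I, (1 : ℝ) / 16 ^ i ≤ 2 - 2 / 16 ^ I := by
  induction I with
  | zero => simp
  | succ I ih =>
    rw [Finset.sum_range_succ, pow_succ]
    have h : (0 : ℝ) < 16 ^ I := by positivity
    have e : (2 : ℝ) / (16 ^ I * 16) = (1 / 8) * (1 / 16 ^ I) := by field_simp; norm_num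
    have e2 : (2 : ℝ) / 16 ^ I = 2 * (1 / 16 ^ I) := by ring
    have h1 : (0 : ℝ) < 1 / 16 ^ I := by positivity
    rw [e]; rw [e2] at ih; linarith

lemma sqrt_k (i : ℕ) : √(20 * (16 : ℝ) ^ (21 * (i + 1)) / 16 ^ (21 * i)) ≤ 5 * 2 ^ 42 := by
  rw [Real.sqrt_le_left (by positivity)]
  have e : 20 * (16 : ℝ) ^ (21 * (i + 1)) / 16 ^ (21 * i) = 20 * 16 ^ 21 := by
    rw [mul_add, pow_add]; field_simp
  rw [e]; norm_num

lemma mark {η₁ a c J N k : ℝ} {j : ℕ} (hη : 0 < η₁) (ha : 0 < a) (hN : 0 < N) (hk : 0 < k)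
    (hQ : (64 * c ^ 2 * J ^ 2) ^ 2 ≤ a ^ 2 * η₁ * k) :
    √(2 * (j / (η₁ * N))) * (8 * c ^ 2 * J ^ 2 / a * √(10 * N * ((2 * j + 1 : ℕ) : ℝ) / k)) ≤ j := by
  rcases Nat.eq_zero_or_pos j with rfl | hj
  · simp
  have hj1 : (1 : ℝ) ≤ j := by exact_mod_cast hj
  rw [← pow_le_pow_iff_left₀ (by positivity) (by positivity) (two_ne_zero), mul_pow, mul_pow,
    Real.sq_sqrt (by positivity), Real.sq_sqrt (by positivity)]
  push_cast
  have e : 2 * (j / (η₁ * N)) * ((8 * c ^ 2 * J ^ 2 / a) ^ 2 * (10 * N * (2 * j + 1) / k))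
      = (1280 * (c ^ 2 * J ^ 2) ^ 2 * (j * (2 * j + 1))) / (a ^ 2 * η₁ * k) := by
    field_simp; ring
  rw [e, div_le_iff₀ (by positivity)]
  have h1 : (j : ℝ) * (2 * j + 1) ≤ 3 * j ^ 2 := by nlinarith
  have h2 : 0 ≤ (c ^ 2 * J ^ 2) ^ 2 := by positivity
  have h3 : 1280 * (c ^ 2 * J ^ 2) ^ 2 * (j * (2 * j + 1)) ≤
      1280 * (c ^ 2 * J ^ 2) ^ 2 * (3 * j ^ 2) := by gcongr
  have h4 := mul_le_mul_of_nonneg_left hQ (by positivity : (0 : ℝ) ≤ j ^ 2)
  have h5 : 0 ≤ (c ^ 2 * J ^ 2) ^ 2 * (j : ℝ) ^ 2 := by positivity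
  nlinarith

lemma dom {η₁ γ P x : ℝ} {j : ℕ} (hη : 0 < η₁) (hγ : 0 ≤ γ) (hP : 0 ≤ P) (hx0 : 0 ≤ x)
    (hx : x ≤ 1 / η₁) (hj0 : j = 0 → x = 0) (h : (6 * γ * P) ^ 2 ≤ η₁) :
    P * (√x * (2 * γ * ((2 * j + 1 : ℕ) : ℝ))) ≤ j := by
  rcases Nat.eq_zero_or_pos j with rfl | hj
  · simp [hj0 rfl]
  have hj1 : (1 : ℝ) ≤ j := by exact_mod_cast hj
  have h1 : √x * (6 * γ * P) ≤ 1 := by
    rw [← pow_le_pow_iff_left₀ (by positivity) (by positivity) (two_ne_zero), mul_pow,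
      Real.sq_sqrt hx0]
    calc x * (6 * γ * P) ^ 2 ≤ 1 / η₁ * η₁ := by gcongr
      _ = 1 ^ 2 := by field_simp
  push_cast
  have h2 : 0 ≤ √x * γ * P := by positivity
  nlinarith

end CURV

open CURV in
set_option maxHeartbeats 1000000 in
theorem curv : CSStmt → METStmt → GENStmt → DFAStmt → AFEStmt → AQEStmt → AZEStmt → CURVStmt := by
  intro hCS hMET hGEN hDFA hAFE hAQE hAZE G _ S M η a C X0 I ρ₀ ρ₁ D γ c₀ len g Ψ ϑ N Ks m w n y hc
    t ht
  obtain ⟨hmet, hper, -, hstep, -, -⟩ := hMET G S M D len g hc.hlen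
  have prm := hc.prm
  have hloop : Loop (dq g len) (fun j => pZ g (y j)) := by
    refine ⟨?_, fun i => ?_⟩
    · show pZ g (y (Fin.last n)) = pZ g (y 0)
      rw [hc.closed, hper]
    · have := hstep (y i.castSucc) _ (hc.steps i)
      rwa [mul_inv_cancel_left] at this
  have hcS : 1 ≤ cS := hCS.1
  have hbig : (4 : ℝ) * 16 ^ (21 * I) ≤ N := by exact_mod_cast hc.big
  have hkI : (1 : ℝ) ≤ 16 ^ (21 * I) := one_le_pow₀ (by norm_num)
  have hN1 : (1 : ℝ) ≤ N := by linarith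
  have hXD : 2 * (X0 * 16 ^ I) + 2 ≤ D := by
    have := prm.hρ₀; have := prm.hρ₁; have := prm.hD₁; omega
  have hX0 := prm.X0_ge
  have hAF := fun i (hi : i < I) => hAFE _ (dq g len) M D n (X0 * 16 ^ i) N (16 ^ (21 * i))
    (16 ^ (21 * (i + 1))) (Ks i) (Ks (i + 1)) (fun j => pZ g (y j)) hmet
    (le_trans (by omega) (Nat.le_mul_of_pos_right X0 (by positivity)))
    (by
      have : X0 * 16 ^ i ≤ X0 * 16 ^ I :=
        Nat.mul_le_mul_left _ (Nat.pow_le_pow_right (by norm_num) hi.le)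
      omega)
    (by positivity) (pow_le_pow_right₀ (by norm_num) (by omega))
    (le_trans (mul_le_mul_of_nonneg_left (pow_le_pow_right₀ (by norm_num) (by omega))
      (by norm_num)) hbig)
    (hc.ker i hi.le) (hc.ker (i + 1) hi) hloop t ht
  have ham : a * m ≤ ((X0 * 16 ^ I : ℕ) : ℝ) := by
    have := hc.lab
    have h0 : 0 ≤ a * m := mul_nonneg prm.a_pos.le (Nat.cast_nonneg _)
    linarith
  have hAQ := fun E : Zq g → Fin (m + 1) => hAQE _ (dq g len) M D n (X0 * 16 ^ I)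
    (C * (X0 * 16 ^ I) ^ 5) m a N (16 ^ (21 * I)) E (Ks I) (fun j => pZ g (y j)) hmet prm.a_pos
    prm.a_le ham hXD (by positivity) hbig (hc.ker I le_rfl) hloop t ht
  have hAZ := hAZE G S M D len g ρ₀ ρ₁ n γ c₀ N Ψ ϑ y hc.hlen (by have := prm.two; omega) hc.psi
    prm.hρ₁ (by have := prm.hρ₁; have := prm.hD₁; omega) prm.γ_pos.le prm.γ_le hc.c_pos hN1
    (by exact_mod_cast hc.n_le) hc.closed hc.steps t ht
  generalize hJ : ((C * (X0 * 16 ^ I) ^ 5 : ℕ) : ℝ) = J at *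
  have ha := prm.a_pos
  have hc0 := hc.c_pos
  refine ⟨fun l => ?_, fun j T ρ hj hT hρ => ?_⟩
  · unfold Atot
    simp only [Pi.add_apply, Finset.sum_apply]
    have h1 : |∑ i ∈ Finset.range I, AF (dq g len) N (4 * M) ((X0 * 16 ^ i : ℕ) : ℝ) (Ks i)
        (Ks (i + 1)) (fun j => pZ g (y j)) t l| ≤ I * (N : ℝ) ^ 2 := by
      refine (Finset.abs_sum_le_sum_abs _ _).trans ?_
      calc _ ≤ ∑ _i ∈ Finset.range I, (N : ℝ) ^ 2 := Finset.sum_le_sum fun i hi =>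
            ((hAF i (Finset.mem_range.1 hi)).2.1 l).trans (by nlinarith)
        _ = _ := by simp
    have h2 : (N : ℝ) ^ 2 * (40 * cS ^ 2 * J ^ 2 / (a * 16 ^ (21 * I)))
        ≤ 40 * cS ^ 2 * J ^ 2 / a * (N : ℝ) ^ 2 := by
      rw [mul_comm]
      refine mul_le_mul_of_nonneg_right ?_ (by positivity)
      exact div_le_div_of_nonneg_left (by positivity) ha (le_mul_of_one_le_right ha.le hkI)
    have h3 := ((hAQ w.1).2.1 l).trans h2
    have h4 := ((hAQ w.2).2.1 l).trans h2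
    have h5 := hAZ.2.1 l
    refine (abs_add_le _ _).trans ?_
    refine (add_le_add ((abs_add_le _ _).trans (add_le_add h1 ((abs_add_le _ _).trans
      (add_le_add h3 h4)))) h5).trans (le_of_eq ?_)
    ring
  · obtain ⟨dsum, dadd, -, -, -, dcomm, -, -⟩ := hDFA n
    have hη : 0 < η / 60000 := by have := prm.η_pos; positivity
    have hx0 : (0 : ℝ) ≤ j / (η / 60000 * N) := by positivity
    have hjN : (j : ℝ) ≤ N := by exact_mod_cast hj
    obtain ⟨g1, -, g3, -, -, -, g7, -⟩ := hGEN (Op n) (j / (η / 60000 * N)) hx0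
    have hsm : ContDiff ℝ ∞ fun t => ∑ i ∈ Finset.range I, AF (dq g len) N (4 * M)
        ((X0 * 16 ^ i : ℕ) : ℝ) (Ks i) (Ks (i + 1)) (fun j => pZ g (y j)) t :=
      ContDiff.sum fun i hi => (hAF i (Finset.mem_range.1 hi)).1
    have hsq := (hAQ w.1).1.add (hAQ w.2).1
    have e1 := dadd _ _ t (hsm.add hsq) hAZ.1
    have e2 := dadd _ _ t hsm hsq
    have e3 := dadd _ _ t (hAQ w.1).1 (hAQ w.2).1
    have e4 := dsum ℕ (Finset.range I) (fun i => AF (dq g len) N (4 * M)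
        ((X0 * 16 ^ i : ℕ) : ℝ) (Ks i) (Ks (i + 1)) (fun j => pZ g (y j))) t
        fun i hi => (hAF i (Finset.mem_range.1 hi)).1
    have e : dF (Atot g len N M X0 I C ρ₀ a Ks Ψ ϑ w n y) t = _ := e1
    rw [e, map_add]
    have hF : GB (ρ (dF (fun t => ∑ i ∈ Finset.range I, AF (dq g len) N (4 * M)
        ((X0 * 16 ^ i : ℕ) : ℝ) (Ks i) (Ks (i + 1)) (fun j => pZ g (y j)) t) t))
        (j / (η / 60000 * N)) (Real.exp j) := by
      have hX0' : (0 : ℝ) < X0 := by exact_mod_cast (by omega : 0 < X0)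
      have hb : ‖ρ (dF (fun t => ∑ i ∈ Finset.range I, AF (dq g len) N (4 * M)
          ((X0 * 16 ^ i : ℕ) : ℝ) (Ks i) (Ks (i + 1)) (fun j => pZ g (y j)) t) t)‖
          ≤ (8 * M + 3 * cS) * (3 * N) * (5 * 2 ^ 42) / X0 * 2 := by
        rw [e4, map_sum]
        refine (norm_sum_le _ _).trans ?_
        have hT3 : (T.card : ℝ) ≤ 3 * N := by rw [hT]; push_cast; linarith
        calc _ ≤ ∑ i ∈ Finset.range I,
              (8 * M + 3 * cS) * (3 * N) * (5 * 2 ^ 42) / X0 * ((1 : ℝ) / 16 ^ i) := by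
              refine Finset.sum_le_sum fun i hi => ?_
              refine ((hAF i (Finset.mem_range.1 hi)).2.2.1 T ρ hρ).trans ?_
              have := sqrt_k i
              calc _ ≤ (8 * M + 3 * cS) * (3 * N) * (5 * 2 ^ 42) / ((X0 * 16 ^ i : ℕ) : ℝ) := by
                    gcongr
                _ = _ := by push_cast; field_simp
          _ = (8 * M + 3 * cS) * (3 * N) * (5 * 2 ^ 42) / X0 *
              ∑ i ∈ Finset.range I, (1 : ℝ) / 16 ^ i := (Finset.mul_sum _ _ _).symm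
          _ ≤ _ := by
              refine mul_le_mul_of_nonneg_left ((geo I).trans ?_) (by positivity)
              have : (0 : ℝ) ≤ 2 / 16 ^ I := by positivity
              linarith
      refine g7 _ _ _ (Real.exp_le_exp.2 ?_) (g3 _ _ hb)
      have e5 : (j : ℝ) / (η / 60000 * N) * ((8 * M + 3 * cS) * (3 * N) * (5 * 2 ^ 42) / X0 * 2)
          = j * (6 * (8 * M + 3 * cS) * (5 * 2 ^ 42) / (η / 60000 * X0)) := by
        field_simp; ring
      rw [e5]
      exact mul_le_of_le_one_right (Nat.cast_nonneg _) (div_le_one_of_le₀ prm.hF (by positivity))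
    have hQ : ∀ E : Zq g → Fin (m + 1), GB (ρ (dF (AQ (dq g len) N (X0 * 16 ^ I)
        (C * (X0 * 16 ^ I) ^ 5) a E (Ks I) fun j => pZ g (y j)) t)) (j / (η / 60000 * N))
        (Real.exp j) := fun E => by
      refine g7 _ _ _ (Real.exp_le_exp.2 ?_) ((hAQ E).2.2 T ρ _ hρ hx0)
      rw [hT]
      exact mark hη ha (by linarith) (by positivity) (hJ ▸ prm.hQ)
    have hxη : (j : ℝ) / (η / 60000 * N) ≤ 1 / (η / 60000) := by
      rw [div_le_div_iff₀ (by positivity) hη]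
      nlinarith
    have hZ : GB (ρ (dF (AZ g len N ρ₀ Ψ ϑ y) t)) (j / (η / 60000 * N))
        (Real.exp j * (1 + 300 * cS * (N : ℝ) ^ 3 / (η / 60000 * c₀ ^ 2)) ^ (2 * M ^ (2 * ρ₀))) := by
      refine g7 _ _ _ ?_ (hAZ.2.2.1 T ρ _ hρ hx0)
      rw [mul_pow, ← pow_mul, ← Real.exp_nat_mul]
      refine mul_le_mul (Real.exp_le_exp.2 ?_) (pow_le_pow_left₀ (by positivity) ?_ _)
        (by positivity) (by positivity)
      · rw [hT]
        refine dom hη prm.γ_pos.le (Nat.cast_nonneg _) hx0 hxη (fun h => by simp [h]) ?_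
        have := prm.hγ
        push_cast
        exact this
      · have h1 := mul_le_mul_of_nonneg_right hxη
          (by positivity : 0 ≤ 300 * cS * (N : ℝ) ^ 3 / c₀ ^ 2)
        have e6 : 1 / (η / 60000) * (300 * cS * (N : ℝ) ^ 3 / c₀ ^ 2)
            = 300 * cS * (N : ℝ) ^ 3 / (η / 60000 * c₀ ^ 2) := by field_simp
        linarith
    have hQQ := g1 _ _ _ _ ((dcomm _ t _).map ρ) (hQ w.1) (hQ w.2)
    rw [← map_add, ← e3] at hQQ
    have hFQ := g1 _ _ _ _ ((dcomm _ t _).map ρ) hF hQQ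
    rw [← map_add, ← e2] at hFQ
    refine g7 _ _ _ (le_of_eq ?_) (g1 _ _ _ _ ((dcomm _ t _).map ρ) hFQ hZ)
    rw [← mul_assoc, ← Real.exp_add, ← Real.exp_add, ← Real.exp_add]
    congr 2; ring

end Crest.Agent.R192B
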