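import Crest.Agent.R192.Approx

/-! Row 192 (S0292), part 0: exterior algebra, simplices, and the self-contained blocks.
Every `XStmt` is proved in its own file `Crest/Agent/R192B/X.lean` as `theorem x : XStmt`
(namespace `Crest.Agent.R192B`; put helper lemmas in a sub-namespace named after the task). -/

set_option autoImplicit false

open MeasureTheory Set
open scoped ContDiff

namespace Crest.Agent.R192B

/-! ### Exterior algebra -/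

abbrev Ext (n : ℕ) := ExteriorAlgebra ℝ (Fin n → ℝ)

noncomputable abbrev io {n : ℕ} (u : Fin n → ℝ) : Ext n := ExteriorAlgebra.ι ℝ u

/-- standard basis vector -/
noncomputable abbrev ee {n : ℕ} (i : Fin n) : Fin n → ℝ := Pi.single i 1

/-- the functional `u ↦ ∑ w i * u i` -/
noncomputable def dot {n : ℕ} (w : Fin n → ℝ) : Module.Dual ℝ (Fin n → ℝ) :=
  ∑ i, w i • LinearMap.proj i

/-- contraction with the vector `w` -/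
noncomputable def cn {n : ℕ} (w : Fin n → ℝ) : Ext n →ₗ[ℝ] Ext n :=
  CliffordAlgebra.contractLeft (Q := (0 : QuadraticForm ℝ (Fin n → ℝ))) (dot w)

/-- evaluation of a form on a list of vectors -/
noncomputable def evL {n : ℕ} : List (Fin n → ℝ) → Ext n →ₗ[ℝ] ℝ
  | [] => (ExteriorAlgebra.algebraMapInv : Ext n →ₐ[ℝ] ℝ).toLinearMap
  | w :: l => evL l ∘ₗ cn w

/-- the basis vectors of `T` in increasing order -/
noncomputable def dirs {n : ℕ} (T : Finset (Fin n)) : List (Fin n → ℝ) :=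
  (T.sort (· ≤ ·)).map ee

/-- number of elements of `T` below `i` -/
def rk {n : ℕ} (T : Finset (Fin n)) (i : Fin n) : ℕ := (T.filter (· < i)).card

abbrev Op (n : ℕ) :=
  EuclideanSpace ℝ (Finset (Fin n)) →L[ℝ] EuclideanSpace ℝ (Finset (Fin n))

/-- Euclidean norm of the `T`-coordinates -/
noncomputable def nT {n : ℕ} (T : Finset (Fin n)) (u : Fin n → ℝ) : ℝ := √(∑ i ∈ T, u i ^ 2)

/-- `ρ` is a creation-operator representation seeing only the coordinates in `T`. -/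
def IsJW {n : ℕ} (T : Finset (Fin n)) (ρ : Ext n →ₐ[ℝ] Op n) : Prop :=
  (∀ u, ‖ρ (io u)‖ ≤ nT T u) ∧
    ∀ l : List (Fin n), (∀ i ∈ l, i ∈ T) →
      ∃ Λ : Op n →L[ℝ] ℝ, (∀ a, |Λ a| ≤ ‖a‖) ∧ ∀ α, evL (l.map ee) α = Λ (ρ α)

/-- **JW**. Creation operators `ψ i e_S = if i ∈ S then 0 else (-1)^#{l ∈ S | l < i} e_(insert i S)`,
`ψ(u) = ∑_{i ∈ T} u i ψ i`, CAR with the adjoints gives `‖ψ u‖ ≤ nT T u`; `ρ = ExteriorAlgebra.lift`;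
`ψ_i^* ρ(α) e_∅ = ρ (cn (ee i) α) e_∅` for `i ∈ T` (left induction on `α`);
`Λ a = ⟪e_∅, ψ^*_{i_k} ⋯ ψ^*_{i_1} a e_∅⟫`. -/
def JWStmt : Prop := ∀ (n : ℕ) (T : Finset (Fin n)), ∃ ρ : Ext n →ₐ[ℝ] Op n, IsJW T ρ

/-- generating bound for the divided powers of `ϖ` -/
def GB {𝔸 : Type} [NormedRing 𝔸] (ϖ : 𝔸) (x B : ℝ) : Prop :=
  ∀ j : ℕ, ∑ m ∈ Finset.range (j + 1), ‖ϖ ^ m‖ * x ^ m / m.factorial ≤ B

/-- **GEN**. Calculus of `GB` (binomial theorem for commuting elements, `Real.sum_le_exp_of_nonneg`). -/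
def GENStmt : Prop :=
  ∀ (𝔸 : Type) [NormedRing 𝔸] [NormedAlgebra ℝ 𝔸] [NormOneClass 𝔸] (x : ℝ), 0 ≤ x →
    (∀ (ϖ ϖ' : 𝔸) (B B' : ℝ), Commute ϖ ϖ' → GB ϖ x B → GB ϖ' x B' → GB (ϖ + ϖ') x (B * B')) ∧
    (∀ (ι : Type) (s : Finset ι) (ϖ : ι → 𝔸) (B : ι → ℝ),
      (∀ i ∈ s, ∀ i' ∈ s, Commute (ϖ i) (ϖ i')) → (∀ i ∈ s, GB (ϖ i) x (B i)) →
        GB (∑ i ∈ s, ϖ i) x (∏ i ∈ s, B i)) ∧
    (∀ (ϖ : 𝔸) (b : ℝ), ‖ϖ‖ ≤ b → GB ϖ x (Real.exp (x * b))) ∧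
    (∀ (ϖ : 𝔸) (b : ℝ), ϖ * ϖ = 0 → ‖ϖ‖ ≤ b → GB ϖ x (1 + x * b)) ∧
    (∀ (ϖ : 𝔸) (c B : ℝ), |c| ≤ 1 → GB ϖ x B → GB (c • ϖ) x B) ∧
    (∀ (ϖ : 𝔸) (c Φ : ℝ), 0 ≤ c → 0 ≤ Φ →
      (∀ m : ℕ, ‖ϖ ^ m‖ ≤ m.factorial * Φ ^ (2 * m) / (2 * m).factorial) →
        GB (c • ϖ) x (Real.exp (√(c * x) * Φ))) ∧
    (∀ (ϖ : 𝔸) (B B' : ℝ), B ≤ B' → GB ϖ x B → GB ϖ x B') ∧
    (∀ (ϖ : 𝔸) (B : ℝ) (j : ℕ), GB ϖ x B → ‖ϖ ^ j‖ * x ^ j ≤ j.factorial * B)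

/-- **DBD** (discrete de Bruijn bound).  With `Y ℓ = ∑_{lab i = ℓ} x i`, prove by induction on the
number of points, for every finset `Λ` of labels (as a duplicate-free list),
`‖ϖ^m * ∏_{ℓ ∈ Λ} Y ℓ‖ ≤ m! Φ^k / k!`, `k = 2m + #Λ`: adding a last point `x` of label `ℓ₀` changes
`ϖ` to `ϖ + Y ℓ₀ * x` (square zero, commutes with `ϖ`), and `(Φ+δ)^k/k! ≥ Φ^k/k! + δ Φ^(k-1)/(k-1)!`. -/
def DBDStmt : Prop :=
  ∀ (𝔸 : Type) [NormedRing 𝔸] [NormedAlgebra ℝ 𝔸] [NormOneClass 𝔸] (ι : Type) [DecidableEq ι]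
    (P : ℕ) (lab : ℕ → ι) (x : ℕ → 𝔸), (∀ i l, x i * x l = -(x l * x i)) → ∀ m : ℕ,
    ‖(∑ l ∈ Finset.range P, ∑ i ∈ (Finset.range l).filter (fun i => lab i = lab l), x i * x l) ^ m‖
      ≤ m.factorial * (∑ i ∈ Finset.range P, ‖x i‖) ^ (2 * m) / (2 * m).factorial

/-- **DB** (continuous de Bruijn bound; from `DBDStmt` by cutting `[0,L]` into `P` pieces, points
`(piece, label)` enumerated piece by piece, error `O(1/P)`; or directly by the same induction with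
derivatives in the upper limit). -/
def DBStmt : Prop :=
  ∀ (𝔸 : Type) [NormedRing 𝔸] [NormedAlgebra ℝ 𝔸] [NormOneClass 𝔸] [CompleteSpace 𝔸] (ι : Type)
    (s : Finset ι) (φ : ι → ℝ → 𝔸) (L : ℝ), 0 ≤ L → (∀ ℓ, Continuous (φ ℓ)) →
    (∀ ℓ ℓ' u u', φ ℓ u * φ ℓ' u' = -(φ ℓ' u' * φ ℓ u)) → ∀ m : ℕ,
    ‖(∑ ℓ ∈ s, ∫ u in (0 : ℝ)..L, (∫ r in (0 : ℝ)..u, φ ℓ r) * φ ℓ u) ^ m‖
      ≤ m.factorial * (∫ u in (0 : ℝ)..L, ∑ ℓ ∈ s, ‖φ ℓ u‖) ^ (2 * m) / (2 * m).factorial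

/-! ### Simplices -/

/-- ordered times in `[0, L]` -/
def Sx (L : ℝ) (n : ℕ) : Set (Fin n → ℝ) := {t | (∀ i, t i ∈ Icc 0 L) ∧ Monotone t}

/-- upper face of coordinate `i`: `t i` equals the next time (or `L`) -/
noncomputable def upF (L : ℝ) {n : ℕ} (i : Fin (n + 1)) (t : Fin n → ℝ) : Fin (n + 1) → ℝ :=
  Fin.insertNth i ((Fin.snoc t L : Fin (n + 1) → ℝ) i) t

/-- lower face of coordinate `i`: `t i` equals the previous time (or `0`) -/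
noncomputable def loF {n : ℕ} (i : Fin (n + 1)) (t : Fin n → ℝ) : Fin (n + 1) → ℝ :=
  Fin.insertNth i ((Fin.cons 0 t : Fin (n + 1) → ℝ) i) t

/-- duplicate coordinate `i` -/
def dup {n : ℕ} (i : Fin n) (t : Fin n → ℝ) : Fin (n + 1) → ℝ := fun m => t (i.predAbove m)

/-- **SIMP**. Compactness, volume, faces, and the fundamental theorem of calculus in one
coordinate (`MeasureTheory.measurePreserving_piFinSuccAbove` / `integral_fintype` + Fubini). -/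
def SIMPStmt : Prop :=
  ∀ (L : ℝ), 0 ≤ L → ∀ n : ℕ,
    IsCompact (Sx L n) ∧ MeasurableSet (Sx L n) ∧
    (volume (Sx L n)).toReal = L ^ n / n.factorial ∧
    (∀ (i : Fin (n + 1)), ∀ t ∈ Sx L n, upF L i t ∈ Sx L (n + 1) ∧ loF i t ∈ Sx L (n + 1)) ∧
    (∀ (i : Fin n) (t : Fin n → ℝ), upF L i.castSucc t = dup i t ∧ loF i.succ t = dup i t) ∧
    ∀ (f : (Fin (n + 1) → ℝ) → ℝ) (i : Fin (n + 1)), (∀ t ∈ Sx L (n + 1), ContDiffAt ℝ 1 f t) →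
      ∫ t in Sx L (n + 1), fderiv ℝ f t (ee i) =
        (∫ t in Sx L n, f (upF L i t)) - ∫ t in Sx L n, f (loF i t)

/-- **PAR**. Parametric interval integrals of smooth functions are smooth. -/
def PARStmt : Prop :=
  ∀ (E : Type) [NormedAddCommGroup E] [NormedSpace ℝ E] [FiniteDimensional ℝ E]
    (F : E → ℝ → ℝ) (a b : ℝ), ContDiff ℝ ∞ (fun p : E × ℝ => F p.1 p.2) →
    ContDiff ℝ ∞ (fun p => ∫ r in a..b, F p r) ∧
      ∀ p v, fderiv ℝ (fun p => ∫ r in a..b, F p r) p v =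
        ∫ r in a..b, fderiv ℝ (fun p => F p r) p v

/-- a smoothed staircase of period `L` whose steps have width `k` -/
structure IsKer (L k : ℝ) (K : ℝ → ℝ) : Prop where
  smooth : ContDiff ℝ ∞ K
  per : ∀ u, K (u + L) = K u + 1
  odd : ∀ u, K (-u) = -K u
  d_nonneg : ∀ u, 0 ≤ deriv K u
  d_le : ∀ u, deriv K u ≤ 10 / k
  flat : ∀ u, k ≤ u → u ≤ L - k → K u = 1 / 2

/-- **KER**. E.g. `κ u = b ((L/k)² sin² (π u / L))` normalised, `b` a smooth cutoff with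
`b = 1` on `[0,1]`, `b = 0` on `[4,∞)` (Jordan: `sin (π u / L) ≥ 2u/L` on `[0, L/2]`), `K = ∫_0^u κ`. -/
def KERStmt : Prop := ∀ L k : ℝ, 0 < k → 4 * k ≤ L → ∃ K, IsKer L k K

noncomputable abbrev ST : ℝ → ℝ := Real.smoothTransition

/-- a bound for the derivative of the smooth transition -/
noncomputable def cS : ℝ := 1 + ⨆ x, |deriv ST x|

/-- **CS**. -/
def CSStmt : Prop :=
  1 ≤ cS ∧ (∀ x, |deriv ST x| ≤ cS) ∧ (∀ x, x ≤ 0 → deriv ST x = 0) ∧ ∀ x, 1 ≤ x → deriv ST x = 0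

/-! ### Truncated metrics, environments -/

structure Met {Z : Type} (d : Z → Z → ℕ) (M D : ℕ) : Prop where
  refl : ∀ x, d x x = 0
  symm : ∀ x y, d x y = d y x
  tri : ∀ x y z, d x z ≤ d x y + d y z
  le : ∀ x y, d x y ≤ D
  ball : ∀ x r, r < D → ∃ B : Finset Z, B.card ≤ M ^ r ∧ ∀ y, d x y ≤ r → y ∈ B

/-- hypotheses of the environment lemma -/
structure EnvH {Z : Type} (d : Z → Z → ℕ) (M D m : ℕ) (ν : Measure (Fin (m + 1)))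
    (Good : (Z → Fin (m + 1)) → Z → Prop) (r : ℕ) : Prop where
  met : Met d M D
  two : 2 ≤ M
  prob : IsProbabilityMeasure ν
  r_pos : 1 ≤ r
  r_lt : 10 * r < D
  loc : ∀ E E' x, (∀ y, d x y ≤ r → E y = E' y) → (Good E x ↔ Good E' x)
  equi : ∀ σ : Z ≃ Z, (∀ x y, d (σ x) (σ y) = d x y) → ∀ E x, Good (E ∘ σ.symm) (σ x) ↔ Good E x
  rare : ∀ x, Measure.infinitePi (fun _ : Z => ν) {E | ¬ Good E x} ≤
    ENNReal.ofReal (1 / (100 * (M : ℝ) ^ (10 * r)))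

/-- **ENV1** (local lemma, dependency degree `≤ M^(2r)`; prove it for the product measure, or
transfer `Crest.Agent.R43.lll`). -/
def ENV1Stmt : Prop :=
  ∀ (Z : Type) (d : Z → Z → ℕ) (M D m : ℕ) (ν : Measure (Fin (m + 1)))
    (Good : (Z → Fin (m + 1)) → Z → Prop) (r : ℕ), EnvH d M D m ν Good r →
    ∀ F : Finset Z, 0 < Measure.infinitePi (fun _ : Z => ν) {E | ∀ x ∈ F, Good E x}

/-- **ENV2** (bad clusters are finite).  An infinite cluster contains shortest hop paths of every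
length; their even points are pairwise `> 4r` apart (independent events), consecutive ones are
`≤ 8r` apart: probability `≤ (M^(8r) p)^k`. -/
def ENV2Stmt : Prop :=
  ∀ (Z : Type) (d : Z → Z → ℕ) (M D m : ℕ) (ν : Measure (Fin (m + 1)))
    (Good : (Z → Fin (m + 1)) → Z → Prop) (r : ℕ), EnvH d M D m ν Good r →
    ∀ x, ∀ᵐ E ∂(Measure.infinitePi (fun _ : Z => ν)),
      {y | Relation.ReflTransGen (fun u v => ¬ Good E v ∧ d u v ≤ 4 * r) x y}.Finite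

/-- **ENV** (`theorem env : ENV1Stmt → ENV2Stmt → ENVStmt`).  Source space: iid labels on
`Z × ℕ` (layers `E^i`).  `K x = {y | ∃ u, ¬ Good E^0 u ∧ d x u ≤ 2r ∧ u hops to y}`,
`i x` = least `i ≥ 1` with `E^i` good at all points within `r` of `K x` (else `0`; a countable
intersection of local events, so measurable), second field `x ↦ E^(i x) x`; `μ` = image measure.
If `x` is bad and `d x x' ≤ r`, all points within `r` of `x'` have the same `K`. -/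
def ENVStmt : Prop :=
  ∀ (Z : Type) (d : Z → Z → ℕ) (M D m : ℕ) (ν : Measure (Fin (m + 1)))
    (Good : (Z → Fin (m + 1)) → Z → Prop) (r : ℕ), EnvH d M D m ν Good r →
    ∃ μ : Measure ((Z → Fin (m + 1)) × (Z → Fin (m + 1))), IsProbabilityMeasure μ ∧
      (∀ σ : Z ≃ Z, (∀ x y, d (σ x) (σ y) = d x y) →
        MeasurePreserving (fun c => (c.1 ∘ σ.symm, c.2 ∘ σ.symm)) μ μ) ∧
      ∀ x x', d x x' ≤ r → ∀ᵐ c ∂μ, Good c.1 x ∨ Good c.2 x'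

/-- finitely supported probability vector -/
def IsPr {Z : Type} (ν : Z →₀ ℝ) : Prop := (∀ y, 0 ≤ ν y) ∧ ν.sum (fun _ w => w) = 1

/-- mean distance from `x` -/
noncomputable def fm {Z : Type} (d : Z → Z → ℕ) (ν : Z →₀ ℝ) (x : Z) : ℝ :=
  ν.sum fun y w => w * d x y

/-- the labels `E` are good at `x`: every profile centred near `x` has at most `J` near-minimisers -/
def GoodQ {Z : Type} (d : Z → Z → ℕ) (X J : ℕ) (a : ℝ) {m : ℕ} (E : Z → Fin (m + 1)) (x : Z) :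
    Prop :=
  ∀ ν : Z →₀ ℝ, IsPr ν → fm d ν x ≤ X + 1 → ∀ A : Finset Z,
    (∀ x' ∈ A, d x x' ≤ 3 * X + 3 ∧ ∀ x'', d x x'' ≤ 3 * X + 3 →
      fm d ν x' - a * ((E x' : ℕ) : ℝ) ≤ fm d ν x'' - a * ((E x'' : ℕ) : ℝ) + a) → A.card ≤ J

/-- **MAU** (empirical approximation in sup norm; potential `∑_x cosh (λ ∑_j (g x (y j) - mean))`,
`e^u ≤ 1 + u + u²` for `|u| ≤ 1`, choose the samples one at a time). -/
def MAUStmt : Prop :=
  ∀ (Z : Type) (B : Finset Z) (g : Z → Z → ℝ) (R a : ℝ) (ν : Z →₀ ℝ) (k : ℕ), IsPr ν → 0 < a →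
    a ≤ R → (∀ x ∈ B, ∀ y, |g x y| ≤ R) → 0 < k →
    16 * R ^ 2 * (Real.log (2 * B.card + 1) + 1) ≤ k * a ^ 2 →
    ∃ ys : Fin k → Z, (∀ j, ys j ∈ ν.support) ∧
      ∀ x ∈ B, |(ν.sum fun y w => w * g x y) - (∑ j, g x (ys j)) / k| ≤ a

/-- truncated geometric law: `P (E ≥ i) = q ^ i` for `i ≤ m` -/
def IsGeo (m : ℕ) (q : ℝ) (ν : Measure (Fin (m + 1))) : Prop :=
  IsProbabilityMeasure ν ∧ ∀ i : ℕ, i ≤ m → ν {E | i ≤ (E : ℕ)} = ENNReal.ofReal (q ^ i)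

/-- **TIE** (one fixed profile `f`).  Off the event that some label in `B` is `≥ m - 7`, cover the
minimum `F* = min_B (f - aE)` by a grid of step `a` (the range has length `≤ 2R + a m`); for a grid
point `λ`, `u_x = P(F_x < λ)`, `v_x = P(λ ≤ F_x < λ + 6a, E_x < m - 7) ≤ (q^(-7) - 1) u_x` when `u_x < 1`, and
`P(none below λ, ≥ J in the window) ≤ s^(-J) ∏ (1 - u_x + (s-1) v_x) ≤ s^(-J)` for
`s = 1/(q^(-7) - 1) ≥ e`. Also existence of the law. -/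
def TIEStmt : Prop :=
  (∀ (m : ℕ) (q : ℝ), 0 < q → q < 1 → ∃ ν, IsGeo m q ν) ∧
  ∀ (Z : Type) (B : Finset Z) (m : ℕ) (q a R : ℝ) (ν : Measure (Fin (m + 1))) (f : Z → ℝ) (J : ℕ),
    IsGeo m q ν → 0 < q → q < 1 → (q ^ 7)⁻¹ ≤ 4 / 3 → 0 < a → 0 ≤ R → (∀ x ∈ B, |f x| ≤ R) →
    Measure.infinitePi (fun _ : Z => ν)
      {E | (∀ x ∈ B, (E x : ℕ) + 7 < m) ∧ ∃ A : Finset Z, A ⊆ B ∧ J ≤ A.card ∧ ∀ x' ∈ A, ∀ x'' ∈ B,
        f x' - a * ((E x' : ℕ) : ℝ) ≤ f x'' - a * ((E x'' : ℕ) : ℝ) + 5 * a} ≤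
      ENNReal.ofReal ((2 * R / a + m + 2) * Real.exp (-(J : ℝ)))

/-- **GP** (`theorem gp : MAUStmt → TIEStmt → GPStmt`).  `β = 200 log M + 20`, `q = exp (-β a)`,
`7 β a ≤ log (4/3)`, `m = ⌊X/a⌋`.  For a profile `ν` with `fm ν x ≤ X+1` move the mass outside
the ball of radius `R₂ ≥ 2(3X+3)(X+1)/a` to `x` (changes `g x' = d x' · - d x ·` by `≤ a`), sample
with `MAU`; there are `≤ (M^R₂)^k` sample tuples; union bound with `TIE`, plus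
`#B * q^(m-7)` for a large label. -/
def GPStmt : Prop :=
  ∀ M : ℕ, 2 ≤ M → ∃ a : ℝ, 0 < a ∧ a ≤ 1 ∧ ∃ C : ℕ, ∀ X : ℕ, 1 ≤ X →
    ∃ (m : ℕ) (ν : Measure (Fin (m + 1))), IsProbabilityMeasure ν ∧ a * m ≤ X ∧
      ∀ (Z : Type) (d : Z → Z → ℕ) (D : ℕ), Met d M D → C * X ^ 2 < D → ∀ x,
        Measure.infinitePi (fun _ : Z => ν) {E | ¬ GoodQ d X (C * X ^ 5) a E x} ≤
          ENNReal.ofReal (1 / (100 * (M : ℝ) ^ (10 * (3 * X + 3))))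

/-! ### Word length, the quotient by `⟨g⟩`, twisted bumps -/

structure IsLen {G : Type} [Group G] (S : Finset G) (M D : ℕ) (len : G → ℕ) : Prop where
  one : len 1 = 0
  inv : ∀ x, len x⁻¹ = len x
  mul : ∀ x y, len (x * y) ≤ len x + len y
  step : ∀ s ∈ S, len s ≤ 1
  le : ∀ x, len x ≤ D
  ball : ∀ r, r < D → ∃ B : Finset G, B.card ≤ M ^ r ∧ ∀ x, len x ≤ r → x ∈ B

/-- **LEN** (word length in `S ∪ S⁻¹`, truncated at `D`). -/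
def LENStmt : Prop :=
  ∀ (G : Type) [Group G] (S : Finset G) (D : ℕ), ∃ len, IsLen S (2 * S.card + 2) D len

abbrev Zq {G : Type} [Group G] (g : G) := Quotient (QuotientGroup.rightRel (Subgroup.zpowers g))

def pZ {G : Type} [Group G] (g : G) (y : G) : Zq g := Quotient.mk _ y

noncomputable def dq {G : Type} [Group G] (g : G) (len : G → ℕ) (z z' : Zq g) : ℕ :=
  sInf {r | ∃ x x', pZ g x = z ∧ pZ g x' = z' ∧ len (x⁻¹ * x') = r}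

/-- **MET**. -/
def METStmt : Prop :=
  ∀ (G : Type) [Group G] (S : Finset G) (M D : ℕ) (len : G → ℕ) (g : G), IsLen S M D len →
    Met (dq g len) M D ∧ (∀ y, pZ g (g * y) = pZ g y) ∧
    (∀ z : Zq g, ∃ k : G → ℤ, ∀ y, pZ g y = z → y = g ^ k y * z.out) ∧
    (∀ y, ∀ s ∈ S, dq g len (pZ g y) (pZ g (y * s)) ≤ 1) ∧
    (∀ x y r, dq g len (pZ g x) (pZ g y) ≤ r ↔ ∃ k : ℤ, len ((g ^ k * x)⁻¹ * y) ≤ r) ∧
    ∀ h, Commute h g → ∃ σ : Zq g ≃ Zq g, (∀ z z', dq g len (σ z) (σ z') = dq g len z z') ∧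
      ∀ y, σ (pZ g y) = pZ g (h * y)

/-- **ZETA**.  `D_γ = {k | len (γ^k) ≤ r}` generates `d ℤ`.  If `d ≠ 1` take `ϑ = π` (`d = 0`) or
`ϑ = 2π ⌊d/2⌋ / d`.  If `d = 1`, `γ` generates the subgroup generated by `B ∩ ⟨γ⟩`, so `γ` lies in a
finite set; the torsion ones form `𝒮`, for the others `D_γ` is finite and `ϑ = 2π/Q`, `Q` large. -/
def ZETAStmt : Prop :=
  ∀ (G : Type) [Group G] (S : Finset G) (M D : ℕ) (len : G → ℕ), IsLen S M D len →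
    ∀ (r : ℕ) (γ₀ : ℝ), r < D → 0 < γ₀ → ∃ (𝒮 : Finset G) (c₀ : ℝ), (∀ s ∈ 𝒮, IsOfFinOrder s) ∧
      0 < c₀ ∧ ∀ γ, γ ∉ 𝒮 → ∃ ϑ : ℝ, |ϑ| ≤ Real.pi ∧ c₀ ≤ |Real.sin (ϑ / 2)| ∧
        (∀ k : ℤ, γ ^ k = 1 → Complex.exp (ϑ * k * Complex.I) = 1) ∧
        ∀ k : ℤ, len (γ ^ k) ≤ r → ‖Complex.exp (ϑ * k * Complex.I) - 1‖ ≤ γ₀

/-- twisted bumps around the lines `⟨g⟩ x` -/
structure IsPsi {G : Type} [Group G] (S : Finset G) (len : G → ℕ) (g : G) (ρ₁ : ℕ) (γ c₀ : ℝ)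
    (Ψ : G → G → ℂ) (ϑ : G → ℝ) : Prop where
  tw : ∀ x y, Ψ x (g * y) = Complex.exp (ϑ x * Complex.I) * Ψ x y
  eqϑ : ∀ h x, Commute h g → ϑ (h * x) = ϑ x
  eqΨ : ∀ h x y, Commute h g → Ψ (h * x) (h * y) = Ψ x y
  lip : ∀ x y, ∀ s ∈ S, ‖Ψ x (y * s) - Ψ x y‖ ≤ γ
  big : ∀ x y, dq g len (pZ g x) (pZ g y) ≤ ρ₁ → 3 / 4 ≤ ‖Ψ x y‖
  abs_le : ∀ x, |ϑ x| ≤ Real.pi
  sin_ge : ∀ x, c₀ ≤ |Real.sin (ϑ x / 2)|

/-- **PSI** (`theorem psi : METStmt → ZETAStmt → PSIStmt`).  `ϑ x` = the angle chosen by `ZETA`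
(`r = 4ρ₁+1`, `γ₀ = min (γ/6) (1/4)`) for `x⁻¹ g x`; `χ_x (g^k) = exp (i k ϑ x)`;
`P x y = {u ∈ ⟨g⟩ | len ((u x)⁻¹ y) < 2ρ₁}` (finite);
`Ψ x y = bump (dq x y) * (average of χ_x over P x y)`, `bump r = max 0 (min 1 (2 - r/ρ₁))`. -/
def PSIStmt : Prop :=
  ∀ (G : Type) [Group G] (S : Finset G) (M D : ℕ) (len : G → ℕ), IsLen S M D len →
    ∀ (ρ₁ : ℕ) (γ : ℝ), 4 * ρ₁ + 1 < D → 0 < ρ₁ → 2 / γ ≤ ρ₁ → 0 < γ →
      ∃ (𝒮 : Finset G) (c₀ : ℝ), (∀ s ∈ 𝒮, IsOfFinOrder s) ∧ 0 < c₀ ∧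
        ∀ g : G, (∀ x : G, x⁻¹ * g * x ∉ 𝒮) → ∃ Ψ ϑ, IsPsi S len g ρ₁ γ c₀ Ψ ϑ

end Crest.Agent.R192B
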