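import Crest.Agent.R192B.D0

/-! Row 192 (S0292), part 1: the telescoping identity (Stokes on ordered simplices and the algebra
of words), the interface `HasConn`, and the final assembly. -/

set_option autoImplicit false

open MeasureTheory Set Polynomial
open scoped ContDiff

namespace Crest.Agent.R192B

open Crest.Agent.R192 (Mat nrm trC)

/-! ### One cell -/

abbrev Vf (n : ℕ) := (Fin n → ℝ) → (Fin n → ℝ)

/-- exterior derivative of the one-form with components `f` -/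
noncomputable def dF {n : ℕ} (f : Vf n) (t : Fin n → ℝ) : Ext n :=
  ∑ i, io (ee i) * io (fderiv ℝ f t (ee i))

noncomputable def th {n : ℕ} (f : Vf n) : Vf n := fun t => (∑ i, f t i)⁻¹ • f t

noncomputable def th0 {n : ℕ} (d : Fin n → ℝ) : Fin n → ℝ := (∑ i, d i)⁻¹ • d

noncomputable def gam {n : ℕ} (j : ℕ) (d : Fin n → ℝ) (f : Vf n) (t : Fin n → ℝ) : Ext n :=
  io (th0 d) * io (th f t) * dF (th f) t ^ j

noncomputable def cX (L : ℝ) (j : ℕ) {n : ℕ} (f : Vf n) (T : Finset (Fin n)) : ℝ :=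
  ∫ t in Sx L n, evL (dirs T) (io (th f t) * dF (th f) t ^ j)

noncomputable def cD (L : ℝ) (j : ℕ) {n : ℕ} (d : Fin n → ℝ) (f : Vf n) (T : Finset (Fin n)) : ℝ :=
  ∫ t in Sx L n, evL (dirs T) (io (th0 d) * dF (th f) t ^ j)

noncomputable def cGd (L : ℝ) (j : ℕ) {n : ℕ} (d : Fin n → ℝ) (f : Vf n) (T : Finset (Fin n)) : ℝ :=
  ∫ t in Sx L n, evL (dirs T) (gam j d f t)

noncomputable def cGc (L : ℝ) (j : ℕ) {n : ℕ} (d : Fin n → ℝ) (f : Vf n) (i : Fin n)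
    (T : Finset (Fin n)) : ℝ :=
  ∫ t in Sx L n, evL (ee i :: dirs T) (gam j d f t)

noncomputable def cUp (L : ℝ) (j : ℕ) {n : ℕ} (d : Fin (n + 1) → ℝ) (f : Vf (n + 1))
    (i : Fin (n + 1)) (T : Finset (Fin (n + 1))) : ℝ :=
  ∫ t in Sx L n, evL (dirs (T.erase i)) (gam j d f (upF L i t))

noncomputable def cLo (L : ℝ) (j : ℕ) {n : ℕ} (d : Fin (n + 1) → ℝ) (f : Vf (n + 1))
    (i : Fin (n + 1)) (T : Finset (Fin (n + 1))) : ℝ :=
  ∫ t in Sx L n, evL (dirs (T.erase i)) (gam j d f (loF i t))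

/-- add the coordinates `i` and `i+1` (transpose of `dup i`) -/
def pb {n : ℕ} (i : Fin n) (u : Fin (n + 1) → ℝ) : Fin n → ℝ :=
  Fin.contractNth i.castSucc (· + ·) u

/-- move the last entry to the front -/
def rotV {α : Type} {n : ℕ} (u : Fin (n + 1) → α) : Fin (n + 1) → α :=
  Fin.cons (u (Fin.last n)) (Fin.init u)

def rotT (L : ℝ) {n : ℕ} (t : Fin (n + 1) → ℝ) : Fin (n + 1) → ℝ :=
  Fin.cons (t (Fin.last n) - L) (Fin.init t)

/-- smooth, and the normalisation does not vanish on the simplex -/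
def Reg (L : ℝ) {n : ℕ} (f : Vf n) : Prop :=
  ContDiff ℝ ∞ f ∧ ∀ t ∈ Sx L n, ∑ i, f t i ≠ 0

/-- **EV**. Algebra of `evL` (all by induction on the list and `CliffordAlgebra.left_induction`,
`contractLeft_ι_mul`, `contractLeft_comm`, `contractLeft_contractLeft`). -/
def EVStmt : Prop :=
  ∀ n : ℕ,
    (∀ (u w : Fin n → ℝ) (α : Ext n), cn w (io u * α) = (∑ i, w i * u i) • α - io u * cn w α) ∧
    (∀ (l : List (Fin n → ℝ)) (w w' : Fin n → ℝ) (α : Ext n),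
      evL ((w + w') :: l) α = evL (w :: l) α + evL (w' :: l) α) ∧
    (∀ (l : List (Fin n → ℝ)) (α : Ext n),
      evL ((fun _ => 1) :: l) α = ∑ i, evL (ee i :: l) α) ∧
    (∀ (T : Finset (Fin n)) (i : Fin n) (α : Ext n), i ∈ T → evL (ee i :: dirs T) α = 0) ∧
    (∀ (T : Finset (Fin n)) (i : Fin n) (α : Ext n), i ∈ T →
      evL (ee i :: dirs (T.erase i)) α = (-1) ^ rk T i * evL (dirs T) α) ∧
    (∀ (T : Finset (Fin n)) (β : Fin n → Ext n),
      evL (dirs T) (∑ i, io (ee i) * β i) =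
        ∑ i ∈ T, (-1) ^ rk T i * evL (dirs (T.erase i)) (β i)) ∧
    ∀ (m : ℕ) (φ : (Fin n → ℝ) →ₗ[ℝ] (Fin m → ℝ)) (ψ : (Fin m → ℝ) → (Fin n → ℝ)),
      (∀ u w, ∑ i, w i * φ u i = ∑ i, ψ w i * u i) → ∀ (l : List (Fin m → ℝ)) (α : Ext n),
        evL l (ExteriorAlgebra.map φ α) = evL (l.map ψ) α

/-- **STK** (`theorem stk : JWStmt → SIMPStmt → EVStmt → STKStmt`).  With `ρ` from `JW univ`,
`t ↦ evL (dirs (T.erase i)) (gam j d f t) = Λ (ρ θ₀ * ρ θ(t) * (ρ Ω(t))^j)` is `C¹` near the simplex;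
`∑ i, io (ee i) * ∂_i γ_j = - θ₀ Ω^(j+1)` because `∑ i, io (ee i) * ∂_i Ω = 0` (symmetry of second
derivatives) and `Ω`, `∂_i Ω` are even, hence central. -/
def STKStmt : Prop :=
  ∀ (L : ℝ) (j n : ℕ) (d : Fin (n + 1) → ℝ) (f : Vf (n + 1)) (T : Finset (Fin (n + 1))), 0 ≤ L →
    Reg L f → cD L (j + 1) d f T =
      -∑ i ∈ T, (-1) ^ rk T i * (cUp L j d f i T - cLo L j d f i T)

/-- **SPL** (`theorem spl : JWStmt → SIMPStmt → EVStmt → SPLStmt`).  With `V = fun _ => 1`: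
`cn V θ₀ = cn V θ = 1`, `cn V Ω = 0`, so `cn V γ_j = θ Ω^j - θ₀ Ω^j`.  Integrands are continuous on the
compact simplex (through `JW univ`).  For the bound: `io θ * (dF θ)^j = α^(-(j+1)) • (io f * (dF f)^j)`. -/
def SPLStmt : Prop :=
  ∀ (L : ℝ) (j n : ℕ) (d : Fin n → ℝ) (f : Vf n) (T : Finset (Fin n)), 0 ≤ L → Reg L f →
    ((∀ t c, f (fun i => t i + c) = f t) → ∑ i, d i ≠ 0 →
      cX L j f T = cD L j d f T + ∑ i ∈ Tᶜ, cGc L j d f i T) ∧
    (∀ i ∈ T, cGc L j d f i (T.erase i) = (-1) ^ rk T i * cGd L j d f T) ∧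
    (∀ i, cD L 0 d f {i} = d i / (∑ l, d l) * (L ^ n / n.factorial)) ∧
    ∀ K : ℝ, (∀ t ∈ Sx L n, 0 < ∑ i, f t i ∧
      |evL (dirs T) (io (f t) * dF f t ^ j)| ≤ K * (∑ i, f t i) ^ (j + 1)) →
      |cX L j f T| ≤ K * (L ^ n / n.factorial)

/-- **COL** (`theorem col : JWStmt → SIMPStmt → EVStmt → COLStmt`).  Pointwise
`gam j (pb i d) f' t = ExteriorAlgebra.map (pb i) (gam j d f (dup i t))` on the simplex, the last
clause of `EV` with `ψ = dup i`, and `dirs` of images under the (here strictly monotone) map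
`predAbove`. -/
def COLStmt : Prop :=
  ∀ (L : ℝ) (j n : ℕ) (d : Fin (n + 1) → ℝ) (f : Vf (n + 1)) (f' : Vf n)
    (T : Finset (Fin (n + 1))) (i : Fin n), 0 ≤ L → Reg L f →
    (∀ t, f' t = pb i (f (dup i t))) →
    (i.castSucc ∈ T → i.succ ∈ T →
      (-1) ^ rk T i.castSucc * cUp L j d f i.castSucc T - (-1) ^ rk T i.succ * cLo L j d f i.succ T =
        cGc L j (pb i d) f' i (((T.erase i.castSucc).erase i.succ).image i.predAbove)) ∧
    (i.castSucc ∈ T → i.succ ∉ T → cUp L j d f i.castSucc T =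
        cGd L j (pb i d) f' ((T.erase i.castSucc).image i.predAbove)) ∧
    (i.castSucc ∉ T → i.succ ∈ T → cLo L j d f i.succ T =
        cGd L j (pb i d) f' ((T.erase i.succ).image i.predAbove))

/-- **ROT** (`theorem rot : SIMPStmt → EVStmt → ROTStmt`).  `rotT L (upF L last t) = loF 0 t`,
`gam j (rotV d) f' (rotT L s) = ExteriorAlgebra.map rotV (gam j d f s)`. -/
def ROTStmt : Prop :=
  ∀ (L : ℝ) (j n : ℕ) (d : Fin (n + 1) → ℝ) (f f' : Vf (n + 1)) (T : Finset (Fin (n + 1))),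
    0 ≤ L → Reg L f → (∀ t, f' (rotT L t) = rotV (f t)) → Fin.last n ∈ T →
    cUp L j d f (Fin.last n) T = cLo L j (rotV d) f' 0 (T.image (finRotate (n + 1)))

/-! ### Connections -/

variable {G : Type} [Group G]

abbrev Form (G : Type) := (n : ℕ) → (Fin (n + 1) → G) → Vf n

def Closed (g : G) {n : ℕ} (y : Fin (n + 1) → G) : Prop := y (Fin.last n) = g * y 0

def Steps (S : Finset G) {n : ℕ} (y : Fin (n + 1) → G) : Prop :=
  ∀ i : Fin n, (y i.castSucc)⁻¹ * y i.succ ∈ S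

/-- remove the vertex between the jumps `i` and `i+1` -/
def mer {α : Type} {n : ℕ} (i : Fin n) (y : Fin (n + 2) → α) : Fin (n + 1) → α :=
  fun m => y (i.succ.castSucc.succAbove m)

/-- start the periodic path one jump earlier -/
def rotY (g : G) {n : ℕ} (y : Fin (n + 2) → G) : Fin (n + 2) → G :=
  Fin.cons (g⁻¹ * y (Fin.last n).castSucc) (Fin.init y)

structure IsConn (g : G) (L : ℝ) (A : Form G) : Prop where
  smooth : ∀ n y, ContDiff ℝ ∞ (A n y)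
  shift : ∀ n y, Closed g y → ∀ t c, A n y (fun i => t i + c) = A n y t
  coll : ∀ n (y : Fin (n + 2) → G) (i : Fin n) t,
    A n (mer i y) t = pb i (A (n + 1) y (dup i t))
  rot : ∀ n (y : Fin (n + 2) → G), Closed g y → ∀ t,
    A (n + 1) (rotY g y) (rotT L t) = rotV (A (n + 1) y t)

/-- a random connection with invariant law and small curvature -/
def HasConn (S : Finset G) (g : G) (N : ℕ) (K η : ℝ) : Prop :=
  ∃ (Ω : Type) (_ : MeasurableSpace Ω) (μ : Measure Ω) (A : Ω → Form G),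
    IsProbabilityMeasure μ ∧ (∀ w, IsConn g N (A w)) ∧
    (∀ h, Commute h g → ∃ σ : Ω → Ω, MeasurePreserving σ μ μ ∧
      ∀ w n y, A (σ w) n (fun i => h * y i) = A w n y) ∧
    (∀ n y, ∃ (m : ℕ) (c : Ω → Fin m) (B : Fin m → Vf n), Measurable c ∧
      ∀ w, A w n y = B (c w)) ∧
    ∀ n, n ≤ 3 * N → ∀ y : Fin (n + 1) → G, Closed g y → Steps S y → ∀ᵐ w ∂μ,
      ∀ t ∈ Sx N n, 0 < ∑ i, A w n y t i ∧ ∀ j, j ≤ N → ∀ T : Finset (Fin n), T.card = 2 * j + 1 →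
        |evL (dirs T) (io (A w n y t) * dF (A w n y) t ^ j)| ≤
          K * η ^ j * (∑ i, A w n y t i) ^ (j + 1)

/-- admissible step sequence -/
def Ok (S : Finset G) (C : Set G) {n : ℕ} (x : Fin n → G) : Prop :=
  (∀ i, x i ∈ S) ∧ (List.ofFn x).prod ∈ C

/-- merge the steps `i` and `i+1` -/
def mX {α : Type} [Mul α] {n : ℕ} (i : Fin n) (x : Fin (n + 1) → α) : Fin n → α :=
  Fin.contractNth i.castSucc (· * ·) x

/-- the averaged cell functionals and their relations -/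
structure Sys (S : Finset G) (C : Set G) (N : ℕ) (K η : ℝ) where
  X : ℕ → (n : ℕ) → (Fin n → G) → Finset (Fin n) → ℝ
  D : ℕ → (n : ℕ) → (Fin n → G) → (Fin n → ℝ) → Finset (Fin n) → ℝ
  Gd : ℕ → (n : ℕ) → (Fin n → G) → (Fin n → ℝ) → Finset (Fin n) → ℝ
  Gc : ℕ → (n : ℕ) → (Fin n → G) → (Fin n → ℝ) → Fin n → Finset (Fin n) → ℝ
  Up : ℕ → (n : ℕ) → (Fin (n + 1) → G) → (Fin (n + 1) → ℝ) → Fin (n + 1) →
    Finset (Fin (n + 1)) → ℝ
  Lo : ℕ → (n : ℕ) → (Fin (n + 1) → G) → (Fin (n + 1) → ℝ) → Fin (n + 1) →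
    Finset (Fin (n + 1)) → ℝ
  spl : ∀ j n x d T, n ≤ 3 * N → Ok S C x → ∑ i, d i ≠ 0 →
    X j n x T = D j n x d T + ∑ i ∈ Tᶜ, Gc j n x d i T
  stk : ∀ j n x d T, n + 1 ≤ 3 * N → Ok S C x →
    D (j + 1) (n + 1) x d T = -∑ i ∈ T, (-1) ^ rk T i * (Up j n x d i T - Lo j n x d i T)
  colA : ∀ j n x d T (i : Fin n), n + 1 ≤ 3 * N → Ok S C x → i.castSucc ∈ T → i.succ ∈ T →
    (-1) ^ rk T i.castSucc * Up j n x d i.castSucc T - (-1) ^ rk T i.succ * Lo j n x d i.succ T =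
      Gc j n (mX i x) (pb i d) i (((T.erase i.castSucc).erase i.succ).image i.predAbove)
  colB : ∀ j n x d T (i : Fin n), n + 1 ≤ 3 * N → Ok S C x → i.castSucc ∈ T → i.succ ∉ T →
    Up j n x d i.castSucc T = Gd j n (mX i x) (pb i d) ((T.erase i.castSucc).image i.predAbove)
  colC : ∀ j n x d T (i : Fin n), n + 1 ≤ 3 * N → Ok S C x → i.castSucc ∉ T → i.succ ∈ T →
    Lo j n x d i.succ T = Gd j n (mX i x) (pb i d) ((T.erase i.succ).image i.predAbove)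
  rot : ∀ j n x d T, n + 1 ≤ 3 * N → Ok S C x → Fin.last n ∈ T →
    Up j n x d (Fin.last n) T = Lo j n (rotV x) (rotV d) 0 (T.image (finRotate (n + 1)))
  sw : ∀ j n x d T i, n ≤ 3 * N → Ok S C x → i ∈ T →
    Gc j n x d i (T.erase i) = (-1) ^ rk T i * Gd j n x d T
  d0 : ∀ n x d i, n ≤ 3 * N → Ok S C x →
    D 0 n x d {i} = d i / (∑ l, d l) * ((N : ℝ) ^ n / n.factorial)
  bd : ∀ j n x T, n ≤ 3 * N → Ok S C x → j ≤ N → T.card = 2 * j + 1 →
    |X j n x T| ≤ K * η ^ j * ((N : ℝ) ^ n / n.factorial)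

/-- **WRAP** (`theorem wrap : STKStmt → SPLStmt → COLStmt → ROTStmt → WRAPStmt`).  Choose
`b : G → G` with `b p * p = g * b p` for `p` in the class; the path of `x` is
`y i = b (prod x) * Fin.partialProd x i`; every functional is `∫ w, c• N j .. (A w n y) .. ∂μ`
(integrable: finitely many values).  `mX` keeps the product, the path of `mX i x` is `mer i y`; the
path of `rotV x` is `h * rotY g y` with `h` commuting with `g`. -/
def WRAPStmt : Prop :=
  ∀ (G : Type) [Group G] (S : Finset G) (g : G) (N : ℕ) (K η : ℝ), HasConn S g N K η →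
    Nonempty (Sys S (ConjClasses.mk g).carrier N K η)

/-! ### Words -/

variable {q : ℕ}

/-- coefficient matrix -/
noncomputable def cf (w : Mat G q) (x : G) : Matrix (Fin q) (Fin q) ℂ := fun i j => (w i j).coeff x

open Classical in
/-- pairing of a tuple of weights with a functional on step sequences -/
noncomputable def pr (C : Set G) {n : ℕ} (w : Fin n → Mat G q) (Φ : (Fin n → G) → ℝ) : ℂ :=
  ∑ᶠ x : Fin n → G, if (List.ofFn x).prod ∈ C then
    (List.ofFn fun i => cf (w i) (x i)).prod.trace * (Φ x : ℂ) else 0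

/-- **PR**. -/
def PRStmt : Prop :=
  ∀ (G : Type) [Group G] (q : ℕ) (C : ConjClasses G) (n : ℕ),
    (∀ (w : Fin n → Mat G q) (i : Fin n) (u u' : Mat G q) (Φ : (Fin n → G) → ℝ),
      pr C.carrier (Function.update w i (u + u')) Φ =
        pr C.carrier (Function.update w i u) Φ + pr C.carrier (Function.update w i u') Φ) ∧
    (∀ (w : Fin n → Mat G q) (i : Fin n) (u : Mat G q) (Φ : (Fin n → G) → ℝ),
      pr C.carrier (Function.update w i (-u)) Φ = -pr C.carrier (Function.update w i u) Φ) ∧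
    (∀ (w : Fin n → Mat G q) (Φ Φ' : (Fin n → G) → ℝ),
      (∀ x, (∀ i, cf (w i) (x i) ≠ 0) → (List.ofFn x).prod ∈ C.carrier → Φ x = Φ' x) →
        pr C.carrier w Φ = pr C.carrier w Φ') ∧
    (∀ (w : Fin n → Mat G q) (ι : Type) (s : Finset ι) (c : ι → ℝ) (Φ : ι → (Fin n → G) → ℝ),
      pr C.carrier w (fun x => ∑ i ∈ s, c i * Φ i x) =
        ∑ i ∈ s, (c i : ℂ) * pr C.carrier w (Φ i)) ∧
    (∀ (w : Fin (n + 1) → Mat G q) (i : Fin n) (Φ : (Fin n → G) → ℝ),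
      pr C.carrier w (fun x => Φ (mX i x)) = pr C.carrier (mX i w) Φ) ∧
    (∀ (w : Fin (n + 1) → Mat G q) (Φ : (Fin (n + 1) → G) → ℝ),
      pr C.carrier w (fun x => Φ (rotV x)) = pr C.carrier (rotV w) Φ) ∧
    (∀ (w : Fin (n + 1) → Mat G q) (Φ : (Fin (n + 1) → G) → ℝ) (B : ℝ), 0 ≤ B →
      (∀ x, (∀ i, cf (w i) (x i) ≠ 0) → (List.ofFn x).prod ∈ C.carrier → |Φ x| ≤ B) →
        ‖pr C.carrier w Φ‖ ≤ B * ∏ i, nrm (w i)) ∧
    ∀ w : Fin n → Mat G q, pr C.carrier w (fun _ => 1) = trC C.carrier (List.ofFn w).prod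

/-- letters: `0` = direction `a` (degree 1), `1` = `a²` (degree 2), `2` = `-a` (degree 1) -/
noncomputable def wt (a : Mat G q) {n : ℕ} (τ : Fin n → Fin 3) : Fin n → Mat G q :=
  fun i => ![a, a * a, -a] (τ i)

noncomputable def dg {n : ℕ} (τ : Fin n → Fin 3) : Fin n → ℝ := fun i => ![1, 2, 1] (τ i)

def aset {n : ℕ} (τ : Fin n → Fin 3) : Finset (Fin n) := Finset.univ.filter fun i => τ i = 0

/-- words of length `n` with `p` letters `0` -/
def Wd (n p : ℕ) : Finset (Fin n → Fin 3) := Finset.univ.filter fun τ => (aset τ).card = p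

/-- `S` contains the supports of `a` and `a²` -/
def Supp (S : Finset G) (a : Mat G q) : Prop :=
  ∀ x, (cf a x ≠ 0 → x ∈ S) ∧ (cf (a * a) x ≠ 0 → x ∈ S)

/-- face sum with a distinguished letter `c` -/
noncomputable def Fs {S : Finset G} {C : Set G} {N : ℕ} {K η : ℝ} (Y : Sys S C N K η)
    (a : Mat G q) (j n : ℕ) (c : Fin 3) : ℂ :=
  ∑ τ ∈ Wd n (2 * j + 1), ∑ i ∈ Finset.univ.filter (fun i => τ i = c),
    pr C (wt a τ) fun x => Y.Gc j n x (dg τ) i (aset τ)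

/-- **ALGA** (`theorem alga : PRStmt → ALGAStmt`).  By `stk` the left side is
`-∑_τ ∑_{i ∈ aset τ} (-1)^rk (Up - Lo)`.  The `Up` terms at `last` cancel the `Lo` terms at `0`
(`rot`, bijection `τ ↦ rotV τ`, `rk = 2j+2` resp. `0`).  For `i : Fin n` compare `Up` at `castSucc i` with
`Lo` at `succ i`: if both letters are `0` use `colA` (bijection onto words with letter `1` at `i`);
otherwise `colB`, `colC` and the involution swapping the two letters (`a` commutes with all weights). -/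
def ALGAStmt : Prop :=
  ∀ (G : Type) [Group G] (q : ℕ) (S : Finset G) (C : ConjClasses G) (N : ℕ) (K η : ℝ)
    (Y : Sys S C.carrier N K η) (a : Mat G q) (j n : ℕ), Supp S a → n + 1 ≤ 3 * N →
    ∑ τ ∈ Wd (n + 1) (2 * j + 3),
      pr C.carrier (wt a τ) (fun x => Y.D (j + 1) (n + 1) x (dg τ) (aset τ)) = -Fs Y a j n 1

/-- **ALGB** (`theorem algb : PRStmt → ALGBStmt`).  (1) replace the distinguished letter `2` by `0`
(weight changes sign, degree is the same), use `sw` and `∑_{i ∈ T} (-1)^(rk T i) = 0` for even `#T`.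
(2) group the words by `T = aset τ`; the letters `1, 2` add up to `a*a - a`. -/
def ALGBStmt : Prop :=
  ∀ (G : Type) [Group G] (q : ℕ) (S : Finset G) (C : ConjClasses G) (N : ℕ) (K η : ℝ)
    (Y : Sys S C.carrier N K η) (a : Mat G q) (j n : ℕ), Supp S a → n + 1 ≤ 3 * N →
    Fs Y a j (n + 1) 2 = 0 ∧
    (j ≤ N → 0 ≤ K → 0 ≤ η →
      ‖∑ τ ∈ Wd (n + 1) (2 * j + 1), pr C.carrier (wt a τ) (fun x => Y.X j (n + 1) x (aset τ))‖ ≤
        2 ^ (n + 1) * (K * η ^ j * ((N : ℝ) ^ (n + 1) / (n + 1).factorial)) *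
          nrm a ^ (2 * j + 1) * nrm (a * a - a) ^ (n + 1 - (2 * j + 1)))

/-- **ALGC** (`theorem algc : PRStmt → ALGCStmt`).  `P = ∑_k C(N,k) (-1)^(N-k) X^(N+1+k) / (N+1+k)`,
`P' = (X²-X)^N`, `P(1) = ∫_0^1 (x²-x)^N = (-1)^N N!²/(2N+1)!` (or prove `∑_k C(N,k)(-1)^k/(M+k)
= N! (M-1)!/(M+N)!` by induction on `N`); a word with one `0`, `k` letters `1` has total degree
`N+1+k` and weight product `(-1)^(N-k) a^(N+1+k)`. -/
def ALGCStmt : Prop :=
  ∀ N : ℕ, 1 ≤ N → ∃ (p : ℂ[X]) (c : ℂ), p.eval 0 = 0 ∧ p.eval 1 = 1 ∧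
    derivative p = Polynomial.C c * (X ^ 2 - X) ^ N ∧
    ‖c‖ = (2 * N + 1).factorial / (N.factorial * N.factorial) ∧
    ∀ (G : Type) [Group G] (q : ℕ) (S : Finset G) (C : ConjClasses G) (K η : ℝ)
      (Y : Sys S C.carrier N K η) (a : Mat G q), Supp S a →
      c * ∑ τ ∈ Wd (N + 1) 1,
        pr C.carrier (wt a τ) (fun x => Y.D 0 (N + 1) x (dg τ) (aset τ)) =
        (N : ℂ) ^ (N + 1) / N.factorial * trC C.carrier (aeval a p)

/-- **ALG** (`theorem alg : PRStmt → ALGAStmt → ALGBStmt → ALGCStmt → ALGStmt`).  With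
`n_j = N+j+1`: `X_j = D_j + Fs j n_j 1 + Fs j n_j 2` (`spl`; the complement of `aset τ` splits by the
letter), `D_(j+1) = -Fs j n_j 1`, `Fs N n_N 1 = 0` (all letters are `0`), so `∑_{j ≤ N} X_j = D_0`;
`(2N+1)! N^j / (N! (N+j+1)!) ≤ C(2N+1, N) ≤ 2^(2N+1)`. -/
def ALGStmt : Prop :=
  ∀ N : ℕ, 1 ≤ N → ∃ (p : ℂ[X]) (c : ℂ), p.eval 0 = 0 ∧ p.eval 1 = 1 ∧
    derivative p = Polynomial.C c * (X ^ 2 - X) ^ N ∧ ‖c‖ ≤ (2 * N + 1) * 4 ^ N ∧
    ∀ (G : Type) [Group G] (q : ℕ) (S : Finset G) (C : ConjClasses G) (K η δ : ℝ)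
      (a : Mat G q), Nonempty (Sys S C.carrier N K η) → Supp S a → 0 ≤ K → 0 ≤ η →
      η * nrm a ^ 2 ≤ δ → nrm (a * a - a) ≤ δ →
      ‖trC C.carrier (aeval a p)‖ ≤ 4 * K * nrm a * (N + 1) * (16 * δ) ^ N

/-- the construction (part 2) -/
def CONNStmt : Prop :=
  ∀ (G : Type) [Group G] (S : Finset G) (η : ℝ), 0 < η → ∃ 𝒮 : Finset G,
    (∀ s ∈ 𝒮, IsOfFinOrder s) ∧ ∀ g : G, (∀ x : G, x⁻¹ * g * x ∉ 𝒮) →
      ∃ (K₀ N₀ : ℕ), ∀ N, N₀ ≤ N → HasConn S g N (K₀ * (N : ℝ) ^ K₀) η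

/-- **FIN** (`theorem fin_ : WRAPStmt → ALGStmt → CONNStmt → FINStmt`).  `δ = 1/32`, `a` from
`Crest.Agent.R192.approx` with `ε = δ`, `η = δ / (nrmE e + 1)²`, `S` = union of the supports; for `g`
not conjugate into `𝒮` let `N → ∞`. -/
def FINStmt : Prop :=
  ∀ (G : Type) [Group G] (q : ℕ) (e : Fin q → Fin q → G → ℂ),
    Crest.AlgebraR.L1.IsL1IdempotentMatrix e →
    Set.Finite {C : ConjClasses G | Crest.AlgebraR.L1.classTrace e C.carrier ≠ 0} ∧
      ∀ g : G, ¬ IsOfFinOrder g →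
        Crest.AlgebraR.L1.classTrace e (ConjClasses.mk g).carrier = 0

end Crest.Agent.R192B
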