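import Crest.Agent.R192B.D1

/-! Row 192 (S0292), part 2: the construction of the connection (proves `CONNStmt`).
`A = ∑_{i<I} AF i + AQ (field 1) + AQ (field 2) + AZ`. -/

set_option autoImplicit false

open MeasureTheory Set
open scoped ContDiff

namespace Crest.Agent.R192B

/-! ### Functions of the observation time `s` and the jump times `t` -/

abbrev Fn (n : ℕ) := ℝ → (Fin n → ℝ) → ℝ

def Sm {n : ℕ} (u : Fn n) : Prop := ContDiff ℝ ∞ (fun p : (Fin n → ℝ) × ℝ => u p.2 p.1)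

def Cov {n : ℕ} (u : Fn n) : Prop := ∀ s t c, u (s + c) (fun i => t i + c) = u s t

def Per (L : ℝ) {n : ℕ} (u : Fn n) : Prop := ∀ s t, u (s + L) t = u s t

/-- gradient in the jump times -/
noncomputable def gr {n : ℕ} (u : Fn n) (s : ℝ) (t : Fin n → ℝ) : Fin n → ℝ :=
  fun l => fderiv ℝ (u s) t (ee l)

/-- the one-form `∫_0^L u dv ds` -/
noncomputable def frm (L : ℝ) {n : ℕ} (u v : Fn n) : Vf n :=
  fun t l => ∫ s in (0 : ℝ)..L, u s t * gr v s t l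

noncomputable def lag (L : ℝ) {n : ℕ} (u : Fn n) : Fn n :=
  fun s t => ∫ r in (0 : ℝ)..L, Real.cos (Real.pi * r / L) * u (s - r) t

/-- smoothed value of the vertex data `p` along the path -/
noncomputable def lin (K : ℝ → ℝ) (c0 : ℝ) {n : ℕ} (p : Fin (n + 1) → ℝ) : Fn n :=
  fun s t => c0 * p 0 + ∑ i : Fin n, (p i.succ - p i.castSucc) * K (s - t i)

/-- time average of the vertex data `p` -/
noncomputable def avg (L : ℝ) {n : ℕ} (p : Fin (n + 1) → ℝ) (t : Fin n → ℝ) : ℝ :=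
  lin (fun u => u / L) 1 p 0 t

noncomputable def HK (K K' : ℝ → ℝ) (u : ℝ) : ℝ := ∫ r in (0 : ℝ)..u, (K r - K' r)

noncomputable def aK (K : ℝ → ℝ) {n : ℕ} (T : Finset (Fin n)) (t : Fin n → ℝ) (s : ℝ) : ℝ :=
  nT T fun l => deriv K (s - t l)

noncomputable def bK (K K' : ℝ → ℝ) {n : ℕ} (T : Finset (Fin n)) (t : Fin n → ℝ) (s : ℝ) : ℝ :=
  nT T fun l => K (s - t l) - K' (s - t l)

/-- smoothed number of jumps near `s` -/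
noncomputable def cnt (K : ℝ → ℝ) {n : ℕ} (t : Fin n → ℝ) (s : ℝ) : ℝ :=
  ∑ l, |Real.cos (Real.pi * K (s - t l))| / 2

/-- **LIN**.  Weights: `ν 0 = 1 + K (s - t last) - K (s - t 0) = K (s - t last + L) - K (s - t 0)`,
`ν j = K (s - t (j-1)) - K (s - t j)`, `ν last = 0` (Abel summation; `n = 0`: `ν = 1`). -/
def LINStmt : Prop :=
  ∀ (n : ℕ) (K : ℝ → ℝ), ContDiff ℝ ∞ K →
    (∀ (c0 : ℝ) (p : Fin (n + 1) → ℝ), Sm (lin K c0 p) ∧ Cov (lin K c0 p) ∧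
      (∀ s t l, gr (lin K c0 p) s t l = -(p l.succ - p l.castSucc) * deriv K (s - t l)) ∧
      (∀ L, (∀ u, K (u + L) = K u + c0) → p (Fin.last n) = p 0 → Per L (lin K c0 p)) ∧
      ∀ (T : Finset (Fin n)) (b : ℝ), 0 ≤ b → (∀ l : Fin n, |p l.succ - p l.castSucc| ≤ b) →
        ∀ s t, nT T (gr (lin K c0 p) s t) ≤ b * aK K T t s) ∧
    ∀ L, 0 ≤ L → Monotone K → (∀ u, K (u + L) = K u + 1) → ∀ t ∈ Sx L n, ∀ s,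
      ∃ ν : Fin (n + 1) → ℝ, (∀ j, 0 ≤ ν j) ∧ ∑ j, ν j = 1 ∧
        ∀ p : Fin (n + 1) → ℝ, p (Fin.last n) = p 0 → lin K 1 p s t = ∑ j, ν j * p j

/-- **KIN** (kernel integrals).  `K 0 = 0`, `K L = 1`, `K (L - u) = 1 - K u`; `deriv K`,
`K - K'`, `|cos (π K)|` are `L`-periodic (`Function.Periodic.intervalIntegral_add_eq`);
`∫_0^L (deriv K)² ≤ 10/k`; `K - K'` is odd, `|K - K'| ≤ 1`, zero on `[k', L - k']`;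
Cauchy-Schwarz: `a ≤ (a²/c + c)/2`;  `∫_0^L K (s - v) ds = L/2 - v`. -/
def KINStmt : Prop :=
  ∀ (L k : ℝ) (K : ℝ → ℝ), 0 < k → 4 * k ≤ L → IsKer L k K →
    Monotone K ∧
    (∀ (n : ℕ) (T : Finset (Fin n)) (t : Fin n → ℝ), Continuous (aK K T t) ∧
      (∫ s in (0 : ℝ)..L, aK K T t s ^ 2) ≤ 10 * T.card / k ∧
      (∫ s in (0 : ℝ)..L, aK K T t s) ≤ √(10 * L * T.card / k)) ∧
    (∀ (k' : ℝ) (K' : ℝ → ℝ), k ≤ k' → 4 * k' ≤ L → IsKer L k' K' →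
      ContDiff ℝ ∞ (HK K K') ∧ (∀ u, HK K K' (u + L) = HK K K' u + 0) ∧
      (∀ u, deriv (HK K K') u = K u - K' u) ∧ (∀ u, |K u - K' u| ≤ 1) ∧
      ∀ (n : ℕ) (T : Finset (Fin n)) (t : Fin n → ℝ), Continuous (bK K K' T t) ∧
        (∫ s in (0 : ℝ)..L, bK K K' T t s ^ 2) ≤ 2 * k' * T.card) ∧
    ∀ (n : ℕ) (p : Fin (n + 1) → ℝ) (t : Fin n → ℝ), p (Fin.last n) = p 0 →
      (∫ s in (0 : ℝ)..L, lin K 1 p s t) = L * avg L p t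

/-- **SHARP** (`theorem sharp : KINStmt → SHARPStmt`).  `j = #{l | t l < s}`;
`lin K 1 p s t - p j = ∑_l Δ_l (K (s - t l) - σ_l)`, `σ_l = 1/2` for `l < j`, else `-1/2`, and
`|v| ≤ |sin (π v)| / 2` for `|v| ≤ 1/2` (`Real.mul_le_sin`). The integrand of `cnt` is `≤ 1/2`, periodic,
and vanishes on `[k, L-k]`. -/
def SHARPStmt : Prop :=
  ∀ (L k : ℝ) (K : ℝ → ℝ), 0 < k → 4 * k ≤ L → IsKer L k K → ∀ (n : ℕ) (t : Fin n → ℝ),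
    Continuous (cnt K t) ∧ (∀ s, 0 ≤ cnt K t s) ∧ (∫ s in (0 : ℝ)..L, cnt K t s) ≤ n * k ∧
    (t ∈ Sx L n → ∀ s ∈ Icc 0 L, ∃ j : Fin (n + 1), ∀ p : Fin (n + 1) → ℝ,
      p (Fin.last n) = p 0 → (∀ l : Fin n, |p l.succ - p l.castSucc| ≤ 1) →
        |lin K 1 p s t - p j| ≤ cnt K t s)

/-- **FRMD** (`theorem frmd : PARStmt → FRMDStmt`).  `∂_m (frm u v)_l = ∫ ∂_m u ∂_l v + u ∂_m ∂_l v`;
the second part is symmetric in `m, l`, so it drops from `∑ io e_m * io e_l`.  Last clause of the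
first block: differentiate `c ↦ u (s+c) (t+c)` at `0`. -/
def FRMDStmt : Prop :=
  ∀ n : ℕ,
    (∀ u : Fn n, Sm u → ∀ t, Continuous (fun s => u s t) ∧ Continuous (fun s => gr u s t) ∧
      (∀ s, ContDiff ℝ ∞ (u s)) ∧ (∀ l, Sm fun s t => gr u s t l) ∧
      (Cov u → ∀ s, HasDerivAt (fun s => u s t) (-∑ l, gr u s t l) s)) ∧
    ∀ (L : ℝ) (u v : Fn n), Sm u → Sm v → ContDiff ℝ ∞ (frm L u v) ∧
      ∀ (ρ : Ext n →ₐ[ℝ] Op n) (t : Fin n → ℝ), ρ (dF (frm L u v) t) =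
        ∫ s in (0 : ℝ)..L, ρ (io (gr u s t)) * ρ (io (gr v s t))

/-- **DFA** (algebra of `dF`, `io`, `nT`). -/
def DFAStmt : Prop :=
  ∀ n : ℕ,
    (∀ (ι : Type) (B : Finset ι) (f : ι → Vf n) (t : Fin n → ℝ), (∀ i ∈ B, ContDiff ℝ ∞ (f i)) →
      dF (fun t => ∑ i ∈ B, f i t) t = ∑ i ∈ B, dF (f i) t) ∧
    (∀ (f f' : Vf n) (t : Fin n → ℝ), ContDiff ℝ ∞ f → ContDiff ℝ ∞ f' →
      dF (fun t => f t + f' t) t = dF f t + dF f' t) ∧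
    (∀ (χ : (Fin n → ℝ) → ℝ) (f : Vf n) (t : Fin n → ℝ), ContDiff ℝ ∞ χ → ContDiff ℝ ∞ f →
      dF (fun t => χ t • f t) t =
        io (fun l => fderiv ℝ χ t (ee l)) * io (f t) + χ t • dF f t) ∧
    (∀ (u v : Fin n → ℝ) (α : Ext n), Commute (io u * io v) α) ∧
    (∀ (u v : Fin n → ℝ), io u * io v = -(io v * io u) ∧ (io u * io v) * (io u * io v) = 0) ∧
    (∀ (f : Vf n) (t : Fin n → ℝ) (α : Ext n), Commute (dF f t) α) ∧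
    (∀ ρ : Ext n →ₐ[ℝ] Op n, Continuous fun u : Fin n → ℝ => ρ (io u)) ∧
    ∀ T : Finset (Fin n), Continuous (nT T) ∧ (∀ u, 0 ≤ nT T u) ∧
      (∀ u v, nT T (u + v) ≤ nT T u + nT T v) ∧ (∀ (c : ℝ) u, nT T (c • u) = |c| * nT T u) ∧
      (∀ (ι : Type) (B : Finset ι) (u : ι → Fin n → ℝ),
        nT T (∑ i ∈ B, u i) ≤ ∑ i ∈ B, nT T (u i)) ∧
      (∀ u (b : ℝ), 0 ≤ b → (∀ l, |u l| ≤ b) → nT T u ≤ T.card * b) ∧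
      ∀ (u : Fin n → ℝ) (l : Fin n), nT {l} u = |u l|

/-- **QA1** (`theorem qa1 : PARStmt → FRMDStmt → QA1Stmt`).  With `U = lag L w`, `w' = -∑ gr w`:
`-∫ U w' = ∫ U' w` (periodic), `U' s = 2 w s - (π/L) ∫ sin (π r/L) w (s-r) dr`,
`(π/L) ∫_0^L sin (π r/L) = 2`, `∫_0^L w(s-r)² ds = ∫_0^L w²`. -/
def QA1Stmt : Prop :=
  ∀ (n : ℕ) (L : ℝ) (w : Fn n), 0 < L → Sm w → Sm (lag L w) ∧
    (∀ s t, (∀ s', |w s' t| ≤ 1) → |lag L w s t| ≤ L) ∧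
    (∀ t, Continuous fun s =>
      ∫ r in (0 : ℝ)..L, Real.sin (Real.pi * r / L) * (w s t - w (s - r) t) ^ 2) ∧
    (Cov w → Per L w → ∀ t, ∑ l, frm L (lag L w) w t l = ∫ s in (0 : ℝ)..L, Real.pi / (2 * L) *
      ∫ r in (0 : ℝ)..L, Real.sin (Real.pi * r / L) * (w s t - w (s - r) t) ^ 2)

/-- **QA2** (`theorem qa2 : PARStmt → FRMDStmt → DFAStmt → QA1Stmt → DBStmt → GENStmt → QA2Stmt`).
With `φ s = ρ (io (gr w s t))` (continuous, periodic, anticommuting):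
`∫_0^L ∫_0^L cos (π r/L) φ (s-r) φ s dr ds = 2 ∫_0^L ∫_0^s cos (π (s-u)/L) φ u φ s du ds`
(split `r` at `s`; for the part `u = s - r + L ∈ [s, L]` swap the order of integration), and
`cos (a-b) = cos a cos b + sin a sin b`: labels `ι × Bool`, then `DB` and clause 6 of `GEN`, `c = 2`. -/
def QA2Stmt : Prop :=
  ∀ (n : ℕ) (L : ℝ) (ι : Type) (B : Finset ι) (w : ι → Fn n) (T : Finset (Fin n))
    (ρ : Ext n →ₐ[ℝ] Op n) (t : Fin n → ℝ) (x Φ : ℝ), 0 < L → (∀ z, Sm (w z)) →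
    (∀ z, Per L (w z)) → IsJW T ρ → 0 ≤ x →
    (∫ s in (0 : ℝ)..L, ∑ z ∈ B, nT T (gr (w z) s t)) ≤ Φ →
    GB (ρ (dF (fun t => ∑ z ∈ B, frm L (lag L (w z)) (w z) t) t)) x
      (Real.exp (√(2 * x) * (2 * Φ)))

/-! ### Profiles on the quotient -/

section Z
variable {Z : Type}

/-- closed path with steps of length at most one -/
def Loop (d : Z → Z → ℕ) {n : ℕ} (p : Fin (n + 1) → Z) : Prop :=
  p (Fin.last n) = p 0 ∧ ∀ i : Fin n, d (p i.castSucc) (p i.succ) ≤ 1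

/-- smoothed distance from `z` -/
noncomputable def fK (d : Z → Z → ℕ) (K : ℝ → ℝ) {n : ℕ} (p : Fin (n + 1) → Z) (z : Z) : Fn n :=
  lin K 1 fun j => (d z (p j) : ℝ)

structure Prof (d : Z → Z → ℕ) (M D : ℕ) {n : ℕ} (f : Z → Fn n) (B : Finset Z)
    (t : Fin n → ℝ) : Prop where
  met : Met d M D
  sm : ∀ z, Sm (f z)
  out : ∀ z, z ∉ B → ∀ s t', f z s t' = D
  pr : ∀ s, ∃ ν : Z →₀ ℝ, IsPr ν ∧ ∀ z, f z s t = fm d ν z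
  nonneg : ∀ s z, 0 ≤ f z s t
  tri : ∀ s z z', (d z z' : ℝ) ≤ f z s t + f z' s t

noncomputable def psiF (β X v : ℝ) : ℝ := Real.exp (-β * v) * ST (X - v)

noncomputable def UF (β X : ℝ) {n : ℕ} (f f' : Z → Fn n) (z : Z) : Fn n := fun s t =>
  psiF β X (f z s t) * ST (f' z s t / X - 2) *
    ((∑ᶠ z', psiF β X (f z' s t)) + Real.exp (-β * X / 5))⁻¹

noncomputable def GK (d : Z → Z → ℕ) (K K' : ℝ → ℝ) (X : ℝ) {n : ℕ} (p : Fin (n + 1) → Z)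
    (z : Z) : Fn n :=
  lin (HK K K') 0 fun j => (d z (p j) : ℝ) / X

/-- escape part at one scale -/
noncomputable def AF (d : Z → Z → ℕ) (L β X : ℝ) (K K' : ℝ → ℝ) {n : ℕ} (p : Fin (n + 1) → Z) :
    Vf n := fun t => ∑ᶠ z, frm L (UF β X (fK d K p) (fK d K' p) z) (GK d K K' X p z) t

open Classical in
noncomputable def wQ (d : Z → Z → ℕ) (X J : ℕ) (a : ℝ) {m : ℕ} (E : Z → Fin (m + 1)) {n : ℕ}
    (f : Z → Fn n) (x : Z) : Fn n := fun s t =>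
  (if GoodQ d X J a E x then 1 else 0) * ST (X + 1 - f x s t) *
    ST (1 - ∑ᶠ x', ST (2 * X + 2 - f x' s t) *
      ST (((f x s t - a * ((E x : ℕ) : ℝ)) - (f x' s t - a * ((E x' : ℕ) : ℝ))) / a))

/-- marker part -/
noncomputable def AQ (d : Z → Z → ℕ) (L : ℝ) (X J : ℕ) (a : ℝ) {m : ℕ} (E : Z → Fin (m + 1))
    (K : ℝ → ℝ) {n : ℕ} (p : Fin (n + 1) → Z) : Vf n :=
  fun t => ∑ᶠ x, frm L (lag L (wQ d X J a E (fK d K p) x)) (wQ d X J a E (fK d K p) x) t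

/-- fraction of the time spent within `ρ₀` of `z` -/
noncomputable def mz (d : Z → Z → ℕ) (ρ₀ : ℕ) (L : ℝ) {n : ℕ} (p : Fin (n + 1) → Z) (z : Z)
    (t : Fin n → ℝ) : ℝ :=
  avg L (fun j => if d z (p j) ≤ ρ₀ then 1 else 0) t

end Z

/-- **PROF** (`theorem prof : LINStmt → PROFStmt`).  `ν = ∑ j, single (p j) (ν j)`. -/
def PROFStmt : Prop :=
  ∀ (Z : Type) (d : Z → Z → ℕ) (M D n : ℕ) (p : Fin (n + 1) → Z), Met d M D →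
    ∃ B : Finset Z, (∀ z, z ∈ B ↔ ∃ j, d z (p j) < D) ∧
      (∀ K : ℝ → ℝ, ∀ z, z ∉ B → ∀ s t, fK d K p z s t = D) ∧
      ∀ (L : ℝ) (K : ℝ → ℝ), 0 ≤ L → ContDiff ℝ ∞ K → Monotone K → (∀ u, K (u + L) = K u + 1) →
        Loop d p → (∀ z, Cov (fK d K p z) ∧ Per L (fK d K p z)) ∧
        (∀ z T s t, nT T (gr (fK d K p z) s t) ≤ aK K T t s) ∧
        ∀ t ∈ Sx L n, Prof d M D (fK d K p) B t

/-- **UFG** (`theorem ufg : CSStmt → FRMDStmt → DFAStmt → UFGStmt`).  `Zs = ∑_B ψ(f z)`, `ε = e^(-βX/5)`;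
`|ψ'(v)| ≤ β ψ(v) + cS e^(-β(X-1)) 1[v ≤ X]`, `#{f ≤ X} ≤ M^(2X)` (`tri`, `met.ball`),
`M^(2X) e^(-β(X-1)) ≤ ε` as `log M ≤ M`, so `∑ |ψ'| ≤ (β + cS)(Zs + ε)`. -/
def UFGStmt : Prop :=
  ∀ (Z : Type) (d : Z → Z → ℕ) (M D n X : ℕ) (f f' : Z → Fn n) (B : Finset Z) (t : Fin n → ℝ),
    Prof d M D f B t → Prof d M D f' B t → 5 ≤ X → 2 * X < D →
    (∀ z, Sm (UF (4 * M) X f f' z)) ∧ (∀ z, z ∉ B → ∀ s t', UF (4 * M) X f f' z s t' = 0) ∧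
    (∀ z s t', 0 ≤ UF (4 * M) X f f' z s t') ∧
    (∀ s t', ∑ z ∈ B, UF (4 * M) X f f' z s t' ≤ 1) ∧
    (∀ z s t', UF (4 * M) X f f' z s t' ≠ 0 → (X : ℝ) ≤ f' z s t' - f z s t') ∧
    (∀ s, (∃ z, f z s t ≤ X / 5) → (∀ z, 3 * (X : ℝ) ≤ f' z s t) →
      1 / 2 ≤ ∑ z ∈ B, UF (4 * M) X f f' z s t) ∧
    ∀ (T : Finset (Fin n)) (s α α' : ℝ), 0 ≤ α → 0 ≤ α' → (∀ z, nT T (gr (f z) s t) ≤ α) →
      (∀ z, nT T (gr (f' z) s t) ≤ α') →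
      ∑ z ∈ B, nT T (gr (UF (4 * M) X f f' z) s t) ≤ (8 * M + 2 * cS) * α + cS * α'

/-- **AFE** (`theorem afe : CSStmt → LINStmt → KINStmt → FRMDStmt → DFAStmt → PROFStmt → UFGStmt →
AFEStmt`).  `∑_l gr G_z l = (f' z - f z)/X ≥ 1` where `U_z ≠ 0`; `nT (gr G_z) ≤ bK/X`;
`∫ a b ≤ √(∫a²) √(∫b²)` (or `a b ≤ (c a² + b²/c)/2`); `φ s = ∑_{z ∈ B} U_z s t`. -/
def AFEStmt : Prop :=
  ∀ (Z : Type) (d : Z → Z → ℕ) (M D n X : ℕ) (L k k' : ℝ) (K K' : ℝ → ℝ) (p : Fin (n + 1) → Z),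
    Met d M D → 5 ≤ X → 2 * X < D → 0 < k → k ≤ k' → 4 * k' ≤ L → IsKer L k K → IsKer L k' K' →
    Loop d p → ∀ t ∈ Sx L n,
    ContDiff ℝ ∞ (AF d L (4 * M) X K K' p) ∧ (∀ l, |AF d L (4 * M) X K K' p t l| ≤ L) ∧
    (∀ (T : Finset (Fin n)) (ρ : Ext n →ₐ[ℝ] Op n), IsJW T ρ →
      ‖ρ (dF (AF d L (4 * M) X K K' p) t)‖ ≤ (8 * M + 3 * cS) * T.card * √(20 * k' / k) / X) ∧
    ∃ φ : ℝ → ℝ, Continuous φ ∧ (∀ s, 0 ≤ φ s) ∧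
      (∫ s in (0 : ℝ)..L, φ s) ≤ ∑ l, AF d L (4 * M) X K K' p t l ∧
      ∀ s, (∃ z, fK d K p z s t ≤ X / 5) → (∀ z, 3 * (X : ℝ) ≤ fK d K' p z s t) → 1 / 2 ≤ φ s

/-- **WQG** (`theorem wqg : CSStmt → FRMDStmt → DFAStmt → WQGStmt`).  `F x = f x - a E x`.  Call `x`
active if `GoodQ E x`, `f x < X+1` and the inner sum is `< 1`; otherwise `gr (w x) = 0` (`ST` and
`deriv ST` vanish on `≤ 0`).  Active `x` has `F x < F x' + a` for all `x'` (if `f x' ≤ 2X+1` from the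
sum, else `F x' ≥ X+1`).  `GoodQ` at one active point: `≤ J` active points.  For active `x` only
`x'` with `f x' < 2X+2`, `F x' < F x` contribute: `≤ J` of them by `GoodQ` at `x`, each `≤ 3 cS α / a`. -/
def WQGStmt : Prop :=
  ∀ (Z : Type) (d : Z → Z → ℕ) (M D n X J m : ℕ) (a : ℝ) (E : Z → Fin (m + 1)) (f : Z → Fn n)
    (B : Finset Z) (t : Fin n → ℝ), Prof d M D f B t → 0 < a → a ≤ 1 → a * m ≤ X →
    2 * X + 2 ≤ D →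
    (∀ x, Sm (wQ d X J a E f x)) ∧ (∀ x, x ∉ B → ∀ s t', wQ d X J a E f x s t' = 0) ∧
    (∀ x s t', 0 ≤ wQ d X J a E f x s t' ∧ wQ d X J a E f x s t' ≤ 1) ∧
    ((∀ z, Cov (f z)) → ∀ x, Cov (wQ d X J a E f x)) ∧
    (∀ L, (∀ z, Per L (f z)) → ∀ x, Per L (wQ d X J a E f x)) ∧
    (∀ x s t', (X : ℝ) + 1 ≤ f x s t' → wQ d X J a E f x s t' = 0) ∧
    (∀ x s t', GoodQ d X J a E x → f x s t' ≤ X →
      (∀ x' ∈ B, f x s t' - a * ((E x : ℕ) : ℝ) ≤ f x' s t' - a * ((E x' : ℕ) : ℝ)) →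
      wQ d X J a E f x s t' = 1) ∧
    ∀ (T : Finset (Fin n)) (s α : ℝ), 0 ≤ α → (∀ z, nT T (gr (f z) s t) ≤ α) →
      ∑ x ∈ B, nT T (gr (wQ d X J a E f x) s t) ≤ 4 * cS ^ 2 * J ^ 2 / a * α

/-- **SINL**.  `sin · Y ≥ δ (Y - (1 - sin/δ)⁺)`, `δ = 1/20`, Jordan's inequality. -/
def SINLStmt : Prop :=
  ∀ (L : ℝ) (Y : ℝ → ℝ), 0 < L → Continuous Y → (∀ r, 0 ≤ Y r ∧ Y r ≤ 1) →
    9 / 100 * L ≤ ∫ r in (0 : ℝ)..L, Y r →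
    L / 500 ≤ ∫ r in (0 : ℝ)..L, Real.sin (Real.pi * r / L) * Y r

/-- **AQE** (`theorem aqe : CSStmt → KINStmt → FRMDStmt → DFAStmt → PROFStmt → WQGStmt → QA1Stmt →
QA2Stmt → AQEStmt`).  Coordinates: `WQG` with `T = {l}`, `aK ≤ 10/k`. -/
def AQEStmt : Prop :=
  ∀ (Z : Type) (d : Z → Z → ℕ) (M D n X J m : ℕ) (a L k : ℝ) (E : Z → Fin (m + 1)) (K : ℝ → ℝ)
    (p : Fin (n + 1) → Z), Met d M D → 0 < a → a ≤ 1 → a * m ≤ X → 2 * X + 2 ≤ D → 0 < k →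
    4 * k ≤ L → IsKer L k K → Loop d p → ∀ t ∈ Sx L n,
    ContDiff ℝ ∞ (AQ d L X J a E K p) ∧
    (∀ l, |AQ d L X J a E K p t l| ≤ L ^ 2 * (40 * cS ^ 2 * J ^ 2 / (a * k))) ∧
    ∀ (T : Finset (Fin n)) (ρ : Ext n →ₐ[ℝ] Op n) (x : ℝ), IsJW T ρ → 0 ≤ x →
      GB (ρ (dF (AQ d L X J a E K p) t)) x
        (Real.exp (√(2 * x) * (8 * cS ^ 2 * J ^ 2 / a * √(10 * L * T.card / k))))

/-- **AQP** (`theorem aqp : LINStmt → KINStmt → FRMDStmt → PROFStmt → WQGStmt → QA1Stmt → SINLStmt →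
AQPStmt`).  `qv s = ∑_{x ∈ B} π/(2L) ∫ sin (w_x s - w_x (s-r))²`.  With
`b = lin K 1 (1[ρ₀ < d x (p j)]) ∈ [0,1]` (weights): `ρ₀ b ≤ f x`, `∫_0^L b (s-r) dr = L (1 - mz)`,
and `(1 - w_x u)² ≥ b u - 1/100`. -/
def AQPStmt : Prop :=
  ∀ (Z : Type) (d : Z → Z → ℕ) (M D n X J m ρ₀ : ℕ) (a L k : ℝ) (E : Z → Fin (m + 1)) (K : ℝ → ℝ)
    (p : Fin (n + 1) → Z), Met d M D → 0 < a → a ≤ 1 → a * m ≤ X → 2 * X + 2 ≤ D → 0 < k →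
    4 * k ≤ L → IsKer L k K → Loop d p → 100 * (X + 1) ≤ ρ₀ → ∀ t ∈ Sx L n,
    ∃ qv : ℝ → ℝ, Continuous qv ∧ (∀ s, 0 ≤ qv s) ∧
      ∑ l, AQ d L X J a E K p t l = ∫ s in (0 : ℝ)..L, qv s ∧
      ∀ s x, GoodQ d X J a E x → fK d K p x s t ≤ X →
        (∀ x', (∃ j, d x' (p j) < D) → fK d K p x s t - a * ((E x : ℕ) : ℝ) ≤
          fK d K p x' s t - a * ((E x' : ℕ) : ℝ)) →
        mz d ρ₀ L p x t ≤ 9 / 10 → 3 / 1000 ≤ qv s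

/-! ### The twisted part -/

noncomputable def Gam (L ϑ : ℝ) (b : Prop) [Decidable b] (v : ℝ) : ℂ :=
  (if b then (L : ℂ) - v * (1 - Complex.exp (-(ϑ * Complex.I)))
    else (L : ℂ) + v * (1 - Complex.exp (ϑ * Complex.I))) / ((4 * Real.sin (ϑ / 2) ^ 2 : ℝ) : ℂ)

noncomputable def AZ1 (L ϑ : ℝ) {n : ℕ} (P : Fin (n + 1) → ℂ) : Vf n := fun t l =>
  (∑ i : Fin n, (starRingEnd ℂ) (P i.succ - P i.castSucc) * (P l.succ - P l.castSucc) *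
    Gam L ϑ (i ≤ l) (t l - t i)).re

/-- **AZA** (identities).  `ζ = exp (iϑ)`, `4 sin² (ϑ/2) = (1-ζ)(1-ζ⁻¹)`, `Γ₋ v = ζ Γ₊ (v + L)`,
`Γ₊ 0 = Γ₋ 0`.  Last clause: with `b = 1/(1-ζ)`, `Re b = 1/2`, `b ζ = -conj b`, the coefficient of
`t l` is `-2 Re (b (conj (P l - P 0) Δ_l - conj Δ_l (P last - P (l+1)))) = -(|P (l+1)|² - |P l|²)`. -/
def AZAStmt : Prop :=
  ∀ (L ϑ : ℝ) (n : ℕ),
    (∀ P : Fin (n + 1) → ℂ, ContDiff ℝ ∞ (AZ1 L ϑ P) ∧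
      (∀ t c, AZ1 L ϑ P (fun i => t i + c) = AZ1 L ϑ P t) ∧
      ∀ c : ℂ, ‖c‖ = 1 → AZ1 L ϑ (fun j => c * P j) = AZ1 L ϑ P) ∧
    (∀ (P : Fin (n + 2) → ℂ) (i : Fin n) (t : Fin n → ℝ),
      AZ1 L ϑ (mer i P) t = pb i (AZ1 L ϑ P (dup i t))) ∧
    (∀ (P P' : Fin (n + 2) → ℂ), P (Fin.last (n + 1)) = Complex.exp (ϑ * Complex.I) * P 0 →
      Complex.exp (ϑ * Complex.I) * P' 0 = P (Fin.last n).castSucc →
      (∀ j : Fin (n + 1), P' j.succ = P j.castSucc) →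
      ∀ t, AZ1 L ϑ P' (rotT L t) = rotV (AZ1 L ϑ P t)) ∧
    ∀ P : Fin (n + 1) → ℂ, P (Fin.last n) = Complex.exp (ϑ * Complex.I) * P 0 → L ≠ 0 →
      Real.sin (ϑ / 2) ≠ 0 → ∀ t, ∑ l, AZ1 L ϑ P t l = L * avg L (fun j => ‖P j‖ ^ 2) t

/-- **AZB** (`theorem azb : DFAStmt → DBDStmt → GENStmt → AZBStmt`).  With `Δ_i = a_i + i b_i`:
`dF (AZ1) = ∑_{i<l} a_i a_l e_i e_l + ∑_{i<l} b_i b_l e_i e_l - cot (ϑ/2) io a * io b`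
(`(1 - ζ⁻¹)/(4 sin²) = 1/(1-ζ) = 1/2 + (i/2) cot (ϑ/2)`); `DBD` with one label for each of the first two
(`x i = a_i • ρ (io (ee i))`, norm `≤ γ 1[i ∈ T]`), the third has square zero. -/
def AZBStmt : Prop :=
  ∀ (L ϑ γ c₀ : ℝ) (n : ℕ) (P : Fin (n + 1) → ℂ), 0 ≤ L → 0 ≤ γ → 0 < c₀ →
    c₀ ≤ |Real.sin (ϑ / 2)| → (∀ l : Fin n, ‖P l.succ - P l.castSucc‖ ≤ γ) →
    (∀ t ∈ Sx L n, ∀ l, |AZ1 L ϑ P t l| ≤ n * γ ^ 2 * (3 * L / (4 * c₀ ^ 2))) ∧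
    ∀ (t : Fin n → ℝ) (T : Finset (Fin n)) (ρ : Ext n →ₐ[ℝ] Op n) (x : ℝ), IsJW T ρ → 0 ≤ x →
      GB (ρ (dF (AZ1 L ϑ P) t)) x
        (Real.exp (√x * (2 * γ * T.card)) * (1 + x * ((n * γ) ^ 2 / c₀)))

variable {G : Type} [Group G]

/-- dominant part -/
noncomputable def AZ (g : G) (len : G → ℕ) (L : ℝ) (ρ₀ : ℕ) (Ψ : G → G → ℂ) (ϑ : G → ℝ) {n : ℕ}
    (y : Fin (n + 1) → G) : Vf n := fun t =>
  ∑ᶠ z : Zq g, ST (10 * mz (dq g len) ρ₀ L (fun j => pZ g (y j)) z t - 8) •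
    AZ1 L (ϑ z.out) (fun j => Ψ z.out (y j)) t

/-- **AZE** (`theorem aze : CSStmt → METStmt → LINStmt → PROFStmt → DFAStmt → GENStmt → AZAStmt → AZBStmt →
AZEStmt`).  `mz = ∑ ν j 1[..]` with the weights of `LIN` (`K u = u / L`, `s = 0`); only `z` with
`mz z t > 8/10` contribute to the value and to `dF`; two such `z` are `≤ 2ρ₀` apart, so there are
`≤ M^(2ρ₀)`; `|∂_l χ| ≤ 10 cS / L`; `∑_l AZ1 = L ∑ ν j ‖Ψ‖² ≥ L (9/16) mz`. -/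
def AZEStmt : Prop :=
  ∀ (G : Type) [Group G] (S : Finset G) (M D : ℕ) (len : G → ℕ) (g : G) (ρ₀ ρ₁ n : ℕ)
    (γ c₀ L : ℝ) (Ψ : G → G → ℂ) (ϑ : G → ℝ) (y : Fin (n + 1) → G), IsLen S M D len → 1 ≤ M →
    IsPsi S len g ρ₁ γ c₀ Ψ ϑ → ρ₀ ≤ ρ₁ → 2 * ρ₀ < D → 0 ≤ γ → γ ≤ 1 → 0 < c₀ → 1 ≤ L →
    (n : ℝ) ≤ 3 * L → Closed g y → Steps S y → ∀ t ∈ Sx L n,
    ContDiff ℝ ∞ (AZ g len L ρ₀ Ψ ϑ y) ∧
    (∀ l, |AZ g len L ρ₀ Ψ ϑ y t l| ≤ (M : ℝ) ^ (2 * ρ₀) * (3 * L ^ 2 / c₀ ^ 2)) ∧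
    (∀ (T : Finset (Fin n)) (ρ : Ext n →ₐ[ℝ] Op n) (x : ℝ), IsJW T ρ → 0 ≤ x →
      GB (ρ (dF (AZ g len L ρ₀ Ψ ϑ y) t)) x
        ((Real.exp (√x * (2 * γ * T.card)) * (1 + x * (300 * cS * L ^ 3 / c₀ ^ 2)) ^ 2) ^
          (M ^ (2 * ρ₀)))) ∧
    0 ≤ ∑ l, AZ g len L ρ₀ Ψ ϑ y t l ∧
    ((∃ z, 9 / 10 ≤ mz (dq g len) ρ₀ L (fun j => pZ g (y j)) z t) →
      L / 2 ≤ ∑ l, AZ g len L ρ₀ Ψ ϑ y t l)

/-! ### Structural properties -/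

abbrev Stat (G : Type) := (n : ℕ) → (Fin (n + 1) → G) → Fn n

structure IsStat (g : G) (L : ℝ) (u : Stat G) : Prop where
  sm : ∀ n y, Sm (u n y)
  cov : ∀ n y, Cov (u n y)
  per : ∀ n y, Closed g y → Per L (u n y)
  coll : ∀ n (y : Fin (n + 2) → G) (i : Fin n) s t, u n (mer i y) s t = u (n + 1) y s (dup i t)
  rot : ∀ n (y : Fin (n + 2) → G), Closed g y → ∀ s t,
    u (n + 1) (rotY g y) s (rotT L t) = u (n + 1) y s t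

/-- **STAT** (`theorem stat : PARStmt → LINStmt → STATStmt`). -/
def STATStmt : Prop :=
  ∀ (G : Type) [Group G] (g : G) (L : ℝ),
    (∀ (K : ℝ → ℝ) (c0 : ℝ) (F : G → ℝ), ContDiff ℝ ∞ K → (∀ u, K (u + L) = K u + c0) →
      (∀ y, F (g * y) = F y) → IsStat g L fun _ y => lin K c0 fun j => F (y j)) ∧
    (∀ c : ℝ, IsStat g L fun _ _ _ _ => c) ∧
    (∀ u v : Stat G, IsStat g L u → IsStat g L v →
      IsStat g L (fun n y s t => u n y s t + v n y s t) ∧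
      IsStat g L (fun n y s t => u n y s t - v n y s t) ∧
      IsStat g L (fun n y s t => u n y s t * v n y s t)) ∧
    (∀ (u : Stat G) (φ : ℝ → ℝ), IsStat g L u → ContDiff ℝ ∞ φ →
      IsStat g L fun n y s t => φ (u n y s t)) ∧
    (∀ u : Stat G, IsStat g L u → (∀ n y s t, u n y s t ≠ 0) →
      IsStat g L fun n y s t => (u n y s t)⁻¹) ∧
    (∀ (ι : Type) (u : ι → Stat G), (∀ z, IsStat g L (u z)) →
      (∀ n y, ∃ B : Finset ι, ∀ z, z ∉ B → ∀ s t, u z n y s t = 0) →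
      IsStat g L fun n y s t => ∑ᶠ z, u z n y s t) ∧
    ∀ u : Stat G, IsStat g L u → IsStat g L fun n y => lag L (u n y)

/-- **FRMC** (`theorem frmc : FRMDStmt → FRMCStmt`).  Chain rule for the linear map `dup i`
(`dup i (ee l)` is `ee castSucc + ee succ` for `l = i`, one basis vector otherwise) and the affine map
`rotT L`; `shift` by `Cov` and periodicity of the integrand. -/
def FRMCStmt : Prop :=
  ∀ (G : Type) [Group G] (g : G) (L : ℝ),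
    (∀ u v : Stat G, IsStat g L u → IsStat g L v →
      IsConn g L fun n y => frm L (u n y) (v n y)) ∧
    (∀ A A' : Form G, IsConn g L A → IsConn g L A' →
      IsConn g L fun n y t => A n y t + A' n y t) ∧
    (∀ (ι : Type) (B : Finset ι) (A : ι → Form G), (∀ i ∈ B, IsConn g L (A i)) →
      IsConn g L fun n y t => ∑ i ∈ B, A i n y t) ∧
    (∀ (ι : Type) (A : ι → Form G), (∀ z, IsConn g L (A z)) →
      (∀ n y, ∃ B : Finset ι, ∀ z, z ∉ B → ∀ t, A z n y t = 0) →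
      IsConn g L fun n y t => ∑ᶠ z, A z n y t) ∧
    ∀ (χ : Stat G) (A : Form G), IsStat g L χ →
      (∀ n y, Closed g y → ∀ s t, χ n y s t = χ n y 0 t) → IsConn g L A →
      IsConn g L fun n y t => χ n y 0 t • A n y t

/-- **ISCF** (`theorem iscf : KINStmt → PROFStmt → STATStmt → FRMCStmt → ISCFStmt`). -/
def ISCFStmt : Prop :=
  ∀ (G : Type) [Group G] (g : G) (Z : Type) (d : Z → Z → ℕ) (M D : ℕ) (pz : G → Z)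
    (L β X k k' : ℝ) (K K' : ℝ → ℝ), Met d M D → (∀ y, pz (g * y) = pz y) → X ≤ D → 0 < k →
    k ≤ k' → 4 * k' ≤ L → IsKer L k K → IsKer L k' K' →
    IsConn g L fun _ y => AF d L β X K K' fun j => pz (y j)

/-- **ISCQ** (`theorem iscq : PROFStmt → STATStmt → FRMCStmt → ISCQStmt`). -/
def ISCQStmt : Prop :=
  ∀ (G : Type) [Group G] (g : G) (Z : Type) (d : Z → Z → ℕ) (M D : ℕ) (pz : G → Z)
    (L a k : ℝ) (X J m : ℕ) (E : Z → Fin (m + 1)) (K : ℝ → ℝ), Met d M D →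
    (∀ y, pz (g * y) = pz y) → 2 * X + 2 ≤ D → IsKer L k K →
    IsConn g L fun _ y => AQ d L X J a E K fun j => pz (y j)

/-- **ISCZ** (`theorem iscz : METStmt → PROFStmt → STATStmt → FRMCStmt → AZAStmt → ISCZStmt`). -/
def ISCZStmt : Prop :=
  ∀ (G : Type) [Group G] (S : Finset G) (M D : ℕ) (len : G → ℕ) (g : G) (ρ₀ ρ₁ : ℕ)
    (γ c₀ L : ℝ) (Ψ : G → G → ℂ) (ϑ : G → ℝ), IsLen S M D len → IsPsi S len g ρ₁ γ c₀ Ψ ϑ →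
    ρ₀ < D → L ≠ 0 → IsConn g L fun _ y => AZ g len L ρ₀ Ψ ϑ y

/-! ### The total form -/

noncomputable def Atot (g : G) (len : G → ℕ) (L : ℝ) (M X0 I C ρ₀ : ℕ) (a : ℝ) (Ks : ℕ → ℝ → ℝ)
    (Ψ : G → G → ℂ) (ϑ : G → ℝ) {m : ℕ}
    (w : (Zq g → Fin (m + 1)) × (Zq g → Fin (m + 1))) : Form G := fun _ y t =>
  ((∑ i ∈ Finset.range I, AF (dq g len) L (4 * M) ((X0 * 16 ^ i : ℕ) : ℝ) (Ks i) (Ks (i + 1))
      (fun j => pZ g (y j)) t) +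
    (AQ (dq g len) L (X0 * 16 ^ I) (C * (X0 * 16 ^ I) ^ 5) a w.1 (Ks I) (fun j => pZ g (y j)) t +
      AQ (dq g len) L (X0 * 16 ^ I) (C * (X0 * 16 ^ I) ^ 5) a w.2 (Ks I)
        (fun j => pZ g (y j)) t)) +
  AZ g len L ρ₀ Ψ ϑ y t

/-- **EQV** (`theorem eqv : METStmt → AZAStmt → EQVStmt`).  Reindex every `finsum` by `σ`
(`finsum_comp_equiv`); `GoodQ` transports along `Finsupp.equivMapDomain`; `(σ z).out = g^k * (h * z.out)`,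
so `Ψ (σ z).out (h * y) = c * Ψ z.out y` with `‖c‖ = 1` (`eqΨ`, `tw` iterated). -/
def EQVStmt : Prop :=
  (∀ (Z : Type) (d : Z → Z → ℕ) (X J m : ℕ) (a : ℝ) (σ : Z ≃ Z), (∀ x y, d (σ x) (σ y) = d x y) →
    ∀ (E : Z → Fin (m + 1)) (x : Z), GoodQ d X J a (E ∘ σ.symm) (σ x) ↔ GoodQ d X J a E x) ∧
  ∀ (G : Type) [Group G] (S : Finset G) (M D : ℕ) (len : G → ℕ) (g : G) (X0 I C ρ₀ ρ₁ m : ℕ)
    (a γ c₀ L : ℝ) (Ks : ℕ → ℝ → ℝ) (Ψ : G → G → ℂ) (ϑ : G → ℝ), IsLen S M D len →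
    IsPsi S len g ρ₁ γ c₀ Ψ ϑ → ∀ (h : G) (σ : Zq g ≃ Zq g), Commute h g →
    (∀ z z', dq g len (σ z) (σ z') = dq g len z z') → (∀ y, σ (pZ g y) = pZ g (h * y)) →
    ∀ (w : (Zq g → Fin (m + 1)) × (Zq g → Fin (m + 1))) (n : ℕ) (y : Fin (n + 1) → G),
      Atot g len L M X0 I C ρ₀ a Ks Ψ ϑ (w.1 ∘ σ.symm, w.2 ∘ σ.symm) n (fun i => h * y i) =
        Atot g len L M X0 I C ρ₀ a Ks Ψ ϑ w n y

/-- **LOC** (`theorem loc : METStmt → PROFStmt → LOCStmt`).  `AQ E p` depends only on the labels in the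
finite set `⋃_{x ∈ B} ball x (3X+3)` (`wQ x = 0` and the inner terms vanish off `B`);
`c` = restriction to it composed with `Fintype.equivFin`. -/
def LOCStmt : Prop :=
  (∀ (Z : Type) (d : Z → Z → ℕ) (X J m : ℕ) (a : ℝ) (E E' : Z → Fin (m + 1)) (x : Z), d x x = 0 →
    (∀ y, d x y ≤ 3 * X + 3 → E y = E' y) → (GoodQ d X J a E x ↔ GoodQ d X J a E' x)) ∧
  ∀ (G : Type) [Group G] (S : Finset G) (M D : ℕ) (len : G → ℕ) (g : G) (X0 I C ρ₀ m : ℕ)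
    (a L : ℝ) (Ks : ℕ → ℝ → ℝ) (Ψ : G → G → ℂ) (ϑ : G → ℝ), IsLen S M D len →
    3 * (X0 * 16 ^ I) + 3 < D → ∀ (n : ℕ) (y : Fin (n + 1) → G),
    ∃ (m' : ℕ) (c : (Zq g → Fin (m + 1)) × (Zq g → Fin (m + 1)) → Fin m') (B : Fin m' → Vf n),
      Measurable c ∧ ∀ w, Atot g len L M X0 I C ρ₀ a Ks Ψ ϑ w n y = B (c w)

/-- **GP2** (`theorem gp2 : MAUStmt → TIEStmt → GP2Stmt`): `GP.lean` with `m = ⌊X/(2a)⌋`. -/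
def GP2Stmt : Prop :=
  ∀ M : ℕ, 2 ≤ M → ∃ a : ℝ, 0 < a ∧ a ≤ 1 ∧ ∃ C : ℕ, ∀ X : ℕ, 1 ≤ X →
    ∃ (m : ℕ) (ν : Measure (Fin (m + 1))), IsProbabilityMeasure ν ∧ 2 * (a * m) ≤ X ∧
      ∀ (Z : Type) (d : Z → Z → ℕ) (D : ℕ), Met d M D → C * X ^ 2 < D → ∀ x,
        Measure.infinitePi (fun _ : Z => ν) {E | ¬ GoodQ d X (C * X ^ 5) a E x} ≤
          ENNReal.ofReal (1 / (100 * (M : ℝ) ^ (10 * (3 * X + 3))))

structure PrmOK (M : ℕ) (η a : ℝ) (C X0 I ρ₀ ρ₁ D : ℕ) (γ : ℝ) : Prop where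
  two : 2 ≤ M
  η_pos : 0 < η
  a_pos : 0 < a
  a_le : a ≤ 1
  X0_ge : 30 ≤ X0
  hF : 6 * (8 * M + 3 * cS) * (5 * 2 ^ 42) ≤ η / 60000 * X0
  hQ : (64 * cS ^ 2 * ((C * (X0 * 16 ^ I) ^ 5 : ℕ) : ℝ) ^ 2) ^ 2 ≤
    a ^ 2 * (η / 60000) * 16 ^ (21 * I)
  hρ₀ : 100 * (X0 * 16 ^ I + 1) ≤ ρ₀
  hρ₁ : ρ₀ ≤ ρ₁
  γ_pos : 0 < γ
  γ_le : γ ≤ 1
  hγ : (6 * γ * (M : ℝ) ^ (2 * ρ₀)) ^ 2 ≤ η / 60000
  hγρ : 2 / γ ≤ ρ₁
  hD₁ : 4 * ρ₁ + 1 < D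
  hD₂ : C * (X0 * 16 ^ I) ^ 2 < D

/-- **PARAM** (`theorem param : PARAMStmt`; choose `X0`, `I`, `ρ₀`, `γ`, `ρ₁`, `D` in this order). -/
def PARAMStmt : Prop :=
  ∀ (M : ℕ) (η a : ℝ) (C : ℕ), 2 ≤ M → 0 < η → 0 < a → a ≤ 1 →
    ∃ (X0 I ρ₀ ρ₁ D : ℕ) (γ : ℝ), PrmOK M η a C X0 I ρ₀ ρ₁ D γ

/-- the data of one cell -/
structure Cell (S : Finset G) (M : ℕ) (η a : ℝ) (C X0 I ρ₀ ρ₁ D : ℕ) (γ c₀ : ℝ) (len : G → ℕ)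
    (g : G) (Ψ : G → G → ℂ) (ϑ : G → ℝ) (N : ℕ) (Ks : ℕ → ℝ → ℝ) {m : ℕ}
    (w : (Zq g → Fin (m + 1)) × (Zq g → Fin (m + 1))) {n : ℕ} (y : Fin (n + 1) → G) : Prop where
  prm : PrmOK M η a C X0 I ρ₀ ρ₁ D γ
  hlen : IsLen S M D len
  c_pos : 0 < c₀
  psi : IsPsi S len g ρ₁ γ c₀ Ψ ϑ
  big : 4 * 16 ^ (21 * I) ≤ N
  ker : ∀ i, i ≤ I → IsKer N (16 ^ (21 * i)) (Ks i)
  lab : 2 * (a * m) ≤ ((X0 * 16 ^ I : ℕ) : ℝ)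
  n_le : n ≤ 3 * N
  closed : Closed g y
  steps : Steps S y
  good : ∀ x x', (∃ j, dq g len x (pZ g (y j)) < D) → (∃ j, dq g len x' (pZ g (y j)) < D) →
    dq g len x x' ≤ 3 * (X0 * 16 ^ I) + 3 →
    GoodQ (dq g len) (X0 * 16 ^ I) (C * (X0 * 16 ^ I) ^ 5) a w.1 x ∨
      GoodQ (dq g len) (X0 * 16 ^ I) (C * (X0 * 16 ^ I) ^ 5) a w.2 x'

/-- **POS** (`theorem pos : METStmt → KINStmt → SHARPStmt → PROFStmt → AFEStmt → AQPStmt → AZEStmt →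
POSStmt`).  All parts are `≥ 0`.  If some `mz ≥ 9/10` use `AZE`.  Otherwise for `s ∈ [0,N]`:
`1 ≤ 2 ∑_i φ_i s + (1000/3)(qv₁ s + qv₂ s) + 5 cnt (Ks 0) t s / X0`: let `P i` = some `z` has
`fK (Ks i) z ≤ X0 16^i / 5`.  `cnt ≤ X0/5` gives `P 0` (`z = p j`); `P i ∧ ¬ P (i+1)` gives `φ_i ≥ 1/2`; if
`P I`, the minimisers `x₁, x₂` over `B` of `f - a E` have `f ≤ X/5 + X/2 ≤ X`, `d x₁ x₂ ≤ 2X`, one is good.
Integrate: `∫ cnt ≤ 3N`. -/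
def POSStmt : Prop :=
  ∀ (G : Type) [Group G] (S : Finset G) (M : ℕ) (η a : ℝ) (C X0 I ρ₀ ρ₁ D : ℕ) (γ c₀ : ℝ)
    (len : G → ℕ) (g : G) (Ψ : G → G → ℂ) (ϑ : G → ℝ) (N : ℕ) (Ks : ℕ → ℝ → ℝ) (m : ℕ)
    (w : (Zq g → Fin (m + 1)) × (Zq g → Fin (m + 1))) (n : ℕ) (y : Fin (n + 1) → G),
    Cell S M η a C X0 I ρ₀ ρ₁ D γ c₀ len g Ψ ϑ N Ks w y → ∀ t ∈ Sx N n,
    (N : ℝ) / 1000 ≤ ∑ l, Atot g len N M X0 I C ρ₀ a Ks Ψ ϑ w n y t l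

/-- **CURV** (`theorem curv : CSStmt → METStmt → GENStmt → DFAStmt → AFEStmt → AQEStmt → AZEStmt →
CURVStmt`).  `x = j / (η₁ N)`, `η₁ = η/60000`.  The pieces of `dF` commute (`DFA`).  Escape part:
`∑_i 1/(X0 16^i) ≤ 2/X0`, `√(20·16^21) ≤ 5·2^42`, `2j+1 ≤ 3N`, `hF`: `exp j`.  Marker parts: `2j+1 ≤ 3j`,
`hQ`: `exp j` each.  Dominant part: `x ≤ 1/η₁`, `hγ`: `exp j` times the polynomial (`j = 0`: `x = 0`). -/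
def CURVStmt : Prop :=
  ∀ (G : Type) [Group G] (S : Finset G) (M : ℕ) (η a : ℝ) (C X0 I ρ₀ ρ₁ D : ℕ) (γ c₀ : ℝ)
    (len : G → ℕ) (g : G) (Ψ : G → G → ℂ) (ϑ : G → ℝ) (N : ℕ) (Ks : ℕ → ℝ → ℝ) (m : ℕ)
    (w : (Zq g → Fin (m + 1)) × (Zq g → Fin (m + 1))) (n : ℕ) (y : Fin (n + 1) → G),
    Cell S M η a C X0 I ρ₀ ρ₁ D γ c₀ len g Ψ ϑ N Ks w y → ∀ t ∈ Sx N n,
    (∀ l, |Atot g len N M X0 I C ρ₀ a Ks Ψ ϑ w n y t l| ≤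
      (I + 80 * cS ^ 2 * ((C * (X0 * 16 ^ I) ^ 5 : ℕ) : ℝ) ^ 2 / a +
        3 * (M : ℝ) ^ (2 * ρ₀) / c₀ ^ 2) * (N : ℝ) ^ 2) ∧
    ∀ (j : ℕ) (T : Finset (Fin n)) (ρ : Ext n →ₐ[ℝ] Op n), j ≤ N → T.card = 2 * j + 1 → IsJW T ρ →
      GB (ρ (dF (Atot g len N M X0 I C ρ₀ a Ks Ψ ϑ w n y) t)) (j / (η / 60000 * N))
        (Real.exp (4 * j) *
          (1 + 300 * cS * (N : ℝ) ^ 3 / (η / 60000 * c₀ ^ 2)) ^ (2 * M ^ (2 * ρ₀)))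

/-- **CELL** (`theorem cell : JWStmt → GENStmt → DFAStmt → CELLStmt`).  `|evL| ≤ ‖ρ (io f)‖ ‖ρ(dF f)^j‖`,
`j! x^(-j) ≤ (η₁ N)^j`, `e⁴ ≤ 55`, `55 η₁ N ≤ η N/1000 ≤ η ∑ f`. -/
def CELLStmt : Prop :=
  ∀ (η c₁ c₂ : ℝ) (P : ℕ), 0 < η → 0 ≤ c₁ → 0 ≤ c₂ → ∃ K₀ : ℕ, ∀ (N n j : ℕ) (f : Vf n)
    (t : Fin n → ℝ) (T : Finset (Fin n)), 1 ≤ N → n ≤ 3 * N → (N : ℝ) / 1000 ≤ ∑ l, f t l →
    (∀ l, |f t l| ≤ c₁ * (N : ℝ) ^ 2) →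
    (∀ ρ : Ext n →ₐ[ℝ] Op n, IsJW T ρ → GB (ρ (dF f t)) (j / (η / 60000 * N))
      (Real.exp (4 * j) * (1 + c₂ * (N : ℝ) ^ 3) ^ P)) →
    |evL (dirs T) (io (f t) * dF f t ^ j)| ≤
      K₀ * (N : ℝ) ^ K₀ * η ^ j * (∑ l, f t l) ^ (j + 1)

end Crest.Agent.R192B
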