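import Crest.Agent.R192B.D0

set_option autoImplicit false

open MeasureTheory Set Filter Topology

namespace Crest.Agent.R192B
namespace DB

theorem sum_range_mul {A : Type} [AddCommMonoid A] (g : ℕ → A) (P S : ℕ) :
    ∑ l ∈ Finset.range (P * S), g l =
      ∑ p ∈ Finset.range P, ∑ k ∈ Finset.range S, g (p * S + k) := by
  induction P with
  | zero => simp
  | succ P ih => rw [Nat.succ_mul, Finset.sum_range_add, ih, Finset.sum_range_succ]

theorem sum_filter_mod {A : Type} [AddCommMonoid A] (g : ℕ → A) (p S k : ℕ) (hk : k < S) :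
    ∑ i ∈ (Finset.range (p * S + k)).filter (fun i => i % S = (p * S + k) % S), g i =
      ∑ p' ∈ Finset.range p, g (p' * S + k) := by
  have hmod : ∀ a j, j < S → (a * S + j) % S = j := fun a j hj => by
    rw [Nat.mul_add_mod_of_lt hj]
  rw [Finset.sum_filter, Finset.sum_range_add, sum_range_mul, hmod p k hk]
  have h2 : ∑ j ∈ Finset.range k, (if (p * S + j) % S = k then g (p * S + j) else 0) = 0 := by
    refine Finset.sum_eq_zero fun j hj => ?_
    have hj' := Finset.mem_range.1 hj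
    rw [hmod p j (by omega), if_neg (by omega)]
  rw [h2, add_zero]
  refine Finset.sum_congr rfl fun p' _ => ?_
  rw [Finset.sum_eq_single k]
  · rw [hmod p' k hk, if_pos rfl]
  · intro j hj hjk
    rw [hmod p' j (Finset.mem_range.1 hj), if_neg hjk]
  · intro h; exact absurd (Finset.mem_range.2 hk) h

variable {𝔸 : Type} [NormedRing 𝔸] [NormedAlgebra ℝ 𝔸] [CompleteSpace 𝔸]

theorem int_mul_left (y : 𝔸) (f : ℝ → 𝔸) (hf : Continuous f) (a b : ℝ) :
    ∫ u in a..b, y * f u = y * ∫ u in a..b, f u :=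
  (ContinuousLinearMap.mul ℝ 𝔸 y).intervalIntegral_comp_comm (hf.intervalIntegrable a b)

theorem int_mul_right (y : 𝔸) (f : ℝ → 𝔸) (hf : Continuous f) (a b : ℝ) :
    ∫ u in a..b, f u * y = (∫ u in a..b, f u) * y :=
  ((ContinuousLinearMap.mul ℝ 𝔸).flip y).intervalIntegral_comp_comm (hf.intervalIntegrable a b)

theorem int_anti (f : ℝ → 𝔸) (hf : Continuous f) (y : 𝔸) (h : ∀ u, f u * y = -(y * f u))
    (a b : ℝ) : (∫ u in a..b, f u) * y = -(y * ∫ u in a..b, f u) := by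
  rw [← int_mul_right y f hf, ← int_mul_left y f hf, ← intervalIntegral.integral_neg]
  simp only [h]

theorem int_anti2 (f g : ℝ → 𝔸) (hf : Continuous f) (hg : Continuous g)
    (h : ∀ u v, f u * g v = -(g v * f u)) (a b c d : ℝ) :
    (∫ u in a..b, f u) * (∫ v in c..d, g v) = -((∫ v in c..d, g v) * ∫ u in a..b, f u) := by
  refine int_anti f hf _ (fun u => ?_) a b
  rw [int_anti g hg (f u) (fun v => by rw [h u v, neg_neg]), neg_neg]

theorem approx (f : ℝ → 𝔸) (hf : Continuous f) (L M : ℝ) (hL : 0 ≤ L)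
    (hM : ∀ u ∈ Icc 0 L, ‖f u‖ ≤ M) (P : ℕ) (hP : 0 < P) :
    ‖(∑ p ∈ Finset.range P, (∑ p' ∈ Finset.range p,
        ∫ u in (p' * (L / P) : ℝ)..((p' + 1 : ℕ) * (L / P) : ℝ), f u) *
        ∫ u in (p * (L / P) : ℝ)..((p + 1 : ℕ) * (L / P) : ℝ), f u) -
      ∫ u in (0 : ℝ)..L, (∫ r in (0 : ℝ)..u, f r) * f u‖ ≤ M ^ 2 * L ^ 2 / P := by
  have hP' : (0 : ℝ) < P := by exact_mod_cast hP
  have hh : 0 ≤ L / P := by positivity
  have hM0 : 0 ≤ M := (norm_nonneg _).trans (hM 0 ⟨le_rfl, hL⟩)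
  have hY : Continuous fun u => ∫ r in (0 : ℝ)..u, f r :=
    intervalIntegral.continuous_primitive (fun a b => hf.intervalIntegrable a b) 0
  have hadj : ∀ (g : ℝ → 𝔸), Continuous g → ∀ p : ℕ, ∑ p' ∈ Finset.range p,
      ∫ u in (p' * (L / P) : ℝ)..((p' + 1 : ℕ) * (L / P) : ℝ), g u =
        ∫ u in (0 : ℝ)..(p * (L / P)), g u := by
    intro g hg p
    have := intervalIntegral.sum_integral_adjacent_intervals (μ := volume) (f := g)
      (a := fun k : ℕ => (k * (L / P) : ℝ)) (n := p) fun k _ => hg.intervalIntegrable _ _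
    simpa using this
  have hL' : (P : ℝ) * (L / P) = L := by field_simp
  have h1 := hadj (fun u => (∫ r in (0 : ℝ)..u, f r) * f u) (hY.mul hf) P
  rw [hL'] at h1
  rw [← h1, ← Finset.sum_sub_distrib]
  refine (norm_sum_le _ _).trans ?_
  have : ∀ p ∈ Finset.range P, ‖(∑ p' ∈ Finset.range p,
        ∫ u in (p' * (L / P) : ℝ)..((p' + 1 : ℕ) * (L / P) : ℝ), f u) *
        (∫ u in (p * (L / P) : ℝ)..((p + 1 : ℕ) * (L / P) : ℝ), f u) -
      ∫ u in (p * (L / P) : ℝ)..((p + 1 : ℕ) * (L / P) : ℝ), (∫ r in (0 : ℝ)..u, f r) * f u‖ ≤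
      (M * (L / P) * M) * (L / P) := by
    intro p hp
    have hp' : ((p + 1 : ℕ) : ℝ) ≤ P := by exact_mod_cast Finset.mem_range.1 hp
    have hle : (p * (L / P) : ℝ) ≤ (p + 1 : ℕ) * (L / P) := by
      gcongr; omega
    have hup : ((p + 1 : ℕ) * (L / P) : ℝ) ≤ L := by
      calc _ ≤ (P : ℝ) * (L / P) := by gcongr
        _ = L := hL'
    have hlo : (0 : ℝ) ≤ p * (L / P) := by positivity
    have hd : ((p + 1 : ℕ) * (L / P) : ℝ) - p * (L / P) = L / P := by push_cast; ring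
    have c1 : Continuous fun u => (∫ r in (0 : ℝ)..(p * (L / P)), f r) * f u :=
      continuous_const.mul hf
    have c2 : Continuous fun u => (∫ r in (0 : ℝ)..u, f r) * f u := hY.mul hf
    rw [hadj f hf p, ← int_mul_left _ f hf, ← intervalIntegral.integral_sub
      (c1.intervalIntegrable _ _) (c2.intervalIntegrable _ _)]
    refine (intervalIntegral.norm_integral_le_of_norm_le_const (C := M * (L / P) * M)
      fun u hu => ?_).trans ?_
    · rw [uIoc_of_le hle] at hu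
      rw [← sub_mul]
      refine (norm_mul_le _ _).trans ?_
      refine mul_le_mul ?_ (hM u ⟨hlo.trans hu.1.le, hu.2.trans hup⟩) (norm_nonneg _)
        (by positivity)
      rw [norm_sub_rev, intervalIntegral.integral_interval_sub_left (hf.intervalIntegrable _ _)
        (hf.intervalIntegrable _ _)]
      refine (intervalIntegral.norm_integral_le_of_norm_le_const (C := M) fun r hr => ?_).trans ?_
      · rw [uIoc_of_le hu.1.le] at hr
        exact hM r ⟨hlo.trans hr.1.le, hr.2.trans (hu.2.trans hup)⟩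
      · gcongr
        rw [abs_of_nonneg (by linarith [hu.1])]
        linarith [hu.2]
    · rw [hd, abs_of_nonneg hh]
  refine (Finset.sum_le_card_nsmul _ _ _ this).trans (le_of_eq ?_)
  rw [Finset.card_range, nsmul_eq_mul]
  field_simp

theorem db_range [NormOneClass 𝔸] (hD : DBDStmt) (S : ℕ) (φ : ℕ → ℝ → 𝔸) (L : ℝ) (hL : 0 ≤ L)
    (hc : ∀ ℓ, Continuous (φ ℓ)) (ha : ∀ ℓ ℓ' u u', φ ℓ u * φ ℓ' u' = -(φ ℓ' u' * φ ℓ u)) (m : ℕ) :
    ‖(∑ ℓ ∈ Finset.range S, ∫ u in (0 : ℝ)..L, (∫ r in (0 : ℝ)..u, φ ℓ r) * φ ℓ u) ^ m‖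
      ≤ m.factorial * (∫ u in (0 : ℝ)..L, ∑ ℓ ∈ Finset.range S, ‖φ ℓ u‖) ^ (2 * m) /
        (2 * m).factorial := by
  have hcs : Continuous fun u => ∑ ℓ ∈ Finset.range S, ‖φ ℓ u‖ :=
    continuous_finsetSum _ fun ℓ _ => (hc ℓ).norm
  obtain ⟨M, hM⟩ := (isCompact_Icc (a := 0) (b := L)).exists_bound_of_continuousOn hcs.continuousOn
  have hM' : ∀ ℓ ∈ Finset.range S, ∀ u ∈ Icc 0 L, ‖φ ℓ u‖ ≤ M := fun ℓ hℓ u hu =>
    (Finset.single_le_sum (f := fun ℓ => ‖φ ℓ u‖) (fun _ _ => norm_nonneg _) hℓ).trans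
      ((le_abs_self _).trans (hM u hu))
  let D : ℕ → 𝔸 := fun P => ∑ ℓ ∈ Finset.range S, ∑ p ∈ Finset.range P, (∑ p' ∈ Finset.range p,
        ∫ u in (p' * (L / P) : ℝ)..((p' + 1 : ℕ) * (L / P) : ℝ), φ ℓ u) *
        ∫ u in (p * (L / P) : ℝ)..((p + 1 : ℕ) * (L / P) : ℝ), φ ℓ u
  have hlim : Tendsto D atTop
      (𝓝 (∑ ℓ ∈ Finset.range S, ∫ u in (0 : ℝ)..L, (∫ r in (0 : ℝ)..u, φ ℓ r) * φ ℓ u)) := by
    refine tendsto_finsetSum _ fun ℓ hℓ => ?_
    rw [tendsto_iff_norm_sub_tendsto_zero]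
    refine squeeze_zero' (Eventually.of_forall fun _ => norm_nonneg _) ?_
      (tendsto_const_div_atTop_nhds_zero_nat (M ^ 2 * L ^ 2))
    filter_upwards [eventually_gt_atTop 0] with P hP
    exact approx (φ ℓ) (hc ℓ) L M hL (hM' ℓ hℓ) P hP
  refine le_of_tendsto (hlim.pow m).norm ?_
  filter_upwards [eventually_gt_atTop 0] with P hP
  have hP' : (0 : ℝ) < P := by exact_mod_cast hP
  let x : ℕ → 𝔸 := fun n =>
    ∫ u in ((n / S : ℕ) * (L / P) : ℝ)..((n / S + 1 : ℕ) * (L / P) : ℝ), φ (n % S) u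
  have hx : ∀ p k, k < S → x (p * S + k) =
      ∫ u in (p * (L / P) : ℝ)..((p + 1 : ℕ) * (L / P) : ℝ), φ k u := by
    intro p k hk
    have h1 : (p * S + k) / S = p := by
      rw [Nat.add_comm, Nat.add_mul_div_right _ _ (by omega), Nat.div_eq_of_lt hk, Nat.zero_add]
    simp only [x, h1, Nat.mul_add_mod_of_lt hk]
  have h := hD 𝔸 ℕ (P * S) (fun n => n % S) x
    (fun i l => int_anti2 _ _ (hc _) (hc _) (fun u v => ha _ _ u v) _ _ _ _) m
  have e1 : ∑ l ∈ Finset.range (P * S), ∑ i ∈ (Finset.range l).filter (fun i => i % S = l % S),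
      x i * x l = D P := by
    rw [sum_range_mul, Finset.sum_comm]
    refine Finset.sum_congr rfl fun k hk => Finset.sum_congr rfl fun p _ => ?_
    have hk' := Finset.mem_range.1 hk
    rw [← Finset.sum_mul, sum_filter_mod x p S k hk', hx p k hk']
    congr 1
    exact Finset.sum_congr rfl fun p' _ => hx p' k hk'
  rw [e1] at h
  refine h.trans ?_
  gcongr
  rw [sum_range_mul]
  have hL' : (P : ℝ) * (L / P) = L := by field_simp
  have h2 := intervalIntegral.sum_integral_adjacent_intervals (μ := volume)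
    (f := fun u => ∑ ℓ ∈ Finset.range S, ‖φ ℓ u‖)
    (a := fun k : ℕ => (k * (L / P) : ℝ)) (n := P) fun k _ => hcs.intervalIntegrable _ _
  simp only [Nat.cast_zero, zero_mul, hL'] at h2
  rw [← h2]
  refine Finset.sum_le_sum fun p _ => ?_
  rw [intervalIntegral.integral_finsetSum fun ℓ _ => (hc ℓ).norm.intervalIntegrable _ _]
  refine Finset.sum_le_sum fun k hk => ?_
  rw [hx p k (Finset.mem_range.1 hk)]
  refine intervalIntegral.norm_integral_le_integral_norm ?_
  have : 0 ≤ L / P := by positivity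
  gcongr; omega

end DB

theorem db : DBDStmt → DBStmt := by
  intro hD 𝔸 _ _ _ _ ι s φ L hL hc ha m
  let ψ : ℕ → ℝ → 𝔸 := fun k => if h : k < s.card then φ (s.equivFin.symm ⟨k, h⟩) else fun _ => 0
  have hsum : ∀ {B : Type} [AddCommMonoid B] (F : (ℝ → 𝔸) → B),
      ∑ k ∈ Finset.range s.card, F (ψ k) = ∑ ℓ ∈ s, F (φ ℓ) := by
    intro B _ F
    rw [Finset.sum_range, ← Finset.sum_coe_sort s, ← Equiv.sum_comp s.equivFin.symm]
    refine Finset.sum_congr rfl fun k _ => ?_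
    simp only [ψ, dif_pos k.2]
  have h := DB.db_range hD s.card ψ L hL
    (fun k => by
      simp only [ψ]; split_ifs
      · exact hc _
      · exact continuous_const)
    (fun k k' u u' => by
      simp only [ψ]; split_ifs
      · exact ha _ _ _ _
      all_goals simp) m
  rw [hsum (fun f => ∫ u in (0 : ℝ)..L, (∫ r in (0 : ℝ)..u, f r) * f u)] at h
  have e : ∀ u, ∑ k ∈ Finset.range s.card, ‖ψ k u‖ = ∑ ℓ ∈ s, ‖φ ℓ u‖ :=
    fun u => hsum (fun f => ‖f u‖)
  simp only [e] at h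
  exact h

end Crest.Agent.R192B
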