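import Crest.Agent.R192B.D0

set_option autoImplicit false

namespace Crest.Agent.R192B
namespace DBD

variable {𝔸 : Type} [NormedRing 𝔸] [NormedAlgebra ℝ 𝔸]

lemma sq_zero {a : 𝔸} (h : a * a = -(a * a)) : a * a = 0 := by
  have h2 : (2 : ℝ) • (a * a) = 0 := by rw [two_smul]; nth_rw 1 [h]; simp
  rcases smul_eq_zero.1 h2 with h3 | h3
  · norm_num at h3
  · exact h3

omit [NormedAlgebra ℝ 𝔸] in
lemma sign (z : 𝔸) (l : List 𝔸) (h : ∀ a ∈ l, z * a = -(a * z)) :
    z * l.prod = l.prod * z ∨ z * l.prod = -(l.prod * z) := by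
  induction l with
  | nil => left; simp
  | cons a l ih =>
    have ha := h a (by simp)
    rcases ih (fun b hb => h b (by simp [hb])) with h1 | h1
    · right
      rw [List.prod_cons, ← mul_assoc, ha, neg_mul, mul_assoc, h1, mul_assoc]
    · left
      rw [List.prod_cons, ← mul_assoc, ha, neg_mul, mul_assoc, h1, mul_neg, neg_neg, mul_assoc]

omit [NormedAlgebra ℝ 𝔸] in
lemma add_pow_nil {w e : 𝔸} (hc : Commute w e) (he : e * e = 0) (j : ℕ) :
    (w + e) ^ (j + 1) = w ^ (j + 1) + (j + 1) • (w ^ j * e) := by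
  induction j with
  | zero => simp
  | succ j ih =>
    rw [pow_succ (w + e) (j + 1), ih, add_mul, mul_add, smul_mul_assoc, mul_add, mul_assoc (w ^ j) e e,
      he, mul_zero, add_zero, mul_assoc (w ^ j) e w, ← hc.eq, ← mul_assoc, ← pow_succ, ← pow_succ,
      add_smul (j + 1) 1, one_smul]
    abel

lemma num (Φ δ : ℝ) (hΦ : 0 ≤ Φ) (hδ : 0 ≤ δ) (c : ℝ) (hc : 0 ≤ c) (j : ℕ) :
    c * Φ ^ (j + 1) / (j + 1).factorial + c * Φ ^ j / j.factorial * δ
      ≤ c * (Φ + δ) ^ (j + 1) / (j + 1).factorial := by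
  have h := pow_add_mul_le_add_pow hΦ (by linarith : 0 ≤ 2 * Φ + δ) (j + 1)
  have hf : (0 : ℝ) < j.factorial := by exact_mod_cast j.factorial_pos
  rw [Nat.add_sub_cancel] at h
  have e : c * Φ ^ (j + 1) / (j + 1).factorial + c * Φ ^ j / j.factorial * δ
      = c * (Φ ^ (j + 1) + ((j + 1 : ℕ) : ℝ) * Φ ^ j * δ) / (j + 1).factorial := by
    rw [Nat.factorial_succ]; push_cast; field_simp
  rw [e]
  gcongr

variable {ι : Type} [DecidableEq ι]

/-- partial label sums -/
noncomputable def Y (lab : ℕ → ι) (x : ℕ → 𝔸) (P : ℕ) (ℓ : ι) : 𝔸 :=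
  ∑ i ∈ (Finset.range P).filter (fun i => lab i = ℓ), x i

/-- the two-form -/
noncomputable def w (lab : ℕ → ι) (x : ℕ → 𝔸) (P : ℕ) : 𝔸 :=
  ∑ l ∈ Finset.range P, Y lab x l (lab l) * x l

omit [NormedAlgebra ℝ 𝔸] in
lemma xY {lab : ℕ → ι} {x : ℕ → 𝔸} (hx : ∀ i l, x i * x l = -(x l * x i)) (i P : ℕ) (ℓ : ι) :
    x i * Y lab x P ℓ = -(Y lab x P ℓ * x i) := by
  unfold Y
  rw [Finset.mul_sum, Finset.sum_mul, ← Finset.sum_neg_distrib]
  exact Finset.sum_congr rfl fun l _ => hx i l

omit [NormedAlgebra ℝ 𝔸] in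
lemma YY {lab : ℕ → ι} {x : ℕ → 𝔸} (hx : ∀ i l, x i * x l = -(x l * x i)) (P P' : ℕ) (ℓ ℓ' : ι) :
    Y lab x P ℓ * Y lab x P' ℓ' = -(Y lab x P' ℓ' * Y lab x P ℓ) := by
  conv_lhs => rw [Y, Finset.sum_mul]
  conv_rhs => rw [show Y lab x P ℓ = ∑ i ∈ (Finset.range P).filter (fun i => lab i = ℓ), x i from rfl,
    Finset.mul_sum, ← Finset.sum_neg_distrib]
  exact Finset.sum_congr rfl fun l _ => xY hx l P' ℓ'

omit [NormedAlgebra ℝ 𝔸] in
lemma comm2 {a b c : 𝔸} (h1 : c * a = -(a * c)) (h2 : c * b = -(b * c)) : Commute (a * b) c := by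
  unfold Commute SemiconjBy
  rw [← mul_assoc, h1, neg_mul, mul_assoc a c b, h2, mul_neg, neg_neg, mul_assoc]

omit [NormedAlgebra ℝ 𝔸] in
lemma Y_succ (lab : ℕ → ι) (x : ℕ → 𝔸) (P : ℕ) (ℓ : ι) :
    Y lab x (P + 1) ℓ = Y lab x P ℓ + if lab P = ℓ then x P else 0 := by
  unfold Y
  rw [Finset.sum_filter, Finset.sum_range_succ, ← Finset.sum_filter]

lemma main [NormOneClass 𝔸] {lab : ℕ → ι} {x : ℕ → 𝔸} (hx : ∀ i l, x i * x l = -(x l * x i))
    (P : ℕ) : ∀ (m : ℕ) (Λ : List ι), Λ.Nodup →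
    ‖w lab x P ^ m * (Λ.map (Y lab x P)).prod‖ ≤
      m.factorial * (∑ i ∈ Finset.range P, ‖x i‖) ^ (2 * m + Λ.length) /
        (2 * m + Λ.length).factorial := by
  induction P with
  | zero =>
    intro m Λ _
    rcases m with _ | m
    · rcases Λ with _ | ⟨a, Λ⟩
      · simp
      · simp [Y]
    · simp [w]
  | succ P ih =>
    intro m Λ hΛ
    set Φ := ∑ i ∈ Finset.range P, ‖x i‖ with hΦ
    have hΦ0 : 0 ≤ Φ := Finset.sum_nonneg fun _ _ => norm_nonneg _
    rw [Finset.sum_range_succ, ← hΦ]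
    set z := x P with hz
    set y := Y lab x P (lab P) with hy
    have hw : w lab x (P + 1) = w lab x P + y * z := by
      unfold w; rw [Finset.sum_range_succ]
    have hzz : z * z = 0 := sq_zero (hx P P)
    have hyy : y * y = 0 := sq_zero (YY hx _ _ _ _)
    have hzy : z * y = -(y * z) := xY hx _ _ _
    have hee : y * z * (y * z) = 0 := by
      rw [mul_assoc, ← mul_assoc z y z, hzy, neg_mul, mul_assoc y z z, hzz]; simp
    have hcomm : Commute (w lab x P) (y * z) := by
      unfold w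
      refine Commute.sum_left _ _ _ fun l _ => Commute.mul_right ?_ ?_
      · refine comm2 (YY hx _ _ _ _) ?_
        rw [xY hx l P (lab P), neg_neg]
      · exact comm2 (xY hx _ _ _) (hx _ _)
    have hsign : ∀ Λ' : List ι, ∀ u : 𝔸,
        ‖u * (z * (Λ'.map (Y lab x P)).prod)‖ ≤ ‖u * (Λ'.map (Y lab x P)).prod‖ * ‖z‖ := by
      intro Λ' u
      rcases sign z (Λ'.map (Y lab x P)) (by
        intro a ha
        obtain ⟨ℓ, -, rfl⟩ := List.mem_map.1 ha
        exact xY hx _ _ _) with h | h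
      · rw [h, ← mul_assoc]; exact norm_mul_le _ _
      · rw [h, mul_neg, norm_neg, ← mul_assoc]; exact norm_mul_le _ _
    have hmap : ∀ Λ' : List ι, lab P ∉ Λ' → Λ'.map (Y lab x (P + 1)) = Λ'.map (Y lab x P) := by
      intro Λ' h
      refine List.map_congr_left fun ℓ hℓ => ?_
      rw [Y_succ, if_neg (fun e : lab P = ℓ => h (e ▸ hℓ)), add_zero]
    have hm0 : ∀ n : ℕ, (0 : ℝ) ≤ n.factorial := fun n => Nat.cast_nonneg _
    by_cases hmem : lab P ∈ Λ
    · obtain ⟨Λ1, Λ2, rfl⟩ := List.append_of_mem hmem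
      have hnd : (Λ1 ++ Λ2).Nodup := hΛ.sublist (by simp)
      have h1 : lab P ∉ Λ1 := by
        intro h
        exact (List.nodup_append.1 hΛ).2.2 _ h _ (by simp) rfl
      have h2 : lab P ∉ Λ2 := (List.nodup_cons.1 (List.nodup_append.1 hΛ).2.1).1
      set p1 := (Λ1.map (Y lab x P)).prod with hp1
      set p2 := (Λ2.map (Y lab x P)).prod with hp2
      have hprod : ((Λ1 ++ lab P :: Λ2).map (Y lab x (P + 1))).prod = p1 * ((y + z) * p2) := by
        rw [List.map_append, List.map_cons, List.prod_append, List.prod_cons, hmap _ h1, hmap _ h2,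
          Y_succ, if_pos rfl]
      have hc1 : Commute (y * z) p1 := by
        refine Commute.list_prod_right _ _ fun a ha => ?_
        obtain ⟨ℓ, -, rfl⟩ := List.mem_map.1 ha
        refine comm2 (YY hx _ _ _ _) ?_
        rw [xY hx P P ℓ, neg_neg]
      have hkill : y * z * (p1 * ((y + z) * p2)) = 0 := by
        have : y * z * (y + z) = 0 := by
          rw [mul_add, mul_assoc y z z, hzz, mul_assoc y z y, hzy, mul_neg, ← mul_assoc, hyy]; simp
        rw [← mul_assoc, hc1.eq, mul_assoc, ← mul_assoc (y * z), this]; simp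
      have hpow : w lab x (P + 1) ^ m * (p1 * ((y + z) * p2))
          = w lab x P ^ m * (p1 * ((y + z) * p2)) := by
        rcases m with _ | j
        · simp
        · rw [hw, add_pow_nil hcomm hee, add_mul, smul_mul_assoc, mul_assoc (w lab x P ^ j), hkill]
          simp
      rw [hprod, hpow]
      have e1 : w lab x P ^ m * (p1 * ((y + z) * p2))
          = w lab x P ^ m * ((Λ1 ++ lab P :: Λ2).map (Y lab x P)).prod
            + (w lab x P ^ m * p1) * (z * p2) := by
        rw [List.map_append, List.map_cons, List.prod_append, List.prod_cons, add_mul, mul_add,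
          mul_add, mul_assoc (w lab x P ^ m) p1]
      have e2 : (w lab x P ^ m * p1) * p2 = w lab x P ^ m * ((Λ1 ++ Λ2).map (Y lab x P)).prod := by
        rw [List.map_append, List.prod_append, mul_assoc]
      have b1 := ih m _ hΛ
      have b2 := ih m _ hnd
      have b3 := hsign Λ2 (w lab x P ^ m * p1)
      rw [← hp2, e2] at b3
      have hl : 2 * m + (Λ1 ++ lab P :: Λ2).length = (2 * m + (Λ1 ++ Λ2).length) + 1 := by
        simp only [List.length_append, List.length_cons]; ring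
      rw [hl] at b1 ⊢
      rw [e1]
      refine (norm_add_le _ _).trans (le_trans ?_ (num Φ ‖z‖ hΦ0 (norm_nonneg _) _ (hm0 m) _))
      exact add_le_add b1 (b3.trans (mul_le_mul_of_nonneg_right b2 (norm_nonneg _)))
    · rw [hmap _ hmem]
      rcases m with _ | j
      · refine (by simpa using ih 0 Λ hΛ : _ ≤ Φ ^ Λ.length / Λ.length.factorial).trans ?_
        simp only [Nat.factorial_zero, Nat.cast_one, mul_zero, zero_add, one_mul]
        gcongr
        exact le_add_of_nonneg_right (norm_nonneg _)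
      · have b1 := ih (j + 1) Λ hΛ
        have b2 := ih j (lab P :: Λ) (List.nodup_cons.2 ⟨hmem, hΛ⟩)
        have b3 := hsign Λ (w lab x P ^ j * y)
        rw [List.map_cons, List.prod_cons, ← hy, ← mul_assoc] at b2
        have hl : 2 * (j + 1) + Λ.length = (2 * j + (lab P :: Λ).length) + 1 := by
          simp only [List.length_cons]; ring
        rw [hl] at b1 ⊢
        rw [hw, add_pow_nil hcomm hee, add_mul, smul_mul_assoc]
        refine (norm_add_le _ _).trans
          (le_trans ?_ (num Φ ‖z‖ hΦ0 (norm_nonneg _) _ (hm0 (j + 1)) _))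
        refine add_le_add b1 ((norm_nsmul_le).trans ?_)
        have e3 : w lab x P ^ j * (y * z) * (Λ.map (Y lab x P)).prod
            = w lab x P ^ j * y * (z * (Λ.map (Y lab x P)).prod) := by simp only [mul_assoc]
        rw [e3, Nat.factorial_succ j]
        have b4 := b3.trans (mul_le_mul_of_nonneg_right b2 (norm_nonneg _))
        have b5 := mul_le_mul_of_nonneg_left b4 (Nat.cast_nonneg (α := ℝ) (j + 1))
        refine b5.trans (le_of_eq ?_)
        push_cast; ring

end DBD

theorem dbd : DBDStmt := by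
  intro 𝔸 _ _ _ ι _ P lab x hx m
  have h := DBD.main (lab := lab) hx P m [] List.nodup_nil
  simp only [List.map_nil, List.prod_nil, mul_one, List.length_nil, add_zero] at h
  have e : (∑ l ∈ Finset.range P, ∑ i ∈ (Finset.range l).filter (fun i => lab i = lab l), x i * x l)
      = DBD.w lab x P := by
    unfold DBD.w DBD.Y
    exact Finset.sum_congr rfl fun l _ => (Finset.sum_mul _ _ _).symm
  rw [e]; exact h

end Crest.Agent.R192B
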