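import Crest.Agent.R192B.D2

set_option autoImplicit false

open MeasureTheory Set
open scoped ContDiff

namespace Crest.Agent.R192B

namespace DFA

variable {n : ℕ}

theorem io_anti (u v : Fin n → ℝ) : io u * io v = -(io v * io u) :=
  eq_neg_of_add_eq_zero_left (ExteriorAlgebra.ι_add_mul_swap u v)

theorem io_sq (u : Fin n → ℝ) : io u * io u = 0 := ExteriorAlgebra.ι_sq_zero u

theorem comm_io (u v w : Fin n → ℝ) : Commute (io u * io v) (io w) := by
  have h1 : io v * io w = -(io w * io v) := io_anti v w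
  have h2 : io u * io w = -(io w * io u) := io_anti u w
  change io u * io v * io w = io w * (io u * io v)
  calc io u * io v * io w = io u * (io v * io w) := mul_assoc _ _ _
    _ = -(io u * io w * io v) := by rw [h1, mul_neg, mul_assoc]
    _ = io w * (io u * io v) := by rw [h2, neg_mul, neg_neg, mul_assoc]

theorem comm_all (u v : Fin n → ℝ) (α : Ext n) : Commute (io u * io v) α := by
  induction α using ExteriorAlgebra.induction with
  | algebraMap r => exact (Algebra.commutes r (io u * io v)).symm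
  | ι w => exact comm_io u v w
  | mul a b ha hb => exact ha.mul_right hb
  | add a b ha hb => exact ha.add_right hb

theorem sq_zero (u v : Fin n → ℝ) : (io u * io v) * (io u * io v) = 0 := by
  have h := (comm_io u v u).eq
  calc (io u * io v) * (io u * io v) = ((io u * io v) * io u) * io v := by simp only [mul_assoc]
    _ = (io u * (io u * io v)) * io v := by rw [h]
    _ = 0 := by rw [← mul_assoc, io_sq, zero_mul, zero_mul]

theorem diffAt {F : Type} [NormedAddCommGroup F] [NormedSpace ℝ F] {f : (Fin n → ℝ) → F}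
    (hf : ContDiff ℝ ∞ f) (t : Fin n → ℝ) : DifferentiableAt ℝ f t :=
  (hf.differentiable (by simp)) t

theorem dF_sum (ι : Type) (B : Finset ι) (f : ι → Vf n) (t : Fin n → ℝ)
    (hf : ∀ i ∈ B, ContDiff ℝ ∞ (f i)) :
    dF (fun t => ∑ i ∈ B, f i t) t = ∑ i ∈ B, dF (f i) t := by
  unfold dF
  rw [fderiv_fun_sum (fun i hi => diffAt (hf i hi) t)]
  rw [Finset.sum_comm]
  refine Finset.sum_congr rfl fun l _ => ?_
  simp only [ContinuousLinearMap.sum_apply, map_sum, Finset.mul_sum]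

theorem dF_add (f f' : Vf n) (t : Fin n → ℝ) (hf : ContDiff ℝ ∞ f) (hf' : ContDiff ℝ ∞ f') :
    dF (fun t => f t + f' t) t = dF f t + dF f' t := by
  unfold dF
  rw [fderiv_fun_add (diffAt hf t) (diffAt hf' t), ← Finset.sum_add_distrib]
  refine Finset.sum_congr rfl fun l _ => ?_
  simp only [ContinuousLinearMap.add_apply, map_add, mul_add]

theorem io_eq_sum (u : Fin n → ℝ) : io u = ∑ l, u l • io (ee l) := by
  have : u = ∑ l, u l • (ee l : Fin n → ℝ) := by
    funext j
    simp [Finset.sum_apply, Pi.single_apply]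
  conv_lhs => rw [this]
  simp only [map_sum, map_smul]

theorem dF_smul (χ : (Fin n → ℝ) → ℝ) (f : Vf n) (t : Fin n → ℝ) (hχ : ContDiff ℝ ∞ χ)
    (hf : ContDiff ℝ ∞ f) :
    dF (fun t => χ t • f t) t =
      io (fun l => fderiv ℝ χ t (ee l)) * io (f t) + χ t • dF f t := by
  unfold dF
  rw [fderiv_fun_smul (diffAt hχ t) (diffAt hf t), io_eq_sum (fun l => fderiv ℝ χ t (ee l)),
    Finset.sum_mul, Finset.smul_sum, ← Finset.sum_add_distrib]
  refine Finset.sum_congr rfl fun l _ => ?_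
  simp only [ContinuousLinearMap.add_apply, ContinuousLinearMap.smul_apply,
    ContinuousLinearMap.smulRight_apply, map_add, map_smul, mul_add, mul_smul_comm,
    smul_mul_assoc]
  rw [add_comm]

theorem comm_dF (f : Vf n) (t : Fin n → ℝ) (α : Ext n) : Commute (dF f t) α := by
  unfold dF
  exact Commute.sum_left _ _ _ fun i _ => comm_all _ _ α

theorem cont_rho (ρ : Ext n →ₐ[ℝ] Op n) : Continuous fun u : Fin n → ℝ => ρ (io u) :=
  LinearMap.continuous_of_finiteDimensional (ρ.toLinearMap ∘ₗ ExteriorAlgebra.ι ℝ)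

theorem nT_nonneg (T : Finset (Fin n)) (u : Fin n → ℝ) : 0 ≤ nT T u := Real.sqrt_nonneg _

theorem nT_cont (T : Finset (Fin n)) : Continuous (nT T) := by
  unfold nT
  fun_prop

theorem nT_add (T : Finset (Fin n)) (u v : Fin n → ℝ) : nT T (u + v) ≤ nT T u + nT T v := by
  have hu : 0 ≤ ∑ i ∈ T, u i ^ 2 := Finset.sum_nonneg fun i _ => sq_nonneg _
  have hv : 0 ≤ ∑ i ∈ T, v i ^ 2 := Finset.sum_nonneg fun i _ => sq_nonneg _
  have hcs := Real.sum_mul_le_sqrt_mul_sqrt T u v
  unfold nT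
  rw [Real.sqrt_le_left (by positivity)]
  have h1 : ∑ i ∈ T, (u + v) i ^ 2 =
      ∑ i ∈ T, u i ^ 2 + 2 * ∑ i ∈ T, u i * v i + ∑ i ∈ T, v i ^ 2 := by
    rw [Finset.mul_sum, ← Finset.sum_add_distrib, ← Finset.sum_add_distrib]
    refine Finset.sum_congr rfl fun i _ => ?_
    simp only [Pi.add_apply]
    ring
  rw [h1, add_sq, Real.sq_sqrt hu, Real.sq_sqrt hv]
  nlinarith [hcs]

theorem nT_smul (T : Finset (Fin n)) (c : ℝ) (u : Fin n → ℝ) : nT T (c • u) = |c| * nT T u := by
  unfold nT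
  have h1 : ∑ i ∈ T, (c • u) i ^ 2 = c ^ 2 * ∑ i ∈ T, u i ^ 2 := by
    rw [Finset.mul_sum]
    refine Finset.sum_congr rfl fun i _ => ?_
    simp only [Pi.smul_apply, smul_eq_mul]
    ring
  rw [h1, Real.sqrt_mul (sq_nonneg c), Real.sqrt_sq_eq_abs]

theorem nT_zero (T : Finset (Fin n)) : nT T 0 = 0 := by
  simp [nT]

theorem nT_sum (T : Finset (Fin n)) (ι : Type) (B : Finset ι) (u : ι → Fin n → ℝ) :
    nT T (∑ i ∈ B, u i) ≤ ∑ i ∈ B, nT T (u i) := by
  classical
  induction B using Finset.induction_on with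
  | empty => simp [nT_zero]
  | insert a s ha ih =>
    rw [Finset.sum_insert ha, Finset.sum_insert ha]
    exact (nT_add T _ _).trans (by linarith)

theorem nT_le (T : Finset (Fin n)) (u : Fin n → ℝ) (b : ℝ) (hb : 0 ≤ b) (hu : ∀ l, |u l| ≤ b) :
    nT T u ≤ T.card * b := by
  unfold nT
  rw [Real.sqrt_le_left (by positivity)]
  have h1 : ∑ i ∈ T, u i ^ 2 ≤ T.card * b ^ 2 := by
    have : ∑ i ∈ T, u i ^ 2 ≤ ∑ _i ∈ T, b ^ 2 :=
      Finset.sum_le_sum fun i _ => by
        rw [← sq_abs]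
        exact pow_le_pow_left₀ (abs_nonneg _) (hu i) 2
    simpa using this
  have h2 : (T.card : ℝ) ≤ (T.card : ℝ) ^ 2 := by
    exact_mod_cast Nat.le_self_pow two_ne_zero T.card
  calc ∑ i ∈ T, u i ^ 2 ≤ T.card * b ^ 2 := h1
    _ ≤ (T.card : ℝ) ^ 2 * b ^ 2 := mul_le_mul_of_nonneg_right h2 (sq_nonneg b)
    _ = (T.card * b) ^ 2 := by ring

theorem nT_single (u : Fin n → ℝ) (l : Fin n) : nT {l} u = |u l| := by
  simp [nT, Real.sqrt_sq_eq_abs]

end DFA

open _root_.Crest.Agent.R192B.DFA in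
theorem dfa : DFAStmt := fun _ =>
  ⟨dF_sum, dF_add, dF_smul, comm_all, fun u v => ⟨io_anti u v, sq_zero u v⟩, comm_dF, cont_rho,
    fun T => ⟨nT_cont T, nT_nonneg T, nT_add T, nT_smul T, nT_sum T, nT_le T, nT_single⟩⟩

end Crest.Agent.R192B
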