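import Crest.Agent.R192B.D0

set_option autoImplicit false

open MeasureTheory Set

namespace Crest.Agent.R192B
namespace ENV

variable {Z : Type} {d : Z → Z → ℕ} {M D m : ℕ} {ν : Measure (Fin (m + 1))}
  {Good : (Z → Fin (m + 1)) → Z → Prop} {r : ℕ}

theorem ball_finite (H : EnvH d M D m ν Good r) (x : Z) {k : ℕ} (hk : k ≤ 10 * r) :
    {y | d x y ≤ k}.Finite := by
  obtain ⟨B, -, hB⟩ := H.met.ball x k (lt_of_le_of_lt hk H.r_lt)
  exact B.finite_toSet.subset fun y hy => hB y hy

theorem meas_good (H : EnvH d M D m ν Good r) (x : Z) : MeasurableSet {E | Good E x} := by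
  obtain ⟨B, -, hB⟩ := H.met.ball x r (by have := H.r_lt; omega)
  have h1 : {E | Good E x} = B.restrict ⁻¹' (B.restrict '' {E : Z → Fin (m + 1) | Good E x}) := by
    ext E
    constructor
    · intro h; exact ⟨E, h, rfl⟩
    · rintro ⟨E', h, he⟩
      exact (H.loc E' E x fun y hy => congrFun he ⟨y, hB y hy⟩).1 h
  rw [h1]
  exact Finset.measurable_restrict B MeasurableSet.of_discrete

/-- hop relation -/
def hop (d : Z → Z → ℕ) (Good : (Z → Fin (m + 1)) → Z → Prop) (r : ℕ) (E : Z → Fin (m + 1))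
    (u v : Z) : Prop := ¬ Good E v ∧ d u v ≤ 4 * r

def reachN (d : Z → Z → ℕ) (Good : (Z → Fin (m + 1)) → Z → Prop) (r : ℕ) (E : Z → Fin (m + 1))
    (y : Z) : ℕ → Z → Prop
  | 0, u => u = y
  | n + 1, u => ∃ v, hop d Good r E u v ∧ reachN d Good r E y n v

theorem reach_iff (E : Z → Fin (m + 1)) (u y : Z) :
    Relation.ReflTransGen (hop d Good r E) u y ↔ ∃ n, reachN d Good r E y n u := by
  constructor
  · intro h
    induction h using Relation.ReflTransGen.head_induction_on with
    | refl => exact ⟨0, rfl⟩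
    | head h _ ih => obtain ⟨n, hn⟩ := ih; exact ⟨n + 1, _, h, hn⟩
  · rintro ⟨n, hn⟩
    induction n generalizing u with
    | zero => cases hn; exact .refl
    | succ n ih => obtain ⟨v, h1, h2⟩ := hn; exact .head h1 (ih v h2)

theorem meas_reachN (H : EnvH d M D m ν Good r) (y : Z) (n : ℕ) (u : Z) :
    MeasurableSet {E | reachN d Good r E y n u} := by
  induction n generalizing u with
  | zero => exact MeasurableSet.const (u = y)
  | succ n ih =>
    have : {E | reachN d Good r E y (n + 1) u} =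
        ⋃ v ∈ {v | d u v ≤ 4 * r}, ({E | Good E v}ᶜ ∩ {E | reachN d Good r E y n v}) := by
      ext E
      simp only [reachN, hop, mem_ofPred_eq, mem_iUnion, mem_inter_iff, mem_compl_iff]
      constructor
      · rintro ⟨v, ⟨h1, h2⟩, h3⟩; exact ⟨v, h2, h1, h3⟩
      · rintro ⟨v, h2, h1, h3⟩; exact ⟨v, ⟨h1, h2⟩, h3⟩
    rw [this]
    exact MeasurableSet.biUnion (ball_finite H u (by omega)).countable
      fun v _ => (meas_good H v).compl.inter (ih v)

theorem meas_reach (H : EnvH d M D m ν Good r) (u y : Z) :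
    MeasurableSet {E | Relation.ReflTransGen (hop d Good r E) u y} := by
  simp only [reach_iff, ofPred_exists]
  exact MeasurableSet.iUnion fun n => meas_reachN H y n u

/-- the bad cluster seen from `x` -/
def K (d : Z → Z → ℕ) (Good : (Z → Fin (m + 1)) → Z → Prop) (r : ℕ) (E : Z → Fin (m + 1))
    (x : Z) : Set Z :=
  {y | ∃ u, ¬ Good E u ∧ d x u ≤ 2 * r ∧ Relation.ReflTransGen (hop d Good r E) u y}

theorem meas_K (H : EnvH d M D m ν Good r) (x y : Z) :
    MeasurableSet {E | y ∈ K d Good r E x} := by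
  have : {E | y ∈ K d Good r E x} = ⋃ u ∈ {u | d x u ≤ 2 * r},
      ({E | Good E u}ᶜ ∩ {E | Relation.ReflTransGen (hop d Good r E) u y}) := by
    ext E
    simp only [K, mem_ofPred_eq, mem_iUnion, mem_inter_iff, mem_compl_iff]
    constructor
    · rintro ⟨v, h1, h2, h3⟩; exact ⟨v, h2, h1, h3⟩
    · rintro ⟨v, h2, h1, h3⟩; exact ⟨v, h1, h2, h3⟩
  rw [this]
  exact MeasurableSet.biUnion (ball_finite H x (by omega)).countable
    fun v _ => (meas_good H v).compl.inter (meas_reach H v y)

def Rn (d : Z → Z → ℕ) (r : ℕ) (x : Z) : ℕ → Set Z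
  | 0 => {x}
  | n + 1 => ⋃ u ∈ Rn d r x n, {v | d u v ≤ 4 * r}

theorem Rn_finite (H : EnvH d M D m ν Good r) (x : Z) (n : ℕ) : (Rn d r x n).Finite := by
  induction n with
  | zero => exact finite_singleton x
  | succ n ih => exact ih.biUnion fun u _ => ball_finite H u (by omega)

theorem K_sub (E : Z → Fin (m + 1)) (x : Z) : K d Good r E x ⊆ ⋃ n, Rn d r x n := by
  rintro y ⟨u, -, h2, h3⟩
  induction h3 with
  | refl =>
    refine mem_iUnion.2 ⟨1, ?_⟩
    simp only [Rn, mem_singleton_iff, iUnion_iUnion_eq_left, mem_ofPred_eq]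
    omega
  | tail _ h ih =>
    obtain ⟨n, hn⟩ := mem_iUnion.1 ih
    exact mem_iUnion.2 ⟨n + 1, mem_biUnion hn h.2⟩

def GoodOn (d : Z → Z → ℕ) (Good : (Z → Fin (m + 1)) → Z → Prop) (r : ℕ)
    (E E' : Z → Fin (m + 1)) (x : Z) : Prop :=
  ∀ y ∈ K d Good r E x, ∀ z, d y z ≤ r → Good E' z

theorem meas_goodOn (H : EnvH d M D m ν Good r) {Ω : Type} [MeasurableSpace Ω]
    {f g : Ω → Z → Fin (m + 1)} (hf : Measurable f) (hg : Measurable g) (x : Z) :
    MeasurableSet {ω | GoodOn d Good r (f ω) (g ω) x} := by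
  have : {ω | GoodOn d Good r (f ω) (g ω) x} = ⋂ y ∈ ⋃ n, Rn d r x n,
      ((f ⁻¹' {E | y ∈ K d Good r E x})ᶜ ∪ ⋂ z ∈ {z | d y z ≤ r}, g ⁻¹' {E | Good E z}) := by
    ext ω
    simp only [GoodOn, mem_ofPred_eq, mem_iInter, mem_union, mem_compl_iff, mem_preimage]
    constructor
    · intro h y _
      by_cases hy : y ∈ K d Good r (f ω) x
      · exact Or.inr (h y hy)
      · exact Or.inl hy
    · intro h y hy
      exact (h y (K_sub _ _ hy)).resolve_left (not_not.2 hy)
  rw [this]
  refine MeasurableSet.biInter (countable_iUnion fun n => (Rn_finite H x n).countable)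
    fun y _ => (hf (meas_K H x y)).compl.union ?_
  exact MeasurableSet.biInter (ball_finite H y (by omega)).countable
    fun z _ => hg (meas_good H z)

abbrev Src (Z : Type) (m : ℕ) := (Z → Fin (m + 1)) × (ℕ → Z → Fin (m + 1))

noncomputable def idx (d : Z → Z → ℕ) (Good : (Z → Fin (m + 1)) → Z → Prop) (r : ℕ)
    (ω : Src Z m) (x : Z) : ℕ := sInf {i | GoodOn d Good r ω.1 (ω.2 i) x}

theorem meas_idx (H : EnvH d M D m ν Good r) (x : Z) :
    Measurable fun ω : Src Z m => idx d Good r ω x := by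
  have hm : ∀ i, MeasurableSet {ω : Src Z m | GoodOn d Good r ω.1 (ω.2 i) x} := fun i =>
    meas_goodOn H measurable_fst ((measurable_pi_apply i).comp measurable_snd) x
  refine measurable_to_countable' fun n => ?_
  have : (fun ω : Src Z m => idx d Good r ω x) ⁻¹' {n} =
      ({ω : Src Z m | GoodOn d Good r ω.1 (ω.2 n) x} ∩
        ⋂ k ∈ {k | k < n}, {ω : Src Z m | GoodOn d Good r ω.1 (ω.2 k) x}ᶜ) ∪
      ({_ω | n = 0} ∩ ⋂ k, {ω : Src Z m | GoodOn d Good r ω.1 (ω.2 k) x}ᶜ) := by
    ext ω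
    simp only [idx, mem_preimage, mem_singleton_iff, mem_union, mem_inter_iff, mem_ofPred_eq,
      mem_iInter, mem_compl_iff]
    constructor
    · rintro rfl
      rcases eq_empty_or_nonempty {i | GoodOn d Good r ω.1 (ω.2 i) x} with h | h
      · right
        refine ⟨by rw [h]; simp, fun k hk => ?_⟩
        have : k ∈ {i | GoodOn d Good r ω.1 (ω.2 i) x} := hk
        rw [h] at this
        exact this
      · exact Or.inl ⟨Nat.sInf_mem h, fun k hk => Nat.notMem_of_lt_sInf hk⟩
    · rintro (⟨h1, h2⟩ | ⟨rfl, h2⟩)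
      · refine le_antisymm (Nat.sInf_le h1) ?_
        by_contra hlt
        exact h2 _ (not_le.1 hlt) (Nat.sInf_mem (s := {i | GoodOn d Good r ω.1 (ω.2 i) x}) ⟨n, h1⟩)
      · rw [Nat.sInf_eq_zero]
        exact Or.inr (eq_empty_of_forall_notMem h2)
  rw [this]
  exact ((hm n).inter (MeasurableSet.biInter (to_countable _) fun k _ => (hm k).compl)).union
    ((MeasurableSet.const _).inter (MeasurableSet.iInter fun k => (hm k).compl))

noncomputable def Phi (d : Z → Z → ℕ) (Good : (Z → Fin (m + 1)) → Z → Prop) (r : ℕ)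
    (ω : Src Z m) : (Z → Fin (m + 1)) × (Z → Fin (m + 1)) :=
  (ω.1, fun x => ω.2 (idx d Good r ω x) x)

theorem meas_Phi (H : EnvH d M D m ν Good r) : Measurable (Phi d Good r) := by
  refine measurable_fst.prodMk (measurable_pi_lambda _ fun x => ?_)
  have h1 : Measurable fun p : Src Z m × ℕ => p.1.2 p.2 x :=
    measurable_from_prod_countable_left fun n =>
      (measurable_pi_apply x).comp ((measurable_pi_apply n).comp measurable_snd)
  exact h1.comp (measurable_id.prodMk (meas_idx H x))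

theorem K_equi (H : EnvH d M D m ν Good r) (σ : Z ≃ Z) (hσ : ∀ x y, d (σ x) (σ y) = d x y)
    (E : Z → Fin (m + 1)) (x y : Z) (h : y ∈ K d Good r E x) :
    σ y ∈ K d Good r (E ∘ σ.symm) (σ x) := by
  obtain ⟨u, h1, h2, h3⟩ := h
  refine ⟨σ u, by rwa [H.equi σ hσ], by rwa [hσ], ?_⟩
  clear h1 h2
  induction h3 with
  | refl => exact .refl
  | tail _ hab ih =>
    exact ih.tail ⟨by rw [H.equi σ hσ]; exact hab.1, by rw [hσ]; exact hab.2⟩

theorem iso_symm {σ : Z ≃ Z} (hσ : ∀ x y, d (σ x) (σ y) = d x y) (x y : Z) :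
    d (σ.symm x) (σ.symm y) = d x y := by
  rw [← hσ]; simp

theorem goodOn_equi (H : EnvH d M D m ν Good r) (σ : Z ≃ Z) (hσ : ∀ x y, d (σ x) (σ y) = d x y)
    (E E' : Z → Fin (m + 1)) (x : Z) (h : GoodOn d Good r E E' x) :
    GoodOn d Good r (E ∘ σ.symm) (E' ∘ σ.symm) (σ x) := by
  intro y hy z hz
  have h1 := K_equi H σ.symm (iso_symm hσ) _ _ _ hy
  have h2 : (E ∘ σ.symm) ∘ σ.symm.symm = E := by ext a; simp
  rw [h2, Equiv.symm_apply_apply] at h1
  have h3 := h _ h1 (σ.symm z) (by rwa [iso_symm hσ])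
  rw [← H.equi σ hσ] at h3
  simpa using h3

theorem goodOn_iff (H : EnvH d M D m ν Good r) (σ : Z ≃ Z) (hσ : ∀ x y, d (σ x) (σ y) = d x y)
    (E E' : Z → Fin (m + 1)) (x : Z) :
    GoodOn d Good r (E ∘ σ.symm) (E' ∘ σ.symm) (σ x) ↔ GoodOn d Good r E E' x := by
  refine ⟨fun h => ?_, goodOn_equi H σ hσ E E' x⟩
  have h1 := goodOn_equi H σ.symm (iso_symm hσ) _ _ _ h
  have h2 : ∀ E : Z → Fin (m + 1), (E ∘ σ.symm) ∘ σ.symm.symm = E := fun E => by ext a; simp
  rwa [h2, h2, Equiv.symm_apply_apply] at h1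

theorem K_eq (H : EnvH d M D m ν Good r) (E : Z → Fin (m + 1)) {x w : Z} (hx : ¬ Good E x)
    (hw : d x w ≤ 2 * r) :
    K d Good r E w = {y | Relation.ReflTransGen (hop d Good r E) x y} := by
  ext y
  constructor
  · rintro ⟨u, h1, h2, h3⟩
    exact .head ⟨h1, by have := H.met.tri x w u; omega⟩ h3
  · intro h
    exact ⟨x, hx, by rwa [H.met.symm], h⟩

theorem mp_perm [IsProbabilityMeasure ν] (σ : Z ≃ Z) :
    MeasurePreserving (fun E : Z → Fin (m + 1) => E ∘ σ.symm)
      (Measure.infinitePi fun _ : Z => ν) (Measure.infinitePi fun _ : Z => ν) := by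
  refine ⟨measurable_pi_lambda _ fun x => measurable_pi_apply _, ?_⟩
  exact Measure.map_infinitePi_infinitePi_of_inj (P := fun _ : Z => ν) σ.symm.injective

theorem ae_exists {X : Type} [MeasurableSpace X] (P : Measure X) [IsProbabilityMeasure P]
    {A : Set X} (hA : MeasurableSet A) (h0 : 0 < P A) :
    ∀ᵐ ω ∂(Measure.infinitePi fun _ : ℕ => P), ∃ i, ω i ∈ A := by
  rw [ae_iff]
  have h1 : P Aᶜ < 1 := by
    rw [prob_compl_eq_one_sub hA]
    exact ENNReal.sub_lt_self ENNReal.one_ne_top one_ne_zero h0.ne'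
  refine le_antisymm (ge_of_tendsto' (ENNReal.tendsto_pow_atTop_nhds_zero_of_lt_one h1)
    fun n => ?_) zero_le
  have h2 := Measure.infinitePi_pi (fun _ : ℕ => P) (s := Finset.range n) (t := fun _ => Aᶜ)
    fun _ _ => hA.compl
  rw [Finset.prod_const, Finset.card_range] at h2
  rw [← h2]
  exact measure_mono fun ω hω i _ hi => hω ⟨i, hi⟩

end ENV

open ENV in
theorem env : ENV1Stmt → ENV2Stmt → ENVStmt := by
  intro h1 h2 Z d M D m ν Good r H
  have := H.prob
  set P : Measure (Z → Fin (m + 1)) := Measure.infinitePi fun _ : Z => ν with hP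
  set Q : Measure (Src Z m) := P.prod (Measure.infinitePi fun _ : ℕ => P) with hQ
  have hΦ := meas_Phi H
  refine ⟨Q.map (Phi d Good r), Measure.isProbabilityMeasure_map hΦ.aemeasurable, ?_, ?_⟩
  · intro σ hσ
    have hp := mp_perm (ν := ν) σ
    have hS : Measurable fun c : (Z → Fin (m + 1)) × (Z → Fin (m + 1)) =>
        (c.1 ∘ σ.symm, c.2 ∘ σ.symm) :=
      (hp.measurable.comp measurable_fst).prodMk (hp.measurable.comp measurable_snd)
    have hT2 : MeasurePreserving (fun (ω : ℕ → Z → Fin (m + 1)) i => ω i ∘ σ.symm)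
        (Measure.infinitePi fun _ : ℕ => P) (Measure.infinitePi fun _ : ℕ => P) := by
      refine ⟨measurable_pi_lambda _ fun i => hp.measurable.comp (measurable_pi_apply i), ?_⟩
      rw [Measure.infinitePi_map_pi (fun _ : ℕ => P) (f := fun _ E => E ∘ σ.symm)
        fun _ => hp.measurable]
      congr 1
      ext1 i
      exact hp.map_eq
    have hT := hp.prod hT2
    refine ⟨hS, ?_⟩
    rw [Measure.map_map hS hΦ]
    conv_rhs => rw [hQ, ← hT.map_eq, Measure.map_map hΦ hT.measurable]
    congr 1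
    ext1 ω
    simp only [Function.comp_apply, Phi, Prod.map, Prod.mk.injEq, true_and]
    ext1 x
    obtain ⟨x, rfl⟩ := σ.surjective x
    simp only [Function.comp_apply, Equiv.symm_apply_apply, idx, goodOn_iff H σ hσ]
  · intro x x' hx
    refine (ae_map_iff hΦ.aemeasurable (p := fun c => Good c.1 x ∨ Good c.2 x')
      ((measurable_fst (meas_good H x)).union (measurable_snd (meas_good H x')))).2 ?_
    have hae : ∀ᵐ ω ∂Q, Good ω.1 x ∨ ∃ i, GoodOn d Good r ω.1 (ω.2 i) x := by
      rw [hQ, Measure.ae_prod_iff_ae_ae]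
      · filter_upwards [h2 Z d M D m ν Good r H x] with E hE
        by_cases hg : Good E x
        · exact Filter.Eventually.of_forall fun _ => Or.inl hg
        · have hK := K_eq H E hg (w := x) (by rw [H.met.refl]; omega)
          have hfin : (⋃ y ∈ K d Good r E x, {z | d y z ≤ r}).Finite := by
            rw [hK]
            exact Finite.biUnion hE fun y _ => ball_finite H y (by omega)
          have hpos := h1 Z d M D m ν Good r H hfin.toFinset
          have hA : MeasurableSet {E' | GoodOn d Good r E E' x} :=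
            meas_goodOn H (f := fun _ => E) measurable_const measurable_id x
          filter_upwards [ae_exists P hA (hpos.trans_le (measure_mono fun E' hE' y hy z hz =>
            hE' z (hfin.mem_toFinset.2 (mem_biUnion hy hz))))] with ω hω
          exact Or.inr hω
      · refine (measurable_fst (meas_good H x)).union ?_
        show MeasurableSet {ω : Src Z m | ∃ i, GoodOn d Good r ω.1 (ω.2 i) x}
        rw [ofPred_exists]
        exact MeasurableSet.iUnion fun i =>
          meas_goodOn H measurable_fst ((measurable_pi_apply i).comp measurable_snd) x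
    filter_upwards [hae] with ω hω
    by_cases hg : Good ω.1 x
    · exact Or.inl hg
    · right
      have hne : {i | GoodOn d Good r ω.1 (ω.2 i) x}.Nonempty := hω.resolve_left hg
      have hK0 := K_eq H ω.1 hg (w := x) (by rw [H.met.refl]; omega)
      have hmem : GoodOn d Good r ω.1 (ω.2 (idx d Good r ω x)) x := Nat.sInf_mem hne
      have h3 : Good (ω.2 (idx d Good r ω x)) x' := hmem x (by rw [hK0]; exact .refl) x' hx
      refine (H.loc _ _ x' fun w hw => ?_).1 h3
      have hK := K_eq H ω.1 hg (w := w) (by have := H.met.tri x x' w; omega)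
      show ω.2 (idx d Good r ω x) w = ω.2 (idx d Good r ω w) w
      simp only [idx, GoodOn, hK, hK0]

end Crest.Agent.R192B
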