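import Crest.Agent.R192B.D0

set_option autoImplicit false

open MeasureTheory Set ProbabilityTheory

namespace Crest.Agent.R192B

namespace ENV1

/-- none of the bad events indexed by `S` -/
def gd {Ω Z : Type} (A : Z → Set Ω) (S : Finset Z) : Set Ω := {ω | ∀ y ∈ S, ω ∉ A y}

theorem gd_meas {Ω Z : Type} [MeasurableSpace Ω] {A : Z → Set Ω} (hA : ∀ x, MeasurableSet (A x))
    (S : Finset Z) : MeasurableSet (gd A S) := by
  have : gd A S = ⋂ y ∈ S, (A y)ᶜ := by
    ext ω; simp [gd]
  rw [this]
  exact Finset.measurableSet_biInter S fun y _ => (hA y).compl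

theorem lll_step {Ω Z : Type} [MeasurableSpace Ω] (μ : Measure Ω) [IsProbabilityMeasure μ]
    (A : Z → Set Ω) (N : Z → Finset Z) (p dd : ℝ) (hp0 : 0 ≤ p)
    (hp : ∀ x, μ.real (A x) ≤ p) (hN : ∀ x, ((N x).card : ℝ) ≤ dd) (hpd : 4 * p * dd ≤ 1)
    (hind : ∀ x (S : Finset Z), (∀ y ∈ S, y ∉ N x) →
      μ.real (A x ∩ gd A S) = μ.real (A x) * μ.real (gd A S)) :
    ∀ (n : ℕ) (S : Finset Z), S.card = n → ∀ x, μ.real (A x ∩ gd A S) ≤ 2 * p * μ.real (gd A S) := by
  classical
  intro n
  induction n using Nat.strong_induction_on with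
  | _ n ih =>
    intro S hS x
    set S2 := S.filter (fun y => y ∉ N x) with hS2
    set S1 := S.filter (fun y => y ∈ N x) with hS1
    have h2 : μ.real (A x ∩ gd A S2) ≤ p * μ.real (gd A S2) := by
      rw [hind x S2 (fun y hy => (Finset.mem_filter.1 hy).2)]
      exact mul_le_mul_of_nonneg_right (hp x) measureReal_nonneg
    have hsub : gd A S ⊆ gd A S2 := fun ω hω y hy => hω y (Finset.mem_filter.1 hy).1
    have h3 : μ.real (A x ∩ gd A S) ≤ μ.real (A x ∩ gd A S2) :=
      measureReal_mono (inter_subset_inter_right _ hsub)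
    have h4 : μ.real (gd A S2) ≤ 2 * μ.real (gd A S) := by
      by_cases he : S2 = S
      · rw [he]
        have : 0 ≤ μ.real (gd A S) := measureReal_nonneg
        linarith
      · have hlt : S2.card < n := by
          rw [← hS]
          exact Finset.card_lt_card (Finset.ssubset_iff_subset_ne.2 ⟨Finset.filter_subset _ _, he⟩)
        have hcov : gd A S2 ⊆ gd A S ∪ ⋃ y ∈ S1, (A y ∩ gd A S2) := by
          intro ω hω
          by_cases hg : ω ∈ gd A S
          · exact Or.inl hg
          · right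
            simp only [gd, mem_ofPred_eq, not_forall, not_not] at hg
            obtain ⟨y, hy, hyA⟩ := hg
            have hyN : y ∈ N x := by
              by_contra hn
              exact hω y (Finset.mem_filter.2 ⟨hy, hn⟩) hyA
            exact mem_iUnion₂.2 ⟨y, Finset.mem_filter.2 ⟨hy, hyN⟩, hyA, hω⟩
        have h5 : μ.real (gd A S2) ≤ μ.real (gd A S) + ∑ y ∈ S1, μ.real (A y ∩ gd A S2) :=
          (measureReal_mono hcov).trans ((measureReal_union_le _ _).trans
            (add_le_add le_rfl (measureReal_biUnion_finset_le _ _)))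
        have h6 : ∑ y ∈ S1, μ.real (A y ∩ gd A S2) ≤ S1.card * (2 * p * μ.real (gd A S2)) := by
          have := Finset.sum_le_card_nsmul S1 (fun y => μ.real (A y ∩ gd A S2)) _
            (fun y _ => ih _ hlt S2 rfl y)
          simpa [nsmul_eq_mul] using this
        have h7 : (S1.card : ℝ) ≤ dd := by
          refine le_trans ?_ (hN x)
          exact_mod_cast Finset.card_le_card fun y hy => (Finset.mem_filter.1 hy).2
        have h8 : 0 ≤ μ.real (gd A S2) := measureReal_nonneg
        have h9 : (S1.card : ℝ) * (2 * p * μ.real (gd A S2)) ≤ dd * (2 * p * μ.real (gd A S2)) :=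
          mul_le_mul_of_nonneg_right h7 (by positivity)
        have h10 : 4 * p * dd * μ.real (gd A S2) ≤ 1 * μ.real (gd A S2) :=
          mul_le_mul_of_nonneg_right hpd h8
        nlinarith
    have h11 : p * μ.real (gd A S2) ≤ p * (2 * μ.real (gd A S)) := mul_le_mul_of_nonneg_left h4 hp0
    linarith

theorem lll {Ω Z : Type} [MeasurableSpace Ω] (μ : Measure Ω) [IsProbabilityMeasure μ]
    (A : Z → Set Ω) (N : Z → Finset Z) (p dd : ℝ) (hp0 : 0 ≤ p) (hp1 : 2 * p < 1)
    (hp : ∀ x, μ.real (A x) ≤ p) (hN : ∀ x, ((N x).card : ℝ) ≤ dd) (hpd : 4 * p * dd ≤ 1)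
    (hind : ∀ x (S : Finset Z), (∀ y ∈ S, y ∉ N x) →
      μ.real (A x ∩ gd A S) = μ.real (A x) * μ.real (gd A S)) (S : Finset Z) :
    0 < μ.real (gd A S) := by
  classical
  induction S using Finset.induction_on with
  | empty =>
    have : gd A ∅ = univ := by ext ω; simp [gd]
    rw [this]; simp
  | insert x S hx ih =>
    have h1 := lll_step μ A N p dd hp0 hp hN hpd hind _ S rfl x
    have hcov : gd A S ⊆ gd A (insert x S) ∪ (A x ∩ gd A S) := by
      intro ω hω
      by_cases h : ω ∈ A x
      · exact Or.inr ⟨h, hω⟩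
      · left
        intro y hy
        rcases Finset.mem_insert.1 hy with rfl | hy
        · exact h
        · exact hω y hy
    have h2 : μ.real (gd A S) ≤ μ.real (gd A (insert x S)) + μ.real (A x ∩ gd A S) :=
      (measureReal_mono hcov).trans (measureReal_union_le _ _)
    nlinarith

/-- a set depending only on the coordinates in `B` is a preimage under restriction -/
theorem dep_preimage {Z β : Type} (B : Finset Z) (T : Set (Z → β))
    (h : ∀ E E' : Z → β, (∀ y ∈ B, E y = E' y) → E ∈ T → E' ∈ T) :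
    T = (fun (E : Z → β) (i : B) => E i) ⁻¹' ((fun (E : Z → β) (i : B) => E i) '' T) := by
  ext E
  constructor
  · intro hE
    exact ⟨E, hE, rfl⟩
  · rintro ⟨E', hE', heq⟩
    exact h E' E (fun y hy => congrFun heq ⟨y, hy⟩) hE'

theorem dep_indep {Z : Type} {m : ℕ} (ν : Measure (Fin (m + 1))) [IsProbabilityMeasure ν]
    (B B' : Finset Z) (hB : Disjoint B B') (T T' : Set (Z → Fin (m + 1)))
    (h : ∀ E E' : Z → Fin (m + 1), (∀ y ∈ B, E y = E' y) → E ∈ T → E' ∈ T)
    (h' : ∀ E E' : Z → Fin (m + 1), (∀ y ∈ B', E y = E' y) → E ∈ T' → E' ∈ T') :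
    Measure.infinitePi (fun _ : Z => ν) (T ∩ T') =
      Measure.infinitePi (fun _ : Z => ν) T * Measure.infinitePi (fun _ : Z => ν) T' := by
  have hi : iIndepFun (fun (i : Z) (E : Z → Fin (m + 1)) => E i)
      (Measure.infinitePi (fun _ : Z => ν)) :=
    iIndepFun_infinitePi (X := fun _ x => x) (fun _ => measurable_id)
  have h2 := hi.indepFun_finset B B' hB (fun i => measurable_pi_apply i)
  have h3 := h2.measure_inter_preimage_eq_mul
    ((fun (E : Z → Fin (m + 1)) (i : B) => E i) '' T)
    ((fun (E : Z → Fin (m + 1)) (i : B') => E i) '' T')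
    (Set.toFinite _).measurableSet (Set.toFinite _).measurableSet
  rw [← dep_preimage B T h, ← dep_preimage B' T' h'] at h3
  exact h3

end ENV1

open ENV1 in
theorem env1 : ENV1Stmt := by
  classical
  intro Z d M D m ν Good r H F
  have := H.prob
  have hr := H.r_pos
  have hrD := H.r_lt
  choose B0 hB0 using fun x => H.met.ball x r (by omega)
  choose N hN using fun x => H.met.ball x (2 * r) (by omega)
  let B : Z → Finset Z := fun x => (B0 x).filter fun y => d x y ≤ r
  have hB : ∀ x y, y ∈ B x ↔ d x y ≤ r := fun x y =>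
    ⟨fun h => (Finset.mem_filter.1 h).2, fun h => Finset.mem_filter.2 ⟨(hB0 x).2 y h, h⟩⟩
  let A : Z → Set (Z → Fin (m + 1)) := fun x => {E | ¬ Good E x}
  have hM : (2 : ℝ) ≤ M := by exact_mod_cast H.two
  have hM1 : (1 : ℝ) ≤ M := by linarith
  have hpow : (1 : ℝ) ≤ (M : ℝ) ^ (10 * r) := one_le_pow₀ hM1
  have hpow2 : (M : ℝ) ^ (2 * r) ≤ (M : ℝ) ^ (10 * r) := pow_le_pow_right₀ hM1 (by omega)
  set P : ℝ := (M : ℝ) ^ (10 * r) with hP
  have hP0 : 0 < P := by linarith
  have key := lll (Measure.infinitePi (fun _ : Z => ν)) A N (1 / (100 * P)) P (by positivity)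
    (by rw [← mul_div_assoc, div_lt_one (by positivity)]; linarith)
    (fun x => ENNReal.toReal_le_of_le_ofReal (by positivity) (H.rare x))
    (fun x => le_trans (by exact_mod_cast (hN x).1) hpow2)
    (by field_simp; norm_num)
    (fun x S hS => by
      simp only [Measure.real]
      rw [dep_indep ν (B x) (S.biUnion B) ?_ (A x) (gd A S) ?_ ?_, ENNReal.toReal_mul]
      · rw [Finset.disjoint_left]
        intro z hz hz'
        obtain ⟨y, hy, hzy⟩ := Finset.mem_biUnion.1 hz'
        apply hS y hy
        apply (hN x).2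
        have h1 := (hB x z).1 hz
        have h2 := (hB y z).1 hzy
        have h3 := H.met.tri x z y
        rw [H.met.symm z y] at h3
        omega
      · intro E E' hEE hE hG
        exact hE ((H.loc E E' x fun y hy => hEE y ((hB x y).2 hy)).2 hG)
      · intro E E' hEE hE y hy hG
        apply hE y hy
        intro hG'
        exact hG ((H.loc E E' y fun z hz =>
          hEE z (Finset.mem_biUnion.2 ⟨y, hy, (hB y z).2 hz⟩)).1 hG')) F
  have heq : gd A F = {E | ∀ x ∈ F, Good E x} := by
    ext E; simp [gd, A]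
  rw [heq] at key
  exact (ENNReal.toReal_pos_iff.1 key).1

end Crest.Agent.R192B
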