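import Crest.Agent.R192B.D0

/-! Row 192: `ENV2` (bad clusters are almost surely finite). -/

set_option autoImplicit false

open MeasureTheory Set ProbabilityTheory

namespace Crest.Agent.R192B

namespace ENV2

/-- events depending on disjoint finite sets of coordinates are independent -/
theorem indep_of_dep {Z : Type} {m : ℕ} (ν : Measure (Fin (m + 1))) [IsProbabilityMeasure ν]
    (S T : Finset Z) (hST : Disjoint S T) (P Q : (Z → Fin (m + 1)) → Prop)
    (hP : ∀ E E', (∀ y ∈ S, E y = E' y) → P E → P E')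
    (hQ : ∀ E E', (∀ y ∈ T, E y = E' y) → Q E → Q E') :
    Measure.infinitePi (fun _ : Z => ν) ({E | P E} ∩ {E | Q E}) =
      Measure.infinitePi (fun _ : Z => ν) {E | P E} *
        Measure.infinitePi (fun _ : Z => ν) {E | Q E} := by
  classical
  have hi : iIndepFun (fun (i : Z) (ω : Z → Fin (m + 1)) => ω i)
      (Measure.infinitePi (fun _ : Z => ν)) :=
    iIndepFun_infinitePi (X := fun _ ω => ω) (fun _ => measurable_id)
  have h2 := hi.indepFun_finset S T hST (fun i => measurable_pi_apply i)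
  have key : ∀ (U : Finset Z) (R : (Z → Fin (m + 1)) → Prop),
      (∀ E E', (∀ y ∈ U, E y = E' y) → R E → R E') →
      {E | R E} = (fun (a : Z → Fin (m + 1)) (i : U) => a i) ⁻¹'
        ((fun (a : Z → Fin (m + 1)) (i : U) => a i) '' {E | R E}) := by
    intro U R hR
    ext E
    constructor
    · intro h
      exact ⟨E, h, rfl⟩
    · rintro ⟨E', h, he⟩
      exact hR E' E (fun y hy => congrFun he ⟨y, hy⟩) h
  have := h2.measure_inter_preimage_eq_mul
    ((fun (a : Z → Fin (m + 1)) (i : S) => a i) '' {E | P E})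
    ((fun (a : Z → Fin (m + 1)) (i : T) => a i) '' {E | Q E})
    (Set.toFinite _).measurableSet (Set.toFinite _).measurableSet
  rw [← key S P hP, ← key T Q hQ] at this
  exact this

/-- pairwise far points are all bad with probability at most `p ^ #F` -/
theorem all_bad_le {Z : Type} {d : Z → Z → ℕ} {M D m : ℕ} {ν : Measure (Fin (m + 1))}
    {Good : (Z → Fin (m + 1)) → Z → Prop} {r : ℕ} (H : EnvH d M D m ν Good r) (F : Finset Z)
    (hF : ∀ u ∈ F, ∀ v ∈ F, u ≠ v → 2 * r < d u v) :
    Measure.infinitePi (fun _ : Z => ν) {E | ∀ v ∈ F, ¬ Good E v} ≤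
      ENNReal.ofReal (1 / (100 * (M : ℝ) ^ (10 * r))) ^ F.card := by
  classical
  haveI := H.prob
  have hr : r < D := by have := H.r_lt; omega
  choose B hBc hB using fun x => H.met.ball x r hr
  let N : Z → Finset Z := fun x => (B x).filter (fun y => d x y ≤ r)
  have hN : ∀ x y, y ∈ N x ↔ d x y ≤ r := by
    intro x y
    simp only [N, Finset.mem_filter]
    exact ⟨fun h => h.2, fun h => ⟨hB x y h, h⟩⟩
  induction F using Finset.induction_on with
  | empty => simp
  | insert a F ha ih =>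
    have hF' : ∀ u ∈ F, ∀ v ∈ F, u ≠ v → 2 * r < d u v := fun u hu v hv =>
      hF u (Finset.mem_insert_of_mem hu) v (Finset.mem_insert_of_mem hv)
    have hs : {E : Z → Fin (m + 1) | ∀ v ∈ insert a F, ¬ Good E v} =
        {E | ¬ Good E a} ∩ {E | ∀ v ∈ F, ¬ Good E v} := by
      ext E
      simp
    have hd : Disjoint (N a) (F.biUnion N) := by
      rw [Finset.disjoint_left]
      intro y hy hy'
      obtain ⟨v, hv, hyv⟩ := Finset.mem_biUnion.1 hy'
      have h1 := (hN _ _).1 hy
      have h2 := (hN _ _).1 hyv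
      have hne : a ≠ v := fun h => ha (h ▸ hv)
      have h3 := hF a (Finset.mem_insert_self _ _) v (Finset.mem_insert_of_mem hv) hne
      have h4 := H.met.tri a y v
      rw [H.met.symm y v] at h4
      omega
    rw [hs, indep_of_dep ν (N a) (F.biUnion N) hd, Finset.card_insert_of_notMem ha, pow_succ,
      mul_comm]
    · exact mul_le_mul' (ih hF') (H.rare a)
    · intro E E' h hE hE'
      exact hE ((H.loc E E' a (fun y hy => h y ((hN _ _).2 hy))).2 hE')
    · intro E E' h hE v hv hE'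
      refine hE v hv ((H.loc E E' v (fun y hy => h y ?_)).2 hE')
      exact Finset.mem_biUnion.2 ⟨v, hv, (hN _ _).2 hy⟩

/-- points reachable in at most `n` hops -/
def A {Z : Type} (R : Z → Z → Prop) (x : Z) : ℕ → Set Z
  | 0 => {x}
  | n + 1 => A R x n ∪ {v | ∃ u ∈ A R x n, R u v}

theorem A_mono {Z : Type} (R : Z → Z → Prop) (x : Z) : Monotone (A R x) :=
  monotone_nat_of_le_succ fun _ => subset_union_left

theorem A_finite {Z : Type} (R : Z → Z → Prop) (x : Z) (hR : ∀ u, {v | R u v}.Finite) (n : ℕ) :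
    (A R x n).Finite := by
  induction n with
  | zero => exact Set.finite_singleton x
  | succ n ih =>
    refine ih.union ((ih.biUnion (fun u _ => hR u)).subset ?_)
    rintro v ⟨u, hu, huv⟩
    exact Set.mem_biUnion hu huv

theorem mem_A_of_rtg {Z : Type} (R : Z → Z → Prop) (x y : Z) (h : Relation.ReflTransGen R x y) :
    ∃ n, y ∈ A R x n := by
  induction h with
  | refl => exact ⟨0, rfl⟩
  | tail _ hbc ih =>
    obtain ⟨n, hn⟩ := ih
    exact ⟨n + 1, Or.inr ⟨_, hn, hbc⟩⟩

/-- a new point at level `n + 2` comes from a new point at level `n + 1` -/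
theorem pred_new {Z : Type} (R : Z → Z → Prop) (x : Z) (n : ℕ) (y : Z)
    (h1 : y ∈ A R x (n + 2)) (h2 : y ∉ A R x (n + 1)) :
    ∃ u ∈ A R x (n + 1), u ∉ A R x n ∧ R u y := by
  rcases h1 with h1 | ⟨u, hu, huy⟩
  · exact absurd h1 h2
  · exact ⟨u, hu, fun hu' => h2 (Or.inr ⟨u, hu', huy⟩), huy⟩

theorem exists_new {Z : Type} (R : Z → Z → Prop) (x : Z) (hR : ∀ u, {v | R u v}.Finite)
    (hinf : ¬ {y | Relation.ReflTransGen R x y}.Finite) (n : ℕ) :
    ∃ y ∈ A R x (n + 1), y ∉ A R x n := by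
  by_contra hc
  push Not at hc
  apply hinf
  refine (A_finite R x hR n).subset ?_
  intro y hy
  have hx : x ∈ A R x n := A_mono R x (Nat.zero_le n) (show x ∈ A R x 0 from rfl)
  induction hy with
  | refl => exact hx
  | tail _ hbc ih => exact hc _ (Or.inr ⟨_, ih, hbc⟩)

open Classical in
/-- candidate chains: (last point, set of visited points) -/
noncomputable def St {Z : Type} (B : Z → Finset Z) (x : Z) : ℕ → Finset (Z × Finset Z)
  | 0 => {(x, ∅)}
  | k + 1 => (St B x k).biUnion (fun p => (B p.1).image (fun v => (v, insert v p.2)))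

theorem St_card {Z : Type} (B : Z → Finset Z) (x : Z) (K : ℕ) (hB : ∀ u, (B u).card ≤ K) (k : ℕ) :
    (St B x k).card ≤ K ^ k := by
  classical
  induction k with
  | zero => simp [St]
  | succ k ih =>
    rw [St]
    refine Finset.card_biUnion_le.trans ?_
    calc _ ≤ ∑ _p ∈ St B x k, K :=
          Finset.sum_le_sum fun p _ => Finset.card_image_le.trans (hB _)
      _ = (St B x k).card * K := by simp
      _ ≤ K ^ k * K := Nat.mul_le_mul_right _ ih
      _ = K ^ (k + 1) := (pow_succ _ _).symm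

theorem chain {Z : Type} {d : Z → Z → ℕ} {M D : ℕ} (hm : Met d M D) (bad : Z → Prop) (r : ℕ)
    (B : Z → Finset Z) (hB : ∀ u v, d u v ≤ 8 * r → v ∈ B u) (x : Z) (k : ℕ) :
    ∀ y, y ∈ A (fun u v => bad v ∧ d u v ≤ 4 * r) x (2 * k + 1) →
      y ∉ A (fun u v => bad v ∧ d u v ≤ 4 * r) x (2 * k) →
      ∃ F, (y, F) ∈ St B x (k + 1) ∧ F.card = k + 1 ∧
        (∀ v ∈ F, bad v ∧ v ∈ A (fun u v => bad v ∧ d u v ≤ 4 * r) x (2 * k + 1)) ∧
        ∀ u ∈ F, ∀ v ∈ F, u ≠ v → 2 * r < d u v := by
  classical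
  induction k with
  | zero =>
    intro y h1 h2
    rcases h1 with h1 | ⟨u, hu, huy⟩
    · exact absurd h1 h2
    · have hux : u = x := hu
      subst hux
      refine ⟨insert y ∅, ?_, by simp, ?_, by simp⟩
      · rw [St]
        refine Finset.mem_biUnion.2 ⟨(u, ∅), by simp [St], ?_⟩
        exact Finset.mem_image.2 ⟨y, hB u y (by have := huy.2; omega), rfl⟩
      · intro v hv
        have hvy : v = y := by simpa using hv
        subst hvy
        exact ⟨huy.1, Or.inr ⟨u, hu, huy⟩⟩
  | succ k ih =>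
    intro y h1 h2
    obtain ⟨u, hu1, hu2, huy⟩ := pred_new _ x (2 * k + 1) y h1 h2
    obtain ⟨w, hw1, hw2, hwu⟩ := pred_new _ x (2 * k) u hu1 hu2
    obtain ⟨F, hF1, hF2, hF3, hF4⟩ := ih w hw1 hw2
    have hfar : ∀ v ∈ F, 4 * r < d v y := by
      intro v hv
      by_contra hc
      exact h2 (Or.inr ⟨v, (hF3 v hv).2, huy.1, not_lt.1 hc⟩)
    have hyF : y ∉ F := by
      intro hy
      have := hfar y hy
      rw [hm.refl] at this
      omega
    refine ⟨insert y F, ?_, by rw [Finset.card_insert_of_notMem hyF, hF2], ?_, ?_⟩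
    · rw [St]
      refine Finset.mem_biUnion.2 ⟨(w, F), hF1, ?_⟩
      refine Finset.mem_image.2 ⟨y, hB w y ?_, rfl⟩
      have := hm.tri w u y
      have := hwu.2
      have := huy.2
      omega
    · intro v hv
      rcases Finset.mem_insert.1 hv with rfl | hv
      · exact ⟨huy.1, h1⟩
      · exact ⟨(hF3 v hv).1, A_mono _ x (by omega) (hF3 v hv).2⟩
    · intro a ha b hb hab
      rcases Finset.mem_insert.1 ha with ha' | ha' <;> rcases Finset.mem_insert.1 hb with hb' | hb'
      · exact absurd (ha'.trans hb'.symm) hab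
      · have := hfar b hb'
        rw [ha', hm.symm]
        omega
      · have := hfar a ha'
        rw [hb']
        omega
      · exact hF4 a ha' b hb' hab

end ENV2

open ENV2 in
theorem env2 : ENV2Stmt := by
  classical
  intro Z d M D m ν Good r H x
  haveI := H.prob
  have h8 : 8 * r < D := by have := H.r_lt; omega
  choose B hBc hB using fun u => H.met.ball u (8 * r) h8
  set μ := Measure.infinitePi (fun _ : Z => ν) with hμ
  set p : ℝ := 1 / (100 * (M : ℝ) ^ (10 * r)) with hp
  have hM : (1 : ℝ) ≤ M := by have := H.two; exact_mod_cast (by omega : 1 ≤ M)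
  have hp0 : 0 ≤ p := by positivity
  rw [ae_iff]
  have key : ∀ k : ℕ, μ {E | ¬ {y | Relation.ReflTransGen
      (fun u v => ¬ Good E v ∧ d u v ≤ 4 * r) x y}.Finite} ≤
        ENNReal.ofReal ((1 / 100 : ℝ) ^ (k + 1)) := by
    intro k
    let T := (St B x (k + 1)).filter
      (fun q => q.2.card = k + 1 ∧ ∀ u ∈ q.2, ∀ v ∈ q.2, u ≠ v → 2 * r < d u v)
    have hsub : {E | ¬ {y | Relation.ReflTransGen
        (fun u v => ¬ Good E v ∧ d u v ≤ 4 * r) x y}.Finite} ⊆
          ⋃ q ∈ T, {E | ∀ v ∈ q.2, ¬ Good E v} := by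
      intro E hE
      have hR : ∀ u, {v | ¬ Good E v ∧ d u v ≤ 4 * r}.Finite := fun u =>
        (B u).finite_toSet.subset fun v hv => hB u v (by have := hv.2; omega)
      obtain ⟨y, hy1, hy2⟩ := exists_new _ x hR hE (2 * k)
      obtain ⟨F, hF1, hF2, hF3, hF4⟩ := chain H.met (fun v => ¬ Good E v) r B hB x k y hy1 hy2
      exact Set.mem_biUnion (x := (y, F))
        (Finset.mem_coe.2 (Finset.mem_filter.2 ⟨hF1, hF2, hF4⟩)) (fun v hv => (hF3 v hv).1)
    refine (measure_mono hsub).trans ((measure_biUnion_finset_le _ _).trans ?_)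
    have h1 : ∀ q ∈ T, μ {E | ∀ v ∈ q.2, ¬ Good E v} ≤ ENNReal.ofReal (p ^ (k + 1)) := by
      intro q hq
      have hq' := (Finset.mem_filter.1 hq).2
      have := all_bad_le H q.2 hq'.2
      rw [hq'.1, ← ENNReal.ofReal_pow hp0] at this
      exact this
    refine (Finset.sum_le_card_nsmul _ _ _ h1).trans ?_
    have h2 : (T.card : ℝ) ≤ ((M : ℝ) ^ (8 * r)) ^ (k + 1) := by
      have := (Finset.card_filter_le (St B x (k + 1)) _ : T.card ≤ _).trans
        (St_card B x _ hBc (k + 1))
      exact_mod_cast this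
    rw [nsmul_eq_mul, ← ENNReal.ofReal_natCast, ← ENNReal.ofReal_mul (Nat.cast_nonneg _)]
    apply ENNReal.ofReal_le_ofReal
    calc (T.card : ℝ) * p ^ (k + 1) ≤ ((M : ℝ) ^ (8 * r)) ^ (k + 1) * p ^ (k + 1) := by gcongr
      _ = ((M : ℝ) ^ (8 * r) * p) ^ (k + 1) := by rw [mul_pow]
      _ ≤ (1 / 100 : ℝ) ^ (k + 1) := by
          apply pow_le_pow_left₀ (by positivity)
          have h3 : (M : ℝ) ^ (8 * r) ≤ (M : ℝ) ^ (10 * r) := pow_le_pow_right₀ hM (by omega)
          have h4 : (0 : ℝ) < (M : ℝ) ^ (10 * r) := by positivity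
          rw [hp, mul_one_div, div_le_div_iff₀ (by positivity) (by norm_num)]
          nlinarith
  have hlim : Filter.Tendsto (fun k : ℕ => ENNReal.ofReal ((1 / 100 : ℝ) ^ (k + 1)))
      Filter.atTop (nhds 0) := by
    have h := (tendsto_pow_atTop_nhds_zero_of_lt_one (r := (1 / 100 : ℝ)) (by norm_num)
      (by norm_num)).comp (Filter.tendsto_add_atTop_nat 1)
    have := ENNReal.tendsto_ofReal h
    simpa using this
  exact le_antisymm (ge_of_tendsto' hlim key) bot_le

end Crest.Agent.R192B
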