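import Crest.Agent.R192B.D2

/-! Row 192: equivariance of the total form. -/

set_option autoImplicit false

open MeasureTheory Set

namespace Crest.Agent.R192B
namespace EQV

section Z
variable {Z : Type}

theorem fm_map (d : Z → Z → ℕ) (σ : Z ≃ Z) (hσ : ∀ x y, d (σ x) (σ y) = d x y) (ν : Z →₀ ℝ)
    (x : Z) : fm d (Finsupp.equivMapDomain σ ν) (σ x) = fm d ν x := by
  unfold fm
  rw [Finsupp.sum_equivMapDomain]
  simp only [hσ]

theorem isPr_map (σ : Z ≃ Z) (ν : Z →₀ ℝ) (h : IsPr ν) : IsPr (Finsupp.equivMapDomain σ ν) := by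
  refine ⟨fun y => ?_, ?_⟩
  · rw [Finsupp.equivMapDomain_apply]; exact h.1 _
  · rw [Finsupp.sum_equivMapDomain]; exact h.2

theorem good_of (d : Z → Z → ℕ) (X J m : ℕ) (a : ℝ) (σ : Z ≃ Z)
    (hσ : ∀ x y, d (σ x) (σ y) = d x y) (E : Z → Fin (m + 1)) (x : Z)
    (h : GoodQ d X J a (E ∘ σ.symm) (σ x)) : GoodQ d X J a E x := by
  intro ν hν hx A hA
  have key := h (Finsupp.equivMapDomain σ ν) (isPr_map σ ν hν)
    (by rw [fm_map d σ hσ]; exact hx) (A.map σ.toEmbedding) ?_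
  · simpa using key
  intro x' hx'
  obtain ⟨u, hu, rfl⟩ := Finset.mem_map.1 hx'
  have hu' := hA u hu
  refine ⟨?_, fun x'' hx'' => ?_⟩
  · show d (σ x) (σ u) ≤ _
    rw [hσ]; exact hu'.1
  · obtain ⟨v, rfl⟩ := σ.surjective x''
    rw [hσ] at hx''
    have := hu'.2 v hx''
    show fm d _ (σ u) - a * (((E ∘ σ.symm) (σ u) : ℕ) : ℝ) ≤ _
    rw [fm_map d σ hσ, fm_map d σ hσ]
    simpa using this

theorem good_iff (d : Z → Z → ℕ) (X J m : ℕ) (a : ℝ) (σ : Z ≃ Z)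
    (hσ : ∀ x y, d (σ x) (σ y) = d x y) (E : Z → Fin (m + 1)) (x : Z) :
    GoodQ d X J a (E ∘ σ.symm) (σ x) ↔ GoodQ d X J a E x := by
  refine ⟨good_of d X J m a σ hσ E x, fun h => ?_⟩
  refine good_of d X J m a σ.symm (fun x y => ?_) (E ∘ σ.symm) (σ x) ?_
  · rw [← hσ]; simp
  · have e : (E ∘ σ.symm) ∘ σ.symm.symm = E := by
      funext u; simp
    rw [e, Equiv.symm_apply_apply]; exact h

theorem fK_map (d : Z → Z → ℕ) (σ : Z ≃ Z) (hσ : ∀ x y, d (σ x) (σ y) = d x y) (K : ℝ → ℝ)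
    {n : ℕ} (p : Fin (n + 1) → Z) (z : Z) :
    fK d K (fun j => σ (p j)) (σ z) = fK d K p z := by
  unfold fK
  simp only [hσ]

theorem GK_map (d : Z → Z → ℕ) (σ : Z ≃ Z) (hσ : ∀ x y, d (σ x) (σ y) = d x y) (K K' : ℝ → ℝ)
    (X : ℝ) {n : ℕ} (p : Fin (n + 1) → Z) (z : Z) :
    GK d K K' X (fun j => σ (p j)) (σ z) = GK d K K' X p z := by
  unfold GK
  simp only [hσ]

theorem mz_map (d : Z → Z → ℕ) (σ : Z ≃ Z) (hσ : ∀ x y, d (σ x) (σ y) = d x y) (ρ₀ : ℕ) (L : ℝ)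
    {n : ℕ} (p : Fin (n + 1) → Z) (z : Z) :
    mz d ρ₀ L (fun j => σ (p j)) (σ z) = mz d ρ₀ L p z := by
  funext t
  unfold mz
  simp only [hσ]

theorem UF_map (σ : Z ≃ Z) (β X : ℝ) {n : ℕ} (f f' f₁ f₁' : Z → Fn n)
    (h : ∀ z, f₁ (σ z) = f z) (h' : ∀ z, f₁' (σ z) = f' z) (z : Z) :
    UF β X f₁ f₁' (σ z) = UF β X f f' z := by
  funext s t
  unfold UF
  have e : (∑ᶠ z', psiF β X (f₁ z' s t)) = ∑ᶠ z', psiF β X (f z' s t) := by
    rw [← finsum_comp_equiv σ]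
    simp only [h]
  rw [e, h, h']

theorem AF_map (d : Z → Z → ℕ) (σ : Z ≃ Z) (hσ : ∀ x y, d (σ x) (σ y) = d x y) (L β X : ℝ)
    (K K' : ℝ → ℝ) {n : ℕ} (p : Fin (n + 1) → Z) :
    AF d L β X K K' (fun j => σ (p j)) = AF d L β X K K' p := by
  funext t
  unfold AF
  rw [← finsum_comp_equiv σ]
  refine finsum_congr fun z => ?_
  rw [UF_map σ β X (fK d K p) (fK d K' p) _ _ (fK_map d σ hσ K p) (fK_map d σ hσ K' p),
    GK_map d σ hσ]

theorem wQ_map (d : Z → Z → ℕ) (σ : Z ≃ Z) (hσ : ∀ x y, d (σ x) (σ y) = d x y) (X J : ℕ) (a : ℝ)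
    {m : ℕ} (E : Z → Fin (m + 1)) {n : ℕ} (f f₁ : Z → Fn n) (h : ∀ z, f₁ (σ z) = f z) (x : Z) :
    wQ d X J a (E ∘ σ.symm) f₁ (σ x) = wQ d X J a E f x := by
  funext s t
  unfold wQ
  have e : (∑ᶠ x', ST (2 * X + 2 - f₁ x' s t) *
      ST (((f₁ (σ x) s t - a * (((E ∘ σ.symm) (σ x) : ℕ) : ℝ)) -
        (f₁ x' s t - a * (((E ∘ σ.symm) x' : ℕ) : ℝ))) / a)) =
      ∑ᶠ x', ST (2 * X + 2 - f x' s t) *
      ST (((f x s t - a * ((E x : ℕ) : ℝ)) - (f x' s t - a * ((E x' : ℕ) : ℝ))) / a) := by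
    rw [← finsum_comp_equiv σ]
    simp only [h, Function.comp_apply, Equiv.symm_apply_apply]
  have e' : GoodQ d X J a (E ∘ σ.symm) (σ x) = GoodQ d X J a E x :=
    propext (good_iff d X J m a σ hσ E x)
  rw [e, h, e']

theorem AQ_map (d : Z → Z → ℕ) (σ : Z ≃ Z) (hσ : ∀ x y, d (σ x) (σ y) = d x y) (L : ℝ)
    (X J : ℕ) (a : ℝ) {m : ℕ} (E : Z → Fin (m + 1)) (K : ℝ → ℝ) {n : ℕ} (p : Fin (n + 1) → Z) :
    AQ d L X J a (E ∘ σ.symm) K (fun j => σ (p j)) = AQ d L X J a E K p := by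
  funext t
  unfold AQ
  rw [← finsum_comp_equiv σ]
  refine finsum_congr fun z => ?_
  rw [wQ_map d σ hσ X J a E (fK d K p) _ (fK_map d σ hσ K p)]

end Z

variable {G : Type} [Group G]

theorem tw_zpow (g : G) (Ψ : G → G → ℂ) (ϑ : G → ℝ)
    (tw : ∀ x y, Ψ x (g * y) = Complex.exp (ϑ x * Complex.I) * Ψ x y) (x : G) (k : ℤ) :
    ∃ c : ℂ, ‖c‖ = 1 ∧ ∀ y, Ψ x (g ^ k * y) = c * Ψ x y := by
  have hn : ‖Complex.exp (ϑ x * Complex.I)‖ = 1 := Complex.norm_exp_ofReal_mul_I _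
  have hne : Complex.exp (ϑ x * Complex.I) ≠ 0 := Complex.exp_ne_zero _
  induction k using Int.induction_on with
  | zero => exact ⟨1, by simp, fun y => by simp⟩
  | succ i ih =>
    obtain ⟨c, hc, h⟩ := ih
    refine ⟨c * Complex.exp (ϑ x * Complex.I), by rw [norm_mul, hc, hn, one_mul], fun y => ?_⟩
    rw [zpow_add_one, mul_assoc, h, tw, mul_assoc]
  | pred i ih =>
    obtain ⟨c, hc, h⟩ := ih
    refine ⟨c * (Complex.exp (ϑ x * Complex.I))⁻¹,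
      by rw [norm_mul, norm_inv, hc, hn, one_mul, inv_one], fun y => ?_⟩
    have e : Ψ x y = Complex.exp (ϑ x * Complex.I) * Ψ x (g⁻¹ * y) := by
      rw [← tw, mul_inv_cancel_left]
    rw [zpow_sub_one, mul_assoc, h, e, mul_assoc, inv_mul_cancel_left₀ hne]

theorem AZ_map (hMET : METStmt) (hAZA : AZAStmt) (S : Finset G) (M D : ℕ) (len : G → ℕ) (g : G)
    (ρ₀ ρ₁ : ℕ) (γ c₀ L : ℝ) (Ψ : G → G → ℂ) (ϑ : G → ℝ) (hlen : IsLen S M D len)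
    (hΨ : IsPsi S len g ρ₁ γ c₀ Ψ ϑ) (h : G) (σ : Zq g ≃ Zq g) (hh : Commute h g)
    (hσ : ∀ z z', dq g len (σ z) (σ z') = dq g len z z') (hp : ∀ y, σ (pZ g y) = pZ g (h * y))
    {n : ℕ} (y : Fin (n + 1) → G) :
    AZ g len L ρ₀ Ψ ϑ (fun i => h * y i) = AZ g len L ρ₀ Ψ ϑ y := by
  funext t
  unfold AZ
  rw [← finsum_comp_equiv σ]
  refine finsum_congr fun z => ?_
  have e1 : (fun j => pZ g (h * y j)) = fun j => σ (pZ g (y j)) := by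
    funext j; rw [hp]
  rw [e1, mz_map (dq g len) σ hσ]
  congr 1
  obtain ⟨k, hk⟩ := (hMET G S M D len g hlen).2.2.1 (σ z)
  have hz : pZ g (h * z.out) = σ z := by
    rw [← hp]
    congr 1
    exact Quotient.out_eq z
  have e2 := hk _ hz
  set κ := k (h * z.out) with hκ
  have e3 : (σ z).out = ((g ^ κ)⁻¹ * h) * z.out := by
    rw [mul_assoc, e2, inv_mul_cancel_left]
  have hc : Commute ((g ^ κ)⁻¹ * h) g :=
    Commute.mul_left (Commute.inv_left ((Commute.refl g).zpow_left κ)) hh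
  have e4 : ϑ (σ z).out = ϑ z.out := by
    rw [e3]; exact hΨ.eqϑ _ _ hc
  obtain ⟨c, hc1, hc2⟩ := tw_zpow g Ψ ϑ hΨ.tw z.out κ
  have e5 : (fun j => Ψ (σ z).out (h * y j)) = fun j => c * Ψ z.out (y j) := by
    funext j
    have e6 : h * y j = ((g ^ κ)⁻¹ * h) * (g ^ κ * y j) := by
      have hcm : h * g ^ κ = g ^ κ * h := (hh.zpow_right κ).eq
      rw [mul_assoc, ← mul_assoc h, hcm, mul_assoc, inv_mul_cancel_left]
    rw [e3, e6, hΨ.eqΨ _ _ _ hc, hc2]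
  rw [e4, e5, ((hAZA L (ϑ z.out) n).1 (fun j => Ψ z.out (y j))).2.2 c hc1]

end EQV

theorem eqv : METStmt → AZAStmt → EQVStmt := by
  intro hMET hAZA
  refine ⟨fun Z d X J m a σ hσ E x => EQV.good_iff d X J m a σ hσ E x, ?_⟩
  intro G _ S M D len g X0 I C ρ₀ ρ₁ m a γ c₀ L Ks Ψ ϑ hlen hΨ h σ hh hσ hp w n y
  funext t
  unfold Atot
  have e1 : (fun j => pZ g (h * y j)) = fun j => σ (pZ g (y j)) := by
    funext j; rw [hp]
  rw [EQV.AZ_map hMET hAZA S M D len g ρ₀ ρ₁ γ c₀ L Ψ ϑ hlen hΨ h σ hh hσ hp y, e1]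
  simp only [EQV.AF_map (dq g len) σ hσ, EQV.AQ_map (dq g len) σ hσ]

end Crest.Agent.R192B
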