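import Crest.Agent.R192B.D1

/-! Row 192: `EV` (algebra of the evaluation of forms on lists of vectors). -/

set_option autoImplicit false

namespace Crest.Agent.R192B

namespace EV

variable {n : ℕ}

theorem dot_apply (w u : Fin n → ℝ) : dot w u = ∑ i, w i * u i := by
  simp [dot]

theorem cn_io_mul (u w : Fin n → ℝ) (α : Ext n) :
    cn w (io u * α) = (∑ i, w i * u i) • α - io u * cn w α := by
  rw [← dot_apply]
  exact CliffordAlgebra.contractLeft_ι_mul (Q := (0 : QuadraticForm ℝ (Fin n → ℝ))) (dot w) u α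

theorem cn_alg (w : Fin n → ℝ) (r : ℝ) : cn w (algebraMap ℝ (Ext n) r) = 0 :=
  CliffordAlgebra.contractLeft_algebraMap (0 : QuadraticForm ℝ (Fin n → ℝ)) (dot w) r

theorem cn_cn (w : Fin n → ℝ) (α : Ext n) : cn w (cn w α) = 0 :=
  CliffordAlgebra.contractLeft_contractLeft (Q := (0 : QuadraticForm ℝ (Fin n → ℝ))) (dot w) α

theorem cn_comm (w w' : Fin n → ℝ) (α : Ext n) : cn w (cn w' α) = -cn w' (cn w α) :=
  CliffordAlgebra.contractLeft_comm (Q := (0 : QuadraticForm ℝ (Fin n → ℝ))) (dot w) (dot w') α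

theorem dot_add (w w' : Fin n → ℝ) : dot (w + w') = dot w + dot w' := by
  ext u
  simp [dot, add_smul, Finset.sum_add_distrib]

theorem cn_add (w w' : Fin n → ℝ) (α : Ext n) : cn (w + w') α = cn w α + cn w' α := by
  unfold cn
  rw [dot_add, map_add, LinearMap.add_apply]

theorem cn_zero (α : Ext n) : cn (0 : Fin n → ℝ) α = 0 := by
  have := cn_add (0 : Fin n → ℝ) 0 α
  rw [add_zero] at this
  exact left_eq_add.1 this

theorem cn_sum {ι : Type} (s : Finset ι) (w : ι → Fin n → ℝ) (α : Ext n) :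
    cn (∑ i ∈ s, w i) α = ∑ i ∈ s, cn (w i) α := by
  classical
  induction s using Finset.induction_on with
  | empty => simp [cn_zero]
  | insert a s ha ih => rw [Finset.sum_insert ha, Finset.sum_insert ha, cn_add, ih]

theorem evL_cons (w : Fin n → ℝ) (l : List (Fin n → ℝ)) (α : Ext n) :
    evL (w :: l) α = evL l (cn w α) := rfl

theorem evL_nil (α : Ext n) :
    evL [] α = (ExteriorAlgebra.algebraMapInv : Ext n →ₐ[ℝ] ℝ) α := rfl

theorem inv_io (u : Fin n → ℝ) :
    (ExteriorAlgebra.algebraMapInv : Ext n →ₐ[ℝ] ℝ) (io u) = 0 := by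
  simp [ExteriorAlgebra.algebraMapInv]

theorem evL_move (l₁ l₂ : List (Fin n → ℝ)) (w : Fin n → ℝ) (α : Ext n) :
    evL (l₁ ++ w :: l₂) α = (-1) ^ l₁.length * evL (w :: (l₁ ++ l₂)) α := by
  induction l₁ generalizing α with
  | nil => simp
  | cons a l ih =>
    rw [List.cons_append, evL_cons, ih, evL_cons, cn_comm, map_neg, List.cons_append, evL_cons,
      evL_cons, List.length_cons, pow_succ]
    ring

theorem evL_io_mul (l : List (Fin n → ℝ)) (u : Fin n → ℝ) (h : ∀ w ∈ l, ∑ i, w i * u i = 0)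
    (β : Ext n) : evL l (io u * β) = 0 := by
  induction l generalizing β with
  | nil => rw [evL_nil, map_mul, inv_io, zero_mul]
  | cons a l ih =>
    rw [evL_cons, cn_io_mul, h a (List.mem_cons_self ..), zero_smul, zero_sub, map_neg,
      ih (fun w hw => h w (List.mem_cons_of_mem _ hw)), neg_zero]

theorem sort_split (T : Finset (Fin n)) (i : Fin n) (hi : i ∈ T) :
    T.sort (· ≤ ·) =
      (T.filter (· < i)).sort (· ≤ ·) ++ i :: (T.filter (i < ·)).sort (· ≤ ·) := by
  refine (Finset.sortedLT_sort T).pairwise.eq_of_mem_iff ?_ ?_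
  · rw [List.pairwise_append, List.pairwise_cons]
    refine ⟨(Finset.sortedLT_sort _).pairwise, ⟨?_, (Finset.sortedLT_sort _).pairwise⟩, ?_⟩
    · intro a ha
      exact (Finset.mem_filter.1 ((Finset.mem_sort _).1 ha)).2
    · intro a ha b hb
      have h1 := (Finset.mem_filter.1 ((Finset.mem_sort _).1 ha)).2
      rcases List.mem_cons.1 hb with rfl | hb
      · exact h1
      · exact h1.trans (Finset.mem_filter.1 ((Finset.mem_sort _).1 hb)).2
  · intro a
    simp only [Finset.mem_sort, List.mem_append, List.mem_cons, Finset.mem_filter]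
    constructor
    · intro ha
      rcases lt_trichotomy a i with h | h | h
      · exact Or.inl ⟨ha, h⟩
      · exact Or.inr (Or.inl h)
      · exact Or.inr (Or.inr ⟨ha, h⟩)
    · rintro (h | rfl | h)
      · exact h.1
      · exact hi
      · exact h.1

theorem sort_erase (T : Finset (Fin n)) (i : Fin n) :
    (T.erase i).sort (· ≤ ·) =
      (T.filter (· < i)).sort (· ≤ ·) ++ (T.filter (i < ·)).sort (· ≤ ·) := by
  refine (Finset.sortedLT_sort _).pairwise.eq_of_mem_iff ?_ ?_
  · rw [List.pairwise_append]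
    refine ⟨(Finset.sortedLT_sort _).pairwise, (Finset.sortedLT_sort _).pairwise, ?_⟩
    intro a ha b hb
    exact (Finset.mem_filter.1 ((Finset.mem_sort _).1 ha)).2.trans
      (Finset.mem_filter.1 ((Finset.mem_sort _).1 hb)).2
  · intro a
    simp only [Finset.mem_sort, List.mem_append, Finset.mem_filter, Finset.mem_erase]
    constructor
    · rintro ⟨hne, ha⟩
      rcases lt_or_gt_of_ne hne with h | h
      · exact Or.inl ⟨ha, h⟩
      · exact Or.inr ⟨ha, h⟩
    · rintro (h | h)
      · exact ⟨h.2.ne, h.1⟩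
      · exact ⟨h.2.ne', h.1⟩

theorem dirs_eq (T : Finset (Fin n)) (i : Fin n) (hi : i ∈ T) (α : Ext n) :
    evL (dirs T) α = (-1) ^ rk T i * evL (ee i :: dirs (T.erase i)) α := by
  unfold dirs
  rw [sort_split T i hi, sort_erase, List.map_append, List.map_cons, evL_move, List.map_append,
    List.length_map, Finset.length_sort, rk]

theorem erase_eq (T : Finset (Fin n)) (i : Fin n) (α : Ext n) (hi : i ∈ T) :
    evL (ee i :: dirs (T.erase i)) α = (-1) ^ rk T i * evL (dirs T) α := by
  rw [dirs_eq T i hi, ← mul_assoc, ← mul_pow]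
  simp

theorem rep_zero (T : Finset (Fin n)) (i : Fin n) (α : Ext n) (hi : i ∈ T) :
    evL (ee i :: dirs T) α = 0 := by
  rw [evL_cons, dirs_eq T i hi, evL_cons, cn_cn, map_zero, mul_zero]

theorem dirs_io (T : Finset (Fin n)) (i : Fin n) (hi : i ∉ T) (β : Ext n) :
    evL (dirs T) (io (ee i) * β) = 0 := by
  apply evL_io_mul
  intro w hw
  obtain ⟨k, hk, rfl⟩ := List.mem_map.1 hw
  have hk' : k ∈ T := (Finset.mem_sort _).1 hk
  have hne : k ≠ i := fun h => hi (h ▸ hk')
  refine Finset.sum_eq_zero fun l _ => ?_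
  by_cases h : l = k
  · subst h
    simp [hne]
  · simp [h]

theorem dirs_sum (T : Finset (Fin n)) (β : Fin n → Ext n) :
    evL (dirs T) (∑ i, io (ee i) * β i) =
      ∑ i ∈ T, (-1) ^ rk T i * evL (dirs (T.erase i)) (β i) := by
  rw [map_sum, ← Finset.sum_subset (Finset.subset_univ T) (fun i _ hi => dirs_io T i hi _)]
  refine Finset.sum_congr rfl fun i hi => ?_
  have h1 : ∑ l, (ee i : Fin n → ℝ) l * (ee i : Fin n → ℝ) l = 1 := by
    rw [Finset.sum_eq_single i]
    · simp
    · intro l _ hl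
      simp [hl]
    · simp
  rw [dirs_eq T i hi, evL_cons, cn_io_mul, h1, one_smul, map_sub,
    dirs_io _ i (Finset.notMem_erase i T), sub_zero]

theorem cn_map {m : ℕ} (φ : (Fin n → ℝ) →ₗ[ℝ] (Fin m → ℝ)) (ψ : (Fin m → ℝ) → (Fin n → ℝ))
    (h : ∀ u w, ∑ i, w i * φ u i = ∑ i, ψ w i * u i) (w : Fin m → ℝ) (α : Ext n) :
    cn w (ExteriorAlgebra.map φ α) = ExteriorAlgebra.map φ (cn (ψ w) α) := by
  induction α using CliffordAlgebra.left_induction with
  | algebraMap r => rw [AlgHom.commutes, cn_alg, cn_alg, map_zero]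
  | add x y hx hy => rw [map_add, map_add, hx, hy, map_add, map_add]
  | ι_mul x u hx =>
    change cn w (ExteriorAlgebra.map φ (io u * x)) = ExteriorAlgebra.map φ (cn (ψ w) (io u * x))
    rw [map_mul, ExteriorAlgebra.map_apply_ι, cn_io_mul, cn_io_mul, hx, map_sub, map_smul,
      map_mul, ExteriorAlgebra.map_apply_ι, h]

theorem inv_map {m : ℕ} (φ : (Fin n → ℝ) →ₗ[ℝ] (Fin m → ℝ)) (α : Ext n) :
    evL [] (ExteriorAlgebra.map φ α) = evL [] α := by
  rw [evL_nil, evL_nil]
  induction α using CliffordAlgebra.left_induction with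
  | algebraMap r => rw [AlgHom.commutes, AlgHom.commutes, AlgHom.commutes]
  | add x y hx hy => rw [map_add, map_add, hx, hy, map_add]
  | ι_mul x u _ =>
    change ExteriorAlgebra.algebraMapInv (ExteriorAlgebra.map φ (io u * x)) =
      ExteriorAlgebra.algebraMapInv (io u * x)
    rw [map_mul, ExteriorAlgebra.map_apply_ι, map_mul, map_mul, inv_io, inv_io, zero_mul, zero_mul]

theorem evL_map {m : ℕ} (φ : (Fin n → ℝ) →ₗ[ℝ] (Fin m → ℝ)) (ψ : (Fin m → ℝ) → (Fin n → ℝ))
    (h : ∀ u w, ∑ i, w i * φ u i = ∑ i, ψ w i * u i) (l : List (Fin m → ℝ)) (α : Ext n) :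
    evL l (ExteriorAlgebra.map φ α) = evL (l.map ψ) α := by
  induction l generalizing α with
  | nil => exact inv_map φ α
  | cons w l ih => rw [evL_cons, cn_map φ ψ h, ih, List.map_cons, evL_cons]

end EV

open EV in
theorem ev : EVStmt := by
  intro n
  refine ⟨cn_io_mul, fun l w w' α => ?_, fun l α => ?_, rep_zero, erase_eq, dirs_sum,
    fun m φ ψ h l α => evL_map φ ψ h l α⟩
  · rw [evL_cons, cn_add, map_add, evL_cons, evL_cons]
  · have h1 : (fun _ => 1 : Fin n → ℝ) = ∑ i, ee i := by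
      ext l
      simp [Finset.sum_apply, Pi.single_apply]
    rw [evL_cons, h1, cn_sum, map_sum]
    rfl

end Crest.Agent.R192B
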