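import Crest.Agent.R192B.D1

set_option autoImplicit false

open Filter Topology

namespace Crest.Agent.R192B

open Crest.Agent.R192 (Mat nrm trC nrmE approx nrm_nonneg nrmE_nonneg)

theorem fin_supp {G : Type} [Group G] {q : ℕ} (a : Mat G q) : ∃ S : Finset G, Supp S a := by
  classical
  refine ⟨Finset.univ.biUnion fun i => Finset.univ.biUnion fun j =>
    (a i j).coeff.support ∪ ((a * a) i j).coeff.support, fun x => ⟨fun h => ?_, fun h => ?_⟩⟩
  · by_contra hx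
    refine h (Matrix.ext fun i j => ?_)
    by_contra hne
    refine hx (Finset.mem_biUnion.mpr ⟨i, Finset.mem_univ _, Finset.mem_biUnion.mpr
      ⟨j, Finset.mem_univ _, Finset.mem_union_left _ (Finsupp.mem_support_iff.mpr hne)⟩⟩)
  · by_contra hx
    refine h (Matrix.ext fun i j => ?_)
    by_contra hne
    refine hx (Finset.mem_biUnion.mpr ⟨i, Finset.mem_univ _, Finset.mem_biUnion.mpr
      ⟨j, Finset.mem_univ _, Finset.mem_union_right _ (Finsupp.mem_support_iff.mpr hne)⟩⟩)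

theorem fin_ : WRAPStmt → ALGStmt → CONNStmt → FINStmt := by
  intro hW hA hC G _ q e he
  obtain ⟨a, ha1, ha2, ha3⟩ := approx he (1 / 32) (by norm_num)
  obtain ⟨S, hS⟩ := fin_supp a
  have hE := nrmE_nonneg e
  have ha0 := nrm_nonneg a
  have hη : (0 : ℝ) < 1 / 32 / (nrmE e + 1) ^ 2 := by positivity
  have hηa : 1 / 32 / (nrmE e + 1) ^ 2 * nrm a ^ 2 ≤ 1 / 32 := by
    rw [div_mul_eq_mul_div, div_le_iff₀ (by positivity)]
    have : nrm a ^ 2 ≤ (nrmE e + 1) ^ 2 := pow_le_pow_left₀ ha0 (by linarith) 2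
    linarith
  obtain ⟨𝒮, h𝒮, hg⟩ := hC G S _ hη
  have key : ∀ g : G, (∀ x : G, x⁻¹ * g * x ∉ 𝒮) →
      Crest.AlgebraR.L1.classTrace e (ConjClasses.mk g).carrier = 0 := by
    intro g hgx
    obtain ⟨K₀, N₀, hN⟩ := hg g hgx
    have hlim : Tendsto (fun N : ℕ => 8 * K₀ * nrm a * ((N : ℝ) ^ (K₀ + 1) * (1 / 2) ^ N) +
        6 * ((N : ℝ) ^ 1 * (1 / 8) ^ N)) atTop (𝓝 (8 * K₀ * nrm a * 0 + 6 * 0)) :=
      ((tendsto_pow_const_mul_const_pow_of_abs_lt_one (K₀ + 1)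
        (by norm_num : |(1 / 2 : ℝ)| < 1)).const_mul _).add
        ((tendsto_pow_const_mul_const_pow_of_abs_lt_one 1
          (by norm_num : |(1 / 8 : ℝ)| < 1)).const_mul _)
    simp only [mul_zero, add_zero] at hlim
    refine norm_le_zero_iff.mp (ge_of_tendsto hlim ?_)
    filter_upwards [eventually_ge_atTop N₀, eventually_ge_atTop 1] with N hN0 hN1
    obtain ⟨p, c, hp0, hp1, hp, hc, hb⟩ := hA N hN1
    have h1 := hb G q S (ConjClasses.mk g) _ _ (1 / 32) a (hW G S g N _ _ (hN N hN0)) hS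
      (by positivity) hη.le hηa ha2
    have h2 := ha3 (ConjClasses.mk g) p c N hp0 hp1 hp
    have hN1' : (1 : ℝ) ≤ N := by exact_mod_cast hN1
    have h3 : ‖Crest.AlgebraR.L1.classTrace e (ConjClasses.mk g).carrier‖ ≤
        ‖trC (ConjClasses.mk g).carrier (Polynomial.aeval a p)‖ +
        ‖trC (ConjClasses.mk g).carrier (Polynomial.aeval a p) -
          Crest.AlgebraR.L1.classTrace e (ConjClasses.mk g).carrier‖ := by
      have := norm_sub_le (trC (ConjClasses.mk g).carrier (Polynomial.aeval a p))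
        (trC (ConjClasses.mk g).carrier (Polynomial.aeval a p) -
          Crest.AlgebraR.L1.classTrace e (ConjClasses.mk g).carrier)
      simpa using this
    have h4 : 4 * (K₀ * (N : ℝ) ^ K₀) * nrm a * (N + 1) * (16 * (1 / 32)) ^ N ≤
        8 * K₀ * nrm a * ((N : ℝ) ^ (K₀ + 1) * (1 / 2) ^ N) := by
      have e1 : (16 * (1 / 32) : ℝ) = 1 / 2 := by norm_num
      rw [e1]
      calc 4 * (K₀ * (N : ℝ) ^ K₀) * nrm a * (N + 1) * (1 / 2) ^ N
          ≤ 4 * (K₀ * (N : ℝ) ^ K₀) * nrm a * (2 * N) * (1 / 2) ^ N := by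
            gcongr; linarith
        _ = _ := by ring
    have h5 : 2 * (‖c‖ * (1 / 32 : ℝ) ^ N) ≤ 6 * ((N : ℝ) ^ 1 * (1 / 8) ^ N) := by
      have e1 : (1 / 8 : ℝ) ^ N = 4 ^ N * (1 / 32) ^ N := by rw [← mul_pow]; norm_num
      calc 2 * (‖c‖ * (1 / 32 : ℝ) ^ N) ≤ 2 * ((2 * N + 1) * 4 ^ N * (1 / 32 : ℝ) ^ N) := by gcongr
        _ ≤ 2 * ((3 * N) * 4 ^ N * (1 / 32 : ℝ) ^ N) := by gcongr; linarith
        _ = _ := by rw [e1]; ring
    linarith
  refine ⟨(𝒮.finite_toSet.image ConjClasses.mk).subset fun C hC0 => ?_, fun g hg0 => key g ?_⟩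
  · obtain ⟨g, rfl⟩ := ConjClasses.mk_surjective C
    by_contra hn
    refine hC0 (key g fun x hx => hn ⟨x⁻¹ * g * x, hx, ?_⟩)
    rw [ConjClasses.mk_eq_mk_iff_isConj, isConj_iff]
    exact ⟨x, by group⟩
  · intro x hx
    refine hg0 (IsConj.isOfFinOrder (x := x⁻¹ * g * x) ?_ (h𝒮 _ hx))
    rw [isConj_iff]
    exact ⟨x, by group⟩

end Crest.Agent.R192B
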