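import Crest.Agent.R192B.D2

/-! Row 192, task FRMC. -/

set_option autoImplicit false

open MeasureTheory Set
open scoped ContDiff

namespace Crest.Agent.R192B

namespace FRMC

/-- `pb i` as a linear map -/
noncomputable def pbL {n : ℕ} (i : Fin n) : (Fin (n + 1) → ℝ) →ₗ[ℝ] (Fin n → ℝ) where
  toFun := pb i
  map_add' u v := by
    funext l
    simp only [pb, Fin.contractNth, Pi.add_apply]
    split_ifs <;> ring
  map_smul' c u := by
    funext l
    simp only [pb, Fin.contractNth, Pi.smul_apply, smul_eq_mul, RingHom.id_apply]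
    split_ifs <;> ring

/-- `rotV` as a linear map -/
noncomputable def rotL (n : ℕ) : (Fin (n + 1) → ℝ) →ₗ[ℝ] (Fin (n + 1) → ℝ) where
  toFun := rotV
  map_add' u v := by
    funext l
    refine Fin.cases ?_ (fun j => ?_) l <;> simp [rotV, Fin.init]
  map_smul' c u := by
    funext l
    refine Fin.cases ?_ (fun j => ?_) l <;> simp [rotV, Fin.init]

/-- `dup i` as a linear map -/
noncomputable def dupL {n : ℕ} (i : Fin n) : (Fin n → ℝ) →ₗ[ℝ] (Fin (n + 1) → ℝ) where
  toFun := dup i
  map_add' _ _ := rfl
  map_smul' _ _ := rfl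

theorem predAbove_val {n : ℕ} (i : Fin n) (m : Fin (n + 1)) :
    ((i.predAbove m : Fin n) : ℕ) = if (i : ℕ) < m then (m : ℕ) - 1 else m := by
  unfold Fin.predAbove
  split_ifs with h1 h2 h2
  · simp
  · exact absurd (by simpa [Fin.lt_def] using h1) h2
  · exact absurd (by simpa [Fin.lt_def] using h2) h1
  · simp

theorem dup_ee {n : ℕ} (i l : Fin n) :
    dup i (ee l) = if (l : ℕ) < i then ee l.castSucc
      else if (l : ℕ) = i then ee l.castSucc + ee l.succ else ee l.succ := by
  funext m
  have h := predAbove_val i m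
  simp only [dup, ee]
  split_ifs with h1 h2 <;>
    simp only [Pi.single_apply, Pi.add_apply, Fin.ext_iff, Fin.val_castSucc, Fin.val_succ] <;>
    split_ifs at h ⊢ <;> first | rfl | omega | norm_num

theorem rot_ee_last (n : ℕ) : rotV (ee (Fin.last n)) = ee 0 := by
  funext l
  refine Fin.cases ?_ (fun j => ?_) l
  · simp [rotV]
  · simp [rotV, Fin.init, Pi.single_apply, Fin.castSucc_ne_last]

theorem rot_ee_cast {n : ℕ} (j : Fin n) : rotV (ee j.castSucc) = ee j.succ := by
  funext l
  refine Fin.cases ?_ (fun k => ?_) l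
  · simp [rotV, Pi.single_apply, (Fin.castSucc_ne_last j).symm, (Fin.succ_ne_zero j).symm]
  · simp [rotV, Fin.init, Pi.single_apply]

theorem rotT_eq (L : ℝ) {n : ℕ} (t : Fin (n + 1) → ℝ) :
    rotT L t = rotL n t + (-L) • ee 0 := by
  funext l
  refine Fin.cases ?_ (fun k => ?_) l
  · simp [rotT, rotL, rotV, sub_eq_add_neg]
  · simp [rotT, rotL, rotV]

theorem fderiv_lin {n m : ℕ} (f : (Fin m → ℝ) → ℝ) (hf : ContDiff ℝ ∞ f)
    (A : (Fin n → ℝ) →ₗ[ℝ] (Fin m → ℝ)) (b : Fin m → ℝ) (t w : Fin n → ℝ) :
    fderiv ℝ (fun t => f (A t + b)) t w = fderiv ℝ f (A t + b) (A w) := by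
  have h1 : HasFDerivAt (fun t => A t + b) (LinearMap.toContinuousLinearMap A) t :=
    (LinearMap.toContinuousLinearMap A).hasFDerivAt.add_const b
  have h2 := ((hf.differentiable (by simp)) (A t + b)).hasFDerivAt.comp t h1
  have h3 := h2.fderiv
  rw [show (fun t => f (A t + b)) = f ∘ fun t => A t + b from rfl, h3]
  rfl

variable {G : Type} [Group G]

theorem frm_conn (hD : FRMDStmt) (g : G) (L : ℝ) (u v : Stat G) (hu : IsStat g L u)
    (hv : IsStat g L v) : IsConn g L fun n y => frm L (u n y) (v n y) where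
  smooth n y := ((hD n).2 L _ _ (hu.sm n y) (hv.sm n y)).1
  shift n y hy t c := by
    funext l
    have h1 : ∀ s, u n y s (fun i => t i + c) * gr (v n y) s (fun i => t i + c) l =
        u n y (s - c) t * gr (v n y) (s - c) t l := fun s => by
      have a1 := hu.cov n y (s - c) t c
      rw [sub_add_cancel] at a1
      have a2 : v n y (s - c) = fun t' => v n y s (t' + fun _ => c) := by
        funext t'
        have := hv.cov n y (s - c) t' c
        rw [sub_add_cancel] at this
        exact this.symm
      rw [a1]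
      unfold gr
      rw [a2, fderiv_comp_add_right]
      rfl
    have h2 : Function.Periodic (fun s => u n y s t * gr (v n y) s t l) L := fun s => by
      have a2 : v n y (s + L) = v n y s := funext fun t' => hv.per n y hy s t'
      simp only [gr, a2, hu.per n y hy s t]
    show (∫ s in (0 : ℝ)..L, u n y s (fun i => t i + c) * gr (v n y) s (fun i => t i + c) l) =
      ∫ s in (0 : ℝ)..L, u n y s t * gr (v n y) s t l
    simp only [h1]
    rw [intervalIntegral.integral_comp_sub_right (fun s => u n y s t * gr (v n y) s t l) c]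
    have h3 := h2.intervalIntegral_add_eq (0 - c) 0
    rw [zero_add, show 0 - c + L = L - c by ring] at h3
    exact h3
  coll n y i t := by
    funext l
    have h1 : ∀ s, gr (v n (mer i y)) s t l =
        fderiv ℝ (v (n + 1) y s) (dup i t) (dup i (ee l)) := fun s => by
      have a2 : v n (mer i y) s = fun t' => v (n + 1) y s (dupL i t' + 0) := by
        funext t'
        rw [add_zero]
        exact hv.coll n y i s t'
      unfold gr
      rw [a2, fderiv_lin _ (((hD (n + 1)).1 _ (hv.sm (n + 1) y) 0).2.2.1 s), add_zero]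
      rfl
    have hc : ∀ m, IntervalIntegrable
        (fun s => u (n + 1) y s (dup i t) * gr (v (n + 1) y) s (dup i t) m) volume 0 L := fun m =>
      (((hD (n + 1)).1 _ (hu.sm (n + 1) y) (dup i t)).1.mul
        ((continuous_apply m).comp
          ((hD (n + 1)).1 _ (hv.sm (n + 1) y) (dup i t)).2.1)).intervalIntegrable _ _
    show (∫ s in (0 : ℝ)..L, u n (mer i y) s t * gr (v n (mer i y)) s t l) =
      pb i (frm L (u (n + 1) y) (v (n + 1) y) (dup i t)) l
    simp only [h1, hu.coll n y i, dup_ee, pb, Fin.contractNth, Fin.val_castSucc]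
    split_ifs
    · rfl
    · simp only [map_add, mul_add]
      exact intervalIntegral.integral_add (hc _) (hc _)
    · rfl
  rot n y hy t := by
    have h1 : ∀ s w, fderiv ℝ (v (n + 1) y s) t w =
        fderiv ℝ (v (n + 1) (rotY g y) s) (rotT L t) (rotV w) := fun s w => by
      have a2 : v (n + 1) y s = fun t' => v (n + 1) (rotY g y) s (rotL n t' + (-L) • ee 0) := by
        funext t'
        rw [← rotT_eq]
        exact (hv.rot n y hy s t').symm
      rw [a2, fderiv_lin _ (((hD (n + 1)).1 _ (hv.sm (n + 1) (rotY g y)) t).2.2.1 s), ← rotT_eq]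
      rfl
    funext l
    refine Fin.cases ?_ (fun k => ?_) l
    · show (∫ s in (0 : ℝ)..L, u (n + 1) (rotY g y) s (rotT L t) *
          gr (v (n + 1) (rotY g y)) s (rotT L t) 0) =
        ∫ s in (0 : ℝ)..L, u (n + 1) y s t * gr (v (n + 1) y) s t (Fin.last n)
      simp only [gr, h1, rot_ee_last, hu.rot n y hy]
    · show (∫ s in (0 : ℝ)..L, u (n + 1) (rotY g y) s (rotT L t) *
          gr (v (n + 1) (rotY g y)) s (rotT L t) k.succ) =
        ∫ s in (0 : ℝ)..L, u (n + 1) y s t * gr (v (n + 1) y) s t k.castSucc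
      simp only [gr, h1, rot_ee_cast, hu.rot n y hy]

theorem add_conn (g : G) (L : ℝ) (A A' : Form G) (h : IsConn g L A) (h' : IsConn g L A') :
    IsConn g L fun n y t => A n y t + A' n y t where
  smooth n y := (h.smooth n y).add (h'.smooth n y)
  shift n y hy t c := by simp only [h.shift n y hy, h'.shift n y hy]
  coll n y i t := by
    simp only [h.coll n y i, h'.coll n y i]
    exact ((pbL i).map_add _ _).symm
  rot n y hy t := by
    simp only [h.rot n y hy, h'.rot n y hy]
    exact ((rotL n).map_add _ _).symm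

theorem sum_conn (g : G) (L : ℝ) (ι : Type) (B : Finset ι) (A : ι → Form G)
    (h : ∀ i ∈ B, IsConn g L (A i)) : IsConn g L fun n y t => ∑ i ∈ B, A i n y t where
  smooth n y := ContDiff.sum fun i hi => (h i hi).smooth n y
  shift n y hy t c := Finset.sum_congr rfl fun i hi => (h i hi).shift n y hy t c
  coll n y i t := by
    rw [Finset.sum_congr rfl fun z hz => (h z hz).coll n y i t]
    exact (map_sum (pbL i) _ _).symm
  rot n y hy t := by
    rw [Finset.sum_congr rfl fun z hz => (h z hz).rot n y hy t]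
    exact (map_sum (rotL n) _ _).symm

theorem finsum_eq {ι M : Type} [AddCommMonoid M] (B : Finset ι) (f : ι → M)
    (h : ∀ z, z ∉ B → f z = 0) : ∑ᶠ z, f z = ∑ z ∈ B, f z :=
  finsum_eq_sum_of_support_subset f fun z hz => by
    by_contra h'
    exact hz (h z h')

theorem finsum_conn (g : G) (L : ℝ) (ι : Type) (A : ι → Form G) (h : ∀ z, IsConn g L (A z))
    (hB : ∀ n y, ∃ B : Finset ι, ∀ z, z ∉ B → ∀ t, A z n y t = 0) :
    IsConn g L fun n y t => ∑ᶠ z, A z n y t where
  smooth n y := by
    obtain ⟨B, hB⟩ := hB n y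
    have : (fun t => ∑ᶠ z, A z n y t) = fun t => ∑ z ∈ B, A z n y t :=
      funext fun t => finsum_eq B _ fun z hz => hB z hz t
    rw [this]
    exact ContDiff.sum fun i _ => (h i).smooth n y
  shift n y hy t c := finsum_congr fun z => (h z).shift n y hy t c
  coll n y i t := by
    obtain ⟨B, hB⟩ := hB (n + 1) y
    rw [finsum_congr fun z => (h z).coll n y i t, finsum_eq B _ fun z hz => hB z hz _,
      finsum_eq B _ fun z hz => by rw [hB z hz]; exact map_zero (pbL i)]
    exact (map_sum (pbL i) _ _).symm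
  rot n y hy t := by
    obtain ⟨B, hB⟩ := hB (n + 1) y
    rw [finsum_congr fun z => (h z).rot n y hy t, finsum_eq B _ fun z hz => hB z hz _,
      finsum_eq B _ fun z hz => by rw [hB z hz]; exact map_zero (rotL n)]
    exact (map_sum (rotL n) _ _).symm

theorem smul_conn (hD : FRMDStmt) (g : G) (L : ℝ) (χ : Stat G) (A : Form G) (hχ : IsStat g L χ)
    (h0 : ∀ n y, Closed g y → ∀ s t, χ n y s t = χ n y 0 t) (h : IsConn g L A) :
    IsConn g L fun n y t => χ n y 0 t • A n y t where
  smooth n y := (((hD n).1 _ (hχ.sm n y) 0).2.2.1 0).smul (h.smooth n y)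
  shift n y hy t c := by
    have a1 := hχ.cov n y (-c) t c
    rw [neg_add_cancel, h0 n y hy (-c)] at a1
    simp only [h.shift n y hy, a1]
  coll n y i t := by
    simp only [h.coll n y i, hχ.coll n y i]
    exact ((pbL i).map_smul _ _).symm
  rot n y hy t := by
    simp only [h.rot n y hy, hχ.rot n y hy]
    exact ((rotL n).map_smul _ _).symm

end FRMC

theorem frmc : FRMDStmt → FRMCStmt := fun hD _ _ g L =>
  ⟨FRMC.frm_conn hD g L, FRMC.add_conn g L, FRMC.sum_conn g L, FRMC.finsum_conn g L,
    FRMC.smul_conn hD g L⟩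

end Crest.Agent.R192B
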