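import Crest.Agent.R192B.D2

set_option autoImplicit false

open MeasureTheory Set
open scoped ContDiff

namespace Crest.Agent.R192B

namespace FRMD

variable {n : ℕ}

theorem cont_s {u : Fn n} (hu : Sm u) (t : Fin n → ℝ) : Continuous (fun s => u s t) := by
  have h : Continuous (fun p : (Fin n → ℝ) × ℝ => u p.2 p.1) := hu.continuous
  exact h.comp (continuous_const.prodMk continuous_id)

theorem smooth_t {u : Fn n} (hu : Sm u) (s : ℝ) : ContDiff ℝ ∞ (u s) := by
  have h : ContDiff ℝ ∞ (fun p : (Fin n → ℝ) × ℝ => u p.2 p.1) := hu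
  exact h.comp (contDiff_id.prodMk contDiff_const)

theorem sm_gr {u : Fn n} (hu : Sm u) (l : Fin n) : Sm fun s t => gr u s t l := by
  have h : ContDiff ℝ ∞ (fun p : (Fin n → ℝ) × ℝ => u p.2 p.1) := hu
  have h1 : ContDiff ℝ ∞ (Function.uncurry fun (p : (Fin n → ℝ) × ℝ) (t' : Fin n → ℝ) => u p.2 t') := by
    have : (Function.uncurry fun (p : (Fin n → ℝ) × ℝ) (t' : Fin n → ℝ) => u p.2 t') =
        (fun p : (Fin n → ℝ) × ℝ => u p.2 p.1) ∘
          (fun q : ((Fin n → ℝ) × ℝ) × (Fin n → ℝ) => (q.2, q.1.2)) := by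
      funext q; rfl
    rw [this]
    exact h.comp (contDiff_snd.prodMk (contDiff_snd.comp contDiff_fst))
  have h2 := ContDiff.fderiv (n := ∞) h1 (g := fun p : (Fin n → ℝ) × ℝ => p.1) contDiff_fst
    (by simp)
  exact h2.clm_apply contDiff_const

theorem cont_gr {u : Fn n} (hu : Sm u) (t : Fin n → ℝ) : Continuous (fun s => gr u s t) :=
  continuous_pi fun l => cont_s (sm_gr hu l) t

theorem sum_ee (w : Fin n → ℝ) : w = ∑ l, w l • ee l := by
  funext i
  simp [Finset.sum_apply, Pi.single_apply]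

theorem deriv_s {u : Fn n} (hu : Sm u) (hc : Cov u) (t : Fin n → ℝ) (s : ℝ) :
    HasDerivAt (fun s => u s t) (-∑ l, gr u s t l) s := by
  have e : (fun s' => u s' t) = (u s) ∘ (fun s' => fun i => t i - (s' - s)) := by
    funext s'
    have := hc s (fun i => t i - (s' - s)) (s' - s)
    simp only [Function.comp]
    rw [← this]
    congr 1
    · ring
    · funext i; ring
  rw [e]
  have h1 : HasDerivAt (fun s' : ℝ => fun i : Fin n => t i - (s' - s)) (fun _ => (-1 : ℝ)) s := by
    rw [hasDerivAt_pi]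
    intro i
    simpa using ((hasDerivAt_id s).sub_const s).const_sub (t i)
  have h2 : HasFDerivAt (u s) (fderiv ℝ (u s) t) (fun i => t i - (s - s)) := by
    have : (fun i => t i - (s - s)) = t := by funext i; ring
    rw [this]
    exact ((smooth_t hu s).differentiable (by simp) t).hasFDerivAt
  have h3 := h2.comp_hasDerivAt s h1
  have h4 : fderiv ℝ (u s) t (fun _ => (-1 : ℝ)) = -∑ l, gr u s t l := by
    rw [sum_ee (fun _ : Fin n => (-1 : ℝ)), map_sum]
    simp [gr]
  rw [← h4]
  exact h3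

theorem sm_mul {u v : Fn n} (hu : Sm u) (hv : Sm v) : Sm fun s t => u s t * v s t :=
  ContDiff.mul hu hv

theorem io_sum (w : Fin n → ℝ) : io w = ∑ l, w l • io (ee l) := by
  conv_lhs => rw [sum_ee w]
  simp [map_sum]

theorem io_anti (a b : Fin n → ℝ) : io a * io b = -(io b * io a) :=
  eq_neg_of_add_eq_zero_left (ExteriorAlgebra.ι_add_mul_swap a b)

theorem symm_zero {A : Type} [AddCommGroup A] [Module ℝ A] (c : Fin n → Fin n → ℝ)
    (X : Fin n → Fin n → A) (hc : ∀ m l, c m l = c l m) (hX : ∀ m l, X m l = -X l m) :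
    ∑ m, ∑ l, c m l • X m l = 0 := by
  have h : ∑ m, ∑ l, c m l • X m l = -∑ m, ∑ l, c m l • X m l := by
    conv_lhs => rw [Finset.sum_comm]
    rw [← Finset.sum_neg_distrib]
    refine Finset.sum_congr rfl fun m _ => ?_
    rw [← Finset.sum_neg_distrib]
    refine Finset.sum_congr rfl fun l _ => ?_
    rw [hc l m, hX l m, smul_neg]
  have h2 : (2 : ℝ) • ∑ m, ∑ l, c m l • X m l = 0 := by
    rw [two_smul]
    exact add_eq_zero_iff_eq_neg.2 h
  exact (smul_eq_zero.1 h2).resolve_left (by norm_num)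

theorem gr_gr {v : Fn n} (hv : Sm v) (s : ℝ) (t : Fin n → ℝ) (m l : Fin n) :
    gr (fun s t => gr v s t l) s t m = fderiv ℝ (fderiv ℝ (v s)) t (ee m) (ee l) := by
  have hd : DifferentiableAt ℝ (fderiv ℝ (v s)) t :=
    ((smooth_t hv s).fderiv_right (m := ∞) (by simp)).differentiable (by simp) t
  show fderiv ℝ (fun t => fderiv ℝ (v s) t (ee l)) t (ee m) = _
  rw [fderiv_clm_apply hd (differentiableAt_const _)]
  simp

theorem gr_symm {v : Fn n} (hv : Sm v) (s : ℝ) (t : Fin n → ℝ) (m l : Fin n) :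
    gr (fun s t => gr v s t l) s t m = gr (fun s t => gr v s t m) s t l := by
  rw [gr_gr hv, gr_gr hv]
  have h := (smooth_t hv s).contDiffAt (x := t)
  exact (h.isSymmSndFDerivAt (by
    rw [minSmoothness_of_isRCLikeNormedField]
    exact WithTop.coe_le_coe.2 (le_top : ((2 : ℕ) : ℕ∞) ≤ ⊤))).eq _ _

theorem gr_mul {u v : Fn n} (hu : Sm u) (hv : Sm v) (s : ℝ) (t : Fin n → ℝ) (m : Fin n) :
    fderiv ℝ (fun t => u s t * v s t) t (ee m) = gr u s t m * v s t + u s t * gr v s t m := by
  have h1 := (smooth_t hu s).differentiable (by simp) t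
  have h2 := (smooth_t hv s).differentiable (by simp) t
  have := fderiv_fun_mul h1 h2
  rw [this]
  simp only [gr, add_apply, smul_apply, smul_eq_mul]
  ring

end FRMD

open FRMD in
theorem frmd : PARStmt → FRMDStmt := by
  intro hP n
  refine ⟨fun u hu t => ⟨cont_s hu t, cont_gr hu t, smooth_t hu, sm_gr hu,
    fun hc s => deriv_s hu hc t s⟩, ?_⟩
  intro L u v hu hv
  have key : ∀ l : Fin n, _ := fun l =>
    hP (Fin n → ℝ) (fun p r => u r p * gr v r p l) 0 L (sm_mul hu (sm_gr hv l))
  have hsm : ContDiff ℝ ∞ (frm L u v) := contDiff_pi.2 fun l => (key l).1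
  refine ⟨hsm, fun ρ t => ?_⟩
  have hco : ∀ m l : Fin n, fderiv ℝ (frm L u v) t (ee m) l =
      (∫ s in (0 : ℝ)..L, gr u s t m * gr v s t l) +
        ∫ s in (0 : ℝ)..L, u s t * gr (fun s t => gr v s t l) s t m := by
    intro m l
    have h1 : fderiv ℝ (frm L u v) t (ee m) l =
        fderiv ℝ (fun p => ∫ r in (0 : ℝ)..L, u r p * gr v r p l) t (ee m) := by
      have := fderiv_pi (𝕜 := ℝ) (φ := fun l p => ∫ r in (0 : ℝ)..L, u r p * gr v r p l) (x := t)
        (fun l => (key l).1.differentiable (by simp) t)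
      have e : frm L u v = fun x l => ∫ r in (0 : ℝ)..L, u r x * gr v r x l := rfl
      rw [e, this]
      rfl
    rw [h1, (key l).2, ← intervalIntegral.integral_add]
    · refine intervalIntegral.integral_congr fun s _ => ?_
      exact gr_mul hu (sm_gr hv l) s t m
    · exact ((cont_s (sm_gr hu m) t).mul (cont_s (sm_gr hv l) t)).intervalIntegrable _ _
    · exact ((cont_s hu t).mul (cont_s (sm_gr (sm_gr hv l) m) t)).intervalIntegrable _ _
  have hX : ∀ m l : Fin n, ρ (io (ee m) * io (ee l)) = -(ρ (io (ee l) * io (ee m))) := by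
    intro m l
    rw [io_anti (ee m) (ee l), map_neg]
  have lhs : ρ (dF (frm L u v) t) = ∑ m, ∑ l, fderiv ℝ (frm L u v) t (ee m) l •
      (ρ (io (ee m) * io (ee l))) := by
    unfold dF
    rw [map_sum]
    refine Finset.sum_congr rfl fun m _ => ?_
    rw [io_sum (fderiv ℝ (frm L u v) t (ee m)), Finset.mul_sum, map_sum]
    refine Finset.sum_congr rfl fun l _ => ?_
    rw [mul_smul_comm, map_smul]
  have rhs : ∀ s, ρ (io (gr u s t)) * ρ (io (gr v s t)) =
      ∑ m, ∑ l, (gr u s t m * gr v s t l) • (ρ (io (ee m) * io (ee l))) := by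
    intro s
    rw [← map_mul ρ, io_sum (gr u s t), io_sum (gr v s t), Finset.sum_mul_sum, map_sum]
    refine Finset.sum_congr rfl fun m _ => ?_
    rw [map_sum]
    refine Finset.sum_congr rfl fun l _ => ?_
    rw [smul_mul_smul_comm, map_smul]
  have hci : ∀ m l : Fin n, Continuous fun s =>
      (gr u s t m * gr v s t l) • (ρ (io (ee m) * io (ee l))) := fun m l =>
    ((cont_s (sm_gr hu m) t).mul (cont_s (sm_gr hv l) t)).smul continuous_const
  have split : ρ (dF (frm L u v) t) =
      ∑ m, ∑ l, (∫ s in (0 : ℝ)..L, gr u s t m * gr v s t l) • ρ (io (ee m) * io (ee l)) +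
      ∑ m, ∑ l, (∫ s in (0 : ℝ)..L, u s t * gr (fun s t => gr v s t l) s t m) •
        ρ (io (ee m) * io (ee l)) := by
    rw [lhs, ← Finset.sum_add_distrib]
    refine Finset.sum_congr rfl fun m _ => ?_
    rw [← Finset.sum_add_distrib]
    refine Finset.sum_congr rfl fun l _ => ?_
    rw [hco]
    exact add_smul (R := ℝ) (M := Op n) _ _ _
  rw [split]
  simp only [rhs]
  rw [symm_zero (fun m l => ∫ s in (0 : ℝ)..L, u s t * gr (fun s t => gr v s t l) s t m) _
    (fun m l => intervalIntegral.integral_congr fun s _ => by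
      show u s t * _ = u s t * _
      rw [gr_symm hv s t m l]) hX, add_zero]
  rw [intervalIntegral.integral_finsetSum fun m _ =>
    (continuous_finsetSum _ fun l _ => hci m l).intervalIntegrable _ _]
  refine Finset.sum_congr rfl fun m _ => ?_
  rw [intervalIntegral.integral_finsetSum fun l _ => (hci m l).intervalIntegrable _ _]
  refine Finset.sum_congr rfl fun l _ => ?_
  rw [intervalIntegral.integral_smul_const]

end Crest.Agent.R192B
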