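import Crest.Agent.R192B.D0

/-! Row 192, task GEN: calculus of `GB`. -/

set_option autoImplicit false

open Finset

namespace Crest.Agent.R192B

namespace GEN

variable {𝔸 : Type} [NormedRing 𝔸]

theorem term_nonneg (ϖ : 𝔸) {x : ℝ} (hx : 0 ≤ x) (m : ℕ) :
    0 ≤ ‖ϖ ^ m‖ * x ^ m / m.factorial := by positivity

theorem conv_le (a b : ℕ → ℝ) (ha : ∀ m, 0 ≤ a m) (hb : ∀ m, 0 ≤ b m) (n : ℕ) :
    ∑ m ∈ range n, ∑ p ∈ antidiagonal m, a p.1 * b p.2 ≤
      (∑ m ∈ range n, a m) * ∑ m ∈ range n, b m := by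
  rw [Finset.sum_mul_sum, ← Finset.sum_product']
  have h1 : ∀ m ∈ range n, ∑ p ∈ antidiagonal m, a p.1 * b p.2 =
      ∑ p ∈ range n ×ˢ range n, if p.1 + p.2 = m then a p.1 * b p.2 else 0 := by
    intro m hm
    rw [← Finset.sum_filter]
    refine Finset.sum_congr ?_ fun _ _ => rfl
    ext p
    simp only [Finset.HasAntidiagonal.mem_antidiagonal, Finset.mem_filter, Finset.mem_product, Finset.mem_range]
      at hm ⊢
    omega
  rw [Finset.sum_congr rfl h1, Finset.sum_comm]
  refine Finset.sum_le_sum fun p _ => ?_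
  rw [Finset.sum_ite_eq]
  split_ifs
  · exact le_rfl
  · exact mul_nonneg (ha _) (hb _)

theorem gb_add {x : ℝ} (hx : 0 ≤ x) (ϖ ϖ' : 𝔸) (B B' : ℝ) (hc : Commute ϖ ϖ') (h : GB ϖ x B)
    (h' : GB ϖ' x B') : GB (ϖ + ϖ') x (B * B') := by
  intro j
  have hB : 0 ≤ B := le_trans (Finset.sum_nonneg fun m _ => term_nonneg ϖ hx m) (h j)
  refine le_trans ?_ (mul_le_mul (h j) (h' j)
    (Finset.sum_nonneg fun m _ => term_nonneg ϖ' hx m) hB)
  refine le_trans (Finset.sum_le_sum fun m _ => ?_)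
    (conv_le _ _ (term_nonneg ϖ hx) (term_nonneg ϖ' hx) (j + 1))
  rw [hc.add_pow']
  have h1 : ‖∑ p ∈ antidiagonal m, m.choose p.1 • (ϖ ^ p.1 * ϖ' ^ p.2)‖ ≤
      ∑ p ∈ antidiagonal m, (m.choose p.1 : ℝ) * (‖ϖ ^ p.1‖ * ‖ϖ' ^ p.2‖) := by
    refine le_trans (norm_sum_le _ _) (Finset.sum_le_sum fun p _ => ?_)
    refine le_trans norm_nsmul_le ?_
    exact mul_le_mul_of_nonneg_left (norm_mul_le _ _) (Nat.cast_nonneg _)
  have hm : (0 : ℝ) < m.factorial := by exact_mod_cast m.factorial_pos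
  refine le_trans (div_le_div_of_nonneg_right (mul_le_mul_of_nonneg_right h1 (by positivity))
    hm.le) (le_of_eq ?_)
  rw [Finset.sum_mul, Finset.sum_div]
  refine Finset.sum_congr rfl fun p hp => ?_
  have hp' : p.1 + p.2 = m := Finset.HasAntidiagonal.mem_antidiagonal.1 hp
  have h2 : (m.choose p.1 : ℝ) * p.1.factorial * p.2.factorial = m.factorial := by
    rw [← hp']
    exact_mod_cast (by
      have := Nat.add_choose_mul_factorial_mul_factorial p.2 p.1
      rw [add_comm p.2 p.1] at this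
      rw [← this]; ring : (p.1 + p.2).choose p.1 * p.1.factorial * p.2.factorial =
        (p.1 + p.2).factorial)
  have h3 : (0 : ℝ) < p.1.factorial := by exact_mod_cast p.1.factorial_pos
  have h4 : (0 : ℝ) < p.2.factorial := by exact_mod_cast p.2.factorial_pos
  have h5 : x ^ m = x ^ p.1 * x ^ p.2 := by rw [← hp', pow_add]
  have h6 : (m.choose p.1 : ℝ) ≠ 0 := by
    intro h0
    rw [h0] at h2
    simp at h2
    exact hm.ne' h2.symm
  rw [h5, ← h2]
  field_simp

theorem gb_sq_zero [NormOneClass 𝔸] {x : ℝ} (hx : 0 ≤ x) (ϖ : 𝔸) (b : ℝ) (h0 : ϖ * ϖ = 0)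
    (hb : ‖ϖ‖ ≤ b) : GB ϖ x (1 + x * b) := by
  have key : ∀ j : ℕ, ∑ m ∈ range (j + 2), ‖ϖ ^ m‖ * x ^ m / m.factorial = 1 + ‖ϖ‖ * x := by
    intro j
    induction j with
    | zero => simp [Finset.sum_range_succ]
    | succ j ih =>
      rw [show j + 1 + 2 = (j + 2) + 1 by ring, Finset.sum_range_succ, ih]
      have : ϖ ^ (j + 2) = 0 := by rw [pow_add, pow_two, h0, mul_zero]
      simp [this]
  intro j
  have h1 := key j
  rw [show j + 2 = (j + 1) + 1 by ring, Finset.sum_range_succ] at h1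
  have h2 := term_nonneg ϖ hx (j + 1)
  nlinarith [mul_le_mul_of_nonneg_left hb hx]

end GEN

theorem gen : GENStmt := by
  intro 𝔸 _ _ _ x hx
  refine ⟨GEN.gb_add hx, ?_, ?_, GEN.gb_sq_zero hx, ?_, ?_, ?_, ?_⟩
  · intro ι s ϖ B hc h
    classical
    induction s using Finset.induction_on with
    | empty =>
      have := GEN.gb_sq_zero hx (0 : 𝔸) 0 (mul_zero _) (by simp)
      simpa using this
    | insert i s hi ih =>
      rw [Finset.sum_insert hi, Finset.prod_insert hi]
      refine GEN.gb_add hx _ _ _ _ ?_ (h i (Finset.mem_insert_self _ _)) (ih ?_ ?_)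
      · exact Commute.sum_right _ _ _ fun k hk =>
          hc i (Finset.mem_insert_self _ _) k (Finset.mem_insert_of_mem hk)
      · exact fun k hk k' hk' =>
          hc k (Finset.mem_insert_of_mem hk) k' (Finset.mem_insert_of_mem hk')
      · exact fun k hk => h k (Finset.mem_insert_of_mem hk)
  · intro ϖ b hb j
    have hb0 : 0 ≤ b := (norm_nonneg _).trans hb
    refine le_trans (Finset.sum_le_sum fun m _ => ?_)
      (Real.sum_le_exp_of_nonneg (mul_nonneg hx hb0) (j + 1))
    refine div_le_div_of_nonneg_right ?_ (Nat.cast_nonneg _)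
    rw [mul_pow, mul_comm]
    exact mul_le_mul_of_nonneg_left
      ((norm_pow_le ϖ m).trans (pow_le_pow_left₀ (norm_nonneg _) hb m)) (by positivity)
  · intro ϖ c B hc h j
    refine le_trans (Finset.sum_le_sum fun m _ => ?_) (h j)
    refine div_le_div_of_nonneg_right (mul_le_mul_of_nonneg_right ?_ (by positivity))
      (Nat.cast_nonneg _)
    rw [smul_pow, norm_smul, norm_pow, Real.norm_eq_abs]
    exact mul_le_of_le_one_left (norm_nonneg _) (pow_le_one₀ (abs_nonneg _) hc)
  · intro ϖ c Φ hc hΦ h j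
    set y := √(c * x) * Φ with hy
    have hy0 : 0 ≤ y := by positivity
    have h1 : ∀ m ∈ range (j + 1), ‖(c • ϖ) ^ m‖ * x ^ m / m.factorial ≤
        y ^ (2 * m) / (2 * m).factorial := by
      intro m _
      have hm : (0 : ℝ) < m.factorial := by exact_mod_cast m.factorial_pos
      rw [smul_pow, norm_smul, norm_pow, Real.norm_eq_abs, abs_of_nonneg hc, hy, mul_pow, pow_mul,
        Real.sq_sqrt (mul_nonneg hc hx), mul_pow, div_le_iff₀ hm]
      calc c ^ m * ‖ϖ ^ m‖ * x ^ m
          ≤ c ^ m * (m.factorial * Φ ^ (2 * m) / (2 * m).factorial) * x ^ m := by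
            gcongr
            exact h m
        _ = _ := by ring
    refine le_trans (Finset.sum_le_sum h1) ?_
    refine le_trans ?_ (Real.sum_le_exp_of_nonneg hy0 (2 * (j + 1)))
    rw [← Finset.sum_image (s := range (j + 1)) (g := fun m => 2 * m)
      (f := fun i => y ^ i / i.factorial) (fun a _ b _ hab => by simpa using hab)]
    refine Finset.sum_le_sum_of_subset_of_nonneg ?_ fun i _ _ => by positivity
    intro i hi
    obtain ⟨m, hm, rfl⟩ := Finset.mem_image.1 hi
    simp only [Finset.mem_range] at hm ⊢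
    omega
  · intro ϖ B B' hB h j
    exact (h j).trans hB
  · intro ϖ B j h
    have hj : (0 : ℝ) < j.factorial := by exact_mod_cast j.factorial_pos
    have h1 := Finset.single_le_sum (f := fun m => ‖ϖ ^ m‖ * x ^ m / m.factorial)
      (fun m _ => GEN.term_nonneg ϖ hx m) (Finset.self_mem_range_succ j)
    have h2 := h1.trans (h j)
    rw [div_le_iff₀ hj] at h2
    linarith

end Crest.Agent.R192B
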