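import Crest.Agent.R192B.D0

set_option autoImplicit false

open MeasureTheory Set

namespace Crest.Agent.R192B

namespace GP

variable {Z : Type} {d : Z → Z → ℕ} {M D : ℕ}

theorem g_le (h : Met d M D) (x x' y : Z) : |(d x' y : ℝ) - d x y| ≤ d x x' := by
  have h1 : (d x' y : ℝ) ≤ d x' x + d x y := by exact_mod_cast h.tri x' x y
  have h2 : (d x y : ℝ) ≤ d x x' + d x' y := by exact_mod_cast h.tri x x' y
  rw [h.symm x' x] at h1
  exact abs_le.2 ⟨by linarith, by linarith⟩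

/-- every profile centred near `x` is approximated by an empirical profile from a ball -/
theorem approx (mau : MAUStmt) (h : Met d M D) (x : Z) (B : Finset Z) (X R1 R2 k : ℕ) (a : ℝ)
    (ha : 0 < a) (haR : a ≤ R1) (hB : ∀ x' ∈ B, d x x' ≤ R1) (hk0 : 0 < k)
    (hk : 16 * (R1 : ℝ) ^ 2 * (Real.log (2 * B.card + 1) + 1) ≤ k * a ^ 2)
    (hR2 : 2 * (R1 : ℝ) * (X + 1) ≤ a * R2) (ν : Z →₀ ℝ) (hν : IsPr ν) (hf : fm d ν x ≤ X + 1) :
    ∃ zs : Fin k → Z, (∀ j, d x (zs j) ≤ R2) ∧ ∀ x' ∈ B,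
      |fm d ν x' - fm d ν x - (∑ j, ((d x' (zs j) : ℝ) - d x (zs j))) / k| ≤ 2 * a := by
  classical
  let τ : Z → Z := fun y => if d x y ≤ R2 then y else x
  have hg : ∀ x' ∈ B, ∀ y, |(d x' y : ℝ) - d x y| ≤ R1 := fun x' hx' y =>
    (g_le h x x' y).trans (by exact_mod_cast hB x' hx')
  obtain ⟨ys, -, hys⟩ := mau Z B (fun x' y => (d x' (τ y) : ℝ) - d x (τ y)) R1 a ν k hν ha haR
    (fun x' hx' y => hg x' hx' _) hk0 hk
  refine ⟨fun j => τ (ys j), fun j => ?_, fun x' hx' => ?_⟩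
  · simp only [τ]; split_ifs with hh
    · exact hh
    · rw [h.refl]; exact Nat.zero_le _
  have h1 := hys x' hx'
  have hX : (0 : ℝ) < X + 1 := by positivity
  have h2 : |fm d ν x' - fm d ν x - ν.sum fun y w => w * ((d x' (τ y) : ℝ) - d x (τ y))| ≤ a := by
    unfold fm Finsupp.sum
    rw [← Finset.sum_sub_distrib, ← Finset.sum_sub_distrib]
    refine (Finset.abs_sum_le_sum_abs _ _).trans ?_
    have hp : ∀ y ∈ ν.support, |ν y * (d x' y : ℝ) - ν y * d x y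
        - ν y * ((d x' (τ y) : ℝ) - d x (τ y))| ≤ a / (X + 1) * (ν y * d x y) := by
      intro y _
      have hw := hν.1 y
      have e : ν y * (d x' y : ℝ) - ν y * d x y - ν y * ((d x' (τ y) : ℝ) - d x (τ y))
          = ν y * (((d x' y : ℝ) - d x y) - ((d x' (τ y) : ℝ) - d x (τ y))) := by ring
      rw [e, abs_mul, abs_of_nonneg hw, mul_left_comm]
      refine mul_le_mul_of_nonneg_left ?_ hw
      by_cases hh : d x y ≤ R2
      · simp only [τ, if_pos hh, sub_self, abs_zero]; positivity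
      · have b1 := abs_le.1 (hg x' hx' y)
        have b2 := abs_le.1 (hg x' hx' (τ y))
        have b3 : (R2 : ℝ) ≤ d x y := by exact_mod_cast (not_le.1 hh).le
        have b4 : 2 * (R1 : ℝ) ≤ a / (X + 1) * d x y := by
          rw [div_mul_eq_mul_div, le_div_iff₀ hX]; nlinarith
        exact abs_le.2 ⟨by linarith, by linarith⟩
    refine (Finset.sum_le_sum hp).trans ?_
    rw [← Finset.mul_sum, div_mul_eq_mul_div, div_le_iff₀ hX]
    exact mul_le_mul_of_nonneg_left hf ha.le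
  have b1 := abs_le.1 h1
  have b2 := abs_le.1 h2
  exact abs_le.2 ⟨by linarith, by linarith⟩

end GP

set_option maxHeartbeats 1600000 in
open GP in
theorem gp : MAUStmt → TIEStmt → GPStmt := by
  intro mau tie M hM
  classical
  have hM1 : (1 : ℝ) ≤ M := by exact_mod_cast (by omega : 1 ≤ M)
  have hM0 : (0 : ℝ) < M := by linarith
  obtain ⟨ℓ, hℓ⟩ : ∃ ℓ, ℓ = Real.log M := ⟨_, rfl⟩
  have hℓ0 : 0 ≤ ℓ := hℓ ▸ Real.log_nonneg hM1
  have hMe : ∀ n : ℕ, (M : ℝ) ^ n = Real.exp (n * ℓ) := fun n => by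
    rw [hℓ, Real.exp_nat_mul, Real.exp_log hM0]
  obtain ⟨β, hβ⟩ : ∃ β, β = 200 * ℓ + 20 := ⟨_, rfl⟩
  have hβ0 : 20 ≤ β := by linarith
  have hl0 : 0 < Real.log (4 / 3) := Real.log_pos (by norm_num)
  have hl1 : Real.log (4 / 3) ≤ 1 / 3 := by
    have := Real.log_le_sub_one_of_pos (show (0 : ℝ) < 4 / 3 by norm_num); linarith
  obtain ⟨a, ha⟩ : ∃ a, a = Real.log (4 / 3) / (7 * β) := ⟨_, rfl⟩
  have ha0 : 0 < a := by rw [ha]; positivity
  have haβ : 7 * β * a = Real.log (4 / 3) := by rw [ha]; field_simp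
  have ha8 : a ≤ 1 / 8 := by nlinarith
  obtain ⟨c2, hc2⟩ := exists_nat_ge (24 / a)
  obtain ⟨c3, hc3⟩ := exists_nat_ge (16 * 36 * (6 * ℓ + 3) / a ^ 2)
  obtain ⟨c4, hc4⟩ := exists_nat_ge ((c2 * c3 : ℝ) * ℓ + 60 * ℓ + 3000 / a)
  have hc3p : 0 < c3 := by
    have : (0 : ℝ) < c3 := lt_of_lt_of_le (by positivity) hc3
    exact_mod_cast this
  refine ⟨a, ha0, by linarith, c4 + c2 + 6, fun X hX => ?_⟩
  have hX1 : (1 : ℝ) ≤ X := by exact_mod_cast hX
  obtain ⟨m, hm⟩ : ∃ m, m = ⌊(X : ℝ) / a⌋₊ := ⟨_, rfl⟩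
  have hm1 : (m : ℝ) ≤ X / a := hm ▸ Nat.floor_le (by positivity)
  have hm2 : (X : ℝ) / a < m + 1 := hm ▸ Nat.lt_floor_add_one _
  have ham : a * m ≤ X := by rw [le_div_iff₀ ha0] at hm1; linarith
  have ham2 : X < a * (m + 1) := by rw [div_lt_iff₀ ha0] at hm2; linarith
  have hm7 : 7 ≤ m := by
    have : (7 : ℝ) < m := by nlinarith
    exact_mod_cast this.le
  obtain ⟨q, hq⟩ : ∃ q, q = Real.exp (-(β * a)) := ⟨_, rfl⟩
  have hq0 : 0 < q := hq ▸ Real.exp_pos _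
  have hq1 : q < 1 := by
    rw [hq, ← Real.exp_zero]; exact Real.exp_lt_exp.2 (by nlinarith)
  have hq7 : (q ^ 7)⁻¹ ≤ 4 / 3 := by
    rw [hq, ← Real.exp_nat_mul, ← Real.exp_neg]
    have : -(((7 : ℕ) : ℝ) * -(β * a)) = Real.log (4 / 3) := by push_cast; linarith
    rw [this, Real.exp_log (by norm_num)]
  obtain ⟨ν, hν⟩ := tie.1 m q hq0 hq1
  refine ⟨m, ν, hν.1, ham, fun Z d D hmet hD x => ?_⟩
  haveI := hν.1
  have hXX : X ≤ X ^ 2 := by nlinarith
  obtain ⟨B0, hB0c, hB0⟩ := hmet.ball x (3 * X + 3) (by nlinarith)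
  obtain ⟨B2, hB2c, hB2⟩ := hmet.ball x (c2 * X ^ 2) (by nlinarith)
  set B := B0.filter (fun y => d x y ≤ 3 * X + 3) with hBdef
  have hBc : (B.card : ℝ) ≤ (M : ℝ) ^ (3 * X + 3) := by
    exact_mod_cast (Finset.card_filter_le _ _).trans hB0c
  have hBm : ∀ y, y ∈ B ↔ d x y ≤ 3 * X + 3 := fun y => by
    rw [hBdef, Finset.mem_filter]; exact ⟨fun h => h.2, fun h => ⟨hB0 y h, h⟩⟩
  have hR1 : ((3 * X + 3 : ℕ) : ℝ) ≤ 6 * X := by push_cast; linarith
  have hR1' : (0 : ℝ) ≤ ((3 * X + 3 : ℕ) : ℝ) := Nat.cast_nonneg _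
  set k := c3 * X ^ 3 with hk
  set J := (c4 + c2 + 6) * X ^ 5 with hJ
  have hk0 : 0 < k := by positivity
  have hkb : 16 * ((3 * X + 3 : ℕ) : ℝ) ^ 2 * (Real.log (2 * B.card + 1) + 1) ≤ k * a ^ 2 := by
    have h1 : Real.log (2 * B.card + 1) ≤ 2 + 6 * X * ℓ := by
      rw [Real.log_le_iff_le_exp (by positivity), Real.exp_add]
      have e2 : (3 : ℝ) ≤ Real.exp 2 := by linarith [Real.add_one_le_exp (2 : ℝ)]
      have e3 : (M : ℝ) ^ (3 * X + 3) ≤ Real.exp (6 * X * ℓ) := by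
        rw [hMe]; exact Real.exp_le_exp.2 (mul_le_mul_of_nonneg_right hR1 hℓ0)
      have e4 : (1 : ℝ) ≤ Real.exp (6 * X * ℓ) := Real.one_le_exp (by positivity)
      nlinarith
    have h2 : 0 ≤ Real.log (2 * B.card + 1) := Real.log_nonneg (by
      have : (0 : ℝ) ≤ B.card := Nat.cast_nonneg _
      linarith)
    rw [div_le_iff₀ (by positivity)] at hc3
    calc 16 * ((3 * X + 3 : ℕ) : ℝ) ^ 2 * (Real.log (2 * B.card + 1) + 1)
        ≤ 16 * (6 * X) ^ 2 * (X * (6 * ℓ + 3)) := by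
          gcongr; nlinarith
      _ = 16 * 36 * (6 * ℓ + 3) * X ^ 3 := by ring
      _ ≤ c3 * a ^ 2 * X ^ 3 := by gcongr
      _ = _ := by rw [hk]; push_cast; ring
  have hR2 : 2 * ((3 * X + 3 : ℕ) : ℝ) * (X + 1) ≤ a * ((c2 * X ^ 2 : ℕ) : ℝ) := by
    rw [div_le_iff₀ ha0] at hc2
    calc 2 * ((3 * X + 3 : ℕ) : ℝ) * (X + 1) ≤ 2 * (6 * X) * (2 * X) := by gcongr; linarith
      _ = 24 * X ^ 2 := by ring
      _ ≤ c2 * a * X ^ 2 := by gcongr
      _ = _ := by push_cast; ring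
  let f : (Fin k → Z) → Z → ℝ := fun zs x' => (∑ j, ((d x' (zs j) : ℝ) - d x (zs j))) / k
  let Tie : (Fin k → Z) → Set (Z → Fin (m + 1)) := fun zs =>
    {E | (∀ x ∈ B, (E x : ℕ) + 7 < m) ∧ ∃ A : Finset Z, A ⊆ B ∧ J ≤ A.card ∧ ∀ x' ∈ A, ∀ x'' ∈ B,
      f zs x' - a * ((E x' : ℕ) : ℝ) ≤ f zs x'' - a * ((E x'' : ℕ) : ℝ) + 5 * a}
  have hsub : {E : Z → Fin (m + 1) | ¬ GoodQ d X J a E x} ⊆
      (⋃ y ∈ B, {E : Z → Fin (m + 1) | m - 7 ≤ (E y : ℕ)}) ∪
        ⋃ zs ∈ Fintype.piFinset (fun _ : Fin k => B2), Tie zs := by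
    intro E hE
    by_cases hbig : ∀ y ∈ B, (E y : ℕ) + 7 < m
    · right
      simp only [GoodQ, mem_setOf_eq, not_forall, not_le] at hE
      obtain ⟨ν', hν', hf, A, hA, hcard⟩ := hE
      obtain ⟨zs, hz1, hz2⟩ := approx mau hmet x B X (3 * X + 3) (c2 * X ^ 2) k a ha0
        (by push_cast; linarith) (fun y hy => (hBm y).1 hy) hk0 hkb hR2 ν' hν' hf
      simp only [mem_iUnion]
      refine ⟨zs, Fintype.mem_piFinset.2 fun j => hB2 _ (hz1 j), hbig, A,
        fun y hy => (hBm y).2 (hA y hy).1, hcard.le, fun x' hx' x'' hx'' => ?_⟩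
      have b1 := abs_le.1 (hz2 x' ((hBm x').2 (hA x' hx').1))
      have b2 := abs_le.1 (hz2 x'' hx'')
      have b3 := (hA x' hx').2 x'' ((hBm x'').1 hx'')
      simp only [f]
      linarith [b1.1, b1.2, b2.1, b2.2]
    · left
      push Not at hbig
      obtain ⟨y, hy, hy'⟩ := hbig
      simp only [mem_iUnion]
      exact ⟨y, hy, by simp only [mem_setOf_eq]; omega⟩
  have hP : (0 : ℝ) < (M : ℝ) ^ (10 * (3 * X + 3)) := by positivity
  have hPe : (M : ℝ) ^ (10 * (3 * X + 3)) ≤ Real.exp (60 * X * ℓ) := by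
    rw [hMe]; refine Real.exp_le_exp.2 (mul_le_mul_of_nonneg_right ?_ hℓ0)
    push_cast; linarith
  have h1 : Measure.infinitePi (fun _ : Z => ν) (⋃ y ∈ B, {E : Z → Fin (m + 1) | m - 7 ≤ (E y : ℕ)})
      ≤ ENNReal.ofReal (1 / (200 * (M : ℝ) ^ (10 * (3 * X + 3)))) := by
    refine (measure_biUnion_finset_le _ _).trans ?_
    have : ∀ y ∈ B, Measure.infinitePi (fun _ : Z => ν) {E : Z → Fin (m + 1) | m - 7 ≤ (E y : ℕ)}
        = ENNReal.ofReal (q ^ (m - 7)) := by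
      intro y _
      rw [← hν.2 (m - 7) (Nat.sub_le _ _)]
      exact (measurePreserving_eval_infinitePi (fun _ : Z => ν) y).measure_preimage
        (s := {E : Fin (m + 1) | m - 7 ≤ (E : ℕ)}) (MeasurableSet.of_discrete.nullMeasurableSet)
    rw [Finset.sum_congr rfl this, Finset.sum_const, nsmul_eq_mul, ← ENNReal.ofReal_natCast,
      ← ENNReal.ofReal_mul (Nat.cast_nonneg _)]
    refine ENNReal.ofReal_le_ofReal ?_
    rw [le_div_iff₀ (by positivity)]
    have e1 : q ^ (m - 7) ≤ Real.exp (1 - β * X) := by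
      rw [hq, ← Real.exp_nat_mul, Nat.cast_sub hm7]
      refine Real.exp_le_exp.2 ?_
      push_cast; nlinarith
    have e3 : (B.card : ℝ) ≤ Real.exp (6 * X * ℓ) := by
      refine hBc.trans ?_
      rw [hMe]; exact Real.exp_le_exp.2 (mul_le_mul_of_nonneg_right hR1 hℓ0)
    have e4 : (200 : ℝ) ≤ Real.exp 19 := by
      have := Real.quadratic_le_exp_of_nonneg (show (0 : ℝ) ≤ 19 by norm_num); linarith
    calc (B.card : ℝ) * q ^ (m - 7) * (200 * (M : ℝ) ^ (10 * (3 * X + 3)))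
        ≤ Real.exp (6 * X * ℓ) * Real.exp (1 - β * X) * (Real.exp 19 * Real.exp (60 * X * ℓ)) := by
          gcongr
      _ = Real.exp (6 * X * ℓ + (1 - β * X) + (19 + 60 * X * ℓ)) := by
          simp only [Real.exp_add]
      _ ≤ 1 := by
          refine Real.exp_le_one_iff.2 ?_
          have : 0 ≤ X * ℓ := by positivity
          rw [hβ]; nlinarith
  have h2 : Measure.infinitePi (fun _ : Z => ν) (⋃ zs ∈ Fintype.piFinset (fun _ : Fin k => B2), Tie zs)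
      ≤ ENNReal.ofReal (1 / (200 * (M : ℝ) ^ (10 * (3 * X + 3)))) := by
    refine (measure_biUnion_finset_le _ _).trans ?_
    have : ∀ zs ∈ Fintype.piFinset (fun _ : Fin k => B2), Measure.infinitePi (fun _ : Z => ν) (Tie zs)
        ≤ ENNReal.ofReal ((2 * ((3 * X + 3 : ℕ) : ℝ) / a + m + 2) * Real.exp (-(J : ℝ))) := by
      intro zs _
      refine tie.2 Z B m q a _ ν (f zs) J hν hq0 hq1 hq7 ha0 hR1' fun y hy => ?_
      have hk' : (0 : ℝ) < k := by exact_mod_cast hk0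
      simp only [f]
      rw [abs_div, abs_of_pos hk', div_le_iff₀ hk']
      refine (Finset.abs_sum_le_sum_abs _ _).trans ?_
      calc ∑ j, |(d y (zs j) : ℝ) - d x (zs j)| ≤ ∑ _j : Fin k, ((3 * X + 3 : ℕ) : ℝ) :=
            Finset.sum_le_sum fun j _ => (g_le hmet x y _).trans (by exact_mod_cast (hBm y).1 hy)
        _ = _ := by
            rw [Finset.sum_const, Finset.card_univ, Fintype.card_fin, nsmul_eq_mul, mul_comm]
    refine (Finset.sum_le_sum this).trans ?_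
    rw [Finset.sum_const, nsmul_eq_mul, ← ENNReal.ofReal_natCast,
      ← ENNReal.ofReal_mul (Nat.cast_nonneg _)]
    refine ENNReal.ofReal_le_ofReal ?_
    rw [le_div_iff₀ (by positivity)]
    have e1 : ((Fintype.piFinset (fun _ : Fin k => B2)).card : ℝ)
        ≤ Real.exp (c2 * c3 * X ^ 5 * ℓ) := by
      rw [Fintype.card_piFinset, Finset.prod_const, Finset.card_univ, Fintype.card_fin]
      have : ((B2.card ^ k : ℕ) : ℝ) ≤ ((M ^ (c2 * X ^ 2 * k) : ℕ) : ℝ) := by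
        exact Nat.cast_le.2 ((Nat.pow_le_pow_left hB2c k).trans (pow_mul M (c2 * X ^ 2) k).ge)
      refine this.trans ?_
      rw [Nat.cast_pow, hMe, hk]; push_cast
      exact le_of_eq (by congr 1; ring)
    have hX5 : (X : ℝ) ≤ X ^ 5 := le_self_pow₀ hX1 (by norm_num)
    have e2 : (2 * ((3 * X + 3 : ℕ) : ℝ) / a + m + 2) * 200 ≤ Real.exp (3000 / a * X ^ 5) := by
      have g1 : 2 * ((3 * X + 3 : ℕ) : ℝ) / a ≤ 12 * (X / a) := by
        rw [← mul_div_assoc]; exact div_le_div_of_nonneg_right (by linarith) ha0.le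
      have g2 : (1 : ℝ) ≤ X / a := by rw [le_div_iff₀ ha0]; linarith
      have g3 : 3000 * (X / a) ≤ 3000 / a * X ^ 5 := by
        rw [show 3000 * ((X : ℝ) / a) = 3000 / a * X by ring]; gcongr
      linarith [Real.add_one_le_exp (3000 / a * X ^ 5)]
    have e3 : (M : ℝ) ^ (10 * (3 * X + 3)) ≤ Real.exp (60 * ℓ * X ^ 5) := by
      refine hPe.trans (Real.exp_le_exp.2 ?_)
      have := mul_le_mul_of_nonneg_left hX5 hℓ0
      linarith
    calc ((Fintype.piFinset (fun _ : Fin k => B2)).card : ℝ) *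
          ((2 * ((3 * X + 3 : ℕ) : ℝ) / a + m + 2) * Real.exp (-(J : ℝ))) *
          (200 * (M : ℝ) ^ (10 * (3 * X + 3)))
        = ((Fintype.piFinset (fun _ : Fin k => B2)).card : ℝ) *
          ((2 * ((3 * X + 3 : ℕ) : ℝ) / a + m + 2) * 200) * (M : ℝ) ^ (10 * (3 * X + 3)) *
          Real.exp (-(J : ℝ)) := by ring
      _ ≤ Real.exp (c2 * c3 * X ^ 5 * ℓ) * Real.exp (3000 / a * X ^ 5) * Real.exp (60 * ℓ * X ^ 5) *
          Real.exp (-(J : ℝ)) := by gcongr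
      _ = Real.exp ((c2 * c3 * ℓ + 60 * ℓ + 3000 / a) * X ^ 5 - J) := by
          simp only [← Real.exp_add]; congr 1; ring
      _ ≤ 1 := by
          refine Real.exp_le_one_iff.2 ?_
          rw [hJ]; push_cast
          have : (0 : ℝ) ≤ X ^ 5 := by positivity
          have h3 : (0 : ℝ) ≤ c2 * X ^ 5 := by positivity
          have h4 := mul_le_mul_of_nonneg_right hc4 this
          linarith
  refine (measure_mono hsub).trans ((measure_union_le _ _).trans ((add_le_add h1 h2).trans ?_))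
  rw [← ENNReal.ofReal_add (by positivity) (by positivity)]
  refine ENNReal.ofReal_le_ofReal (le_of_eq ?_)
  field_simp; ring

end Crest.Agent.R192B
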