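import Crest.Agent.R192B.D2

/-! Row 192, task ISCF: the escape part is a connection. -/

set_option autoImplicit false

open MeasureTheory Set
open scoped ContDiff

namespace Crest.Agent.R192B

namespace ISCF

theorem psi_smooth (β X : ℝ) : ContDiff ℝ ∞ (psiF β X) := by
  unfold psiF
  exact (Real.contDiff_exp.comp (contDiff_const.mul contDiff_id)).mul
    (Real.smoothTransition.contDiff.comp (contDiff_const.sub contDiff_id))

theorem psi_nonneg (β X v : ℝ) : 0 ≤ psiF β X v :=
  mul_nonneg (Real.exp_pos _).le (Real.smoothTransition.nonneg _)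

theorem psi_zero (β X v : ℝ) (h : X ≤ v) : psiF β X v = 0 := by
  unfold psiF
  rw [show ST (X - v) = 0 from Real.smoothTransition.zero_of_nonpos (by linarith), mul_zero]

end ISCF

open ISCF in
theorem iscf : KINStmt → PROFStmt → STATStmt → FRMCStmt → ISCFStmt := by
  intro hK hP hS hF G _ g Z d M D pz L β X k k' K K' hM hpz hX hk hkk hL hK1 hK2
  obtain ⟨s1, s2, s3, s4, s5, s6, -⟩ := hS G g L
  obtain ⟨f1, -, -, f4, -⟩ := hF G g L
  obtain ⟨hH1, hH2, -⟩ := (hK L k K hk (by linarith) hK1).2.2.1 k' K' hkk hL hK2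
  have hf : ∀ z, IsStat g L fun _ y => fK d K (fun j => pz (y j)) z := fun z =>
    s1 K 1 (fun y => (d z (pz y) : ℝ)) hK1.smooth hK1.per fun y => by rw [hpz]
  have hf' : ∀ z, IsStat g L fun _ y => fK d K' (fun j => pz (y j)) z := fun z =>
    s1 K' 1 (fun y => (d z (pz y) : ℝ)) hK2.smooth hK2.per fun y => by rw [hpz]
  have hG : ∀ z, IsStat g L fun _ y => GK d K K' X (fun j => pz (y j)) z := fun z =>
    s1 (HK K K') 0 (fun y => (d z (pz y) : ℝ) / X) hH1 hH2 fun y => by rw [hpz]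
  have hψ : ∀ z, IsStat g L fun _ y s t => psiF β X (fK d K (fun j => pz (y j)) z s t) := fun z =>
    s4 _ _ (hf z) (psi_smooth β X)
  have hB : ∀ (n : ℕ) (y : Fin (n + 1) → G), ∃ B : Finset Z, ∀ z, z ∉ B → ∀ s t,
      psiF β X (fK d K (fun j => pz (y j)) z s t) = 0 := by
    intro n y
    obtain ⟨B, -, hB, -⟩ := hP Z d M D n (fun j => pz (y j)) hM
    exact ⟨B, fun z hz s t => psi_zero β X _ (by rw [hB K z hz]; exact hX)⟩
  have hZ := s6 Z (fun z _ y s t => psiF β X (fK d K (fun j => pz (y j)) z s t)) hψ hB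
  have hI := s5 _ (s3 _ _ hZ (s2 (Real.exp (-β * X / 5)))).1 fun n y s t =>
    (add_pos_of_nonneg_of_pos (finsum_nonneg fun z => psi_nonneg _ _ _) (Real.exp_pos _)).ne'
  have hU : ∀ z, IsStat g L fun _ y =>
      UF β X (fK d K fun j => pz (y j)) (fK d K' fun j => pz (y j)) z := fun z =>
    (s3 _ _ (s3 _ _ (hψ z) (s4 _ (fun v => ST (v / X - 2)) (hf' z)
      (Real.smoothTransition.contDiff.comp ((contDiff_id.div_const X).sub contDiff_const)))).2.2 hI).2.2
  refine f4 Z (fun z _ y => frm L (UF β X (fK d K fun j => pz (y j)) (fK d K' fun j => pz (y j)) z)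
    (GK d K K' X (fun j => pz (y j)) z)) (fun z => f1 _ _ (hU z) (hG z)) fun n y => ?_
  obtain ⟨B, hB⟩ := hB n y
  refine ⟨B, fun z hz t => ?_⟩
  funext l
  simp [frm, UF, hB z hz]

end Crest.Agent.R192B
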