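import Crest.Agent.R192B.D2

/-! Row 192: the marker part is a connection. -/

set_option autoImplicit false

open MeasureTheory Set
open scoped ContDiff

namespace Crest.Agent.R192B
namespace ISCQ

theorem frm_zero (L : ℝ) {n : ℕ} (w : Fn n) (hw : ∀ s t, w s t = 0) (t : Fin n → ℝ) :
    frm L (lag L w) w t = 0 := by
  funext l
  unfold frm lag
  simp [hw]

end ISCQ

theorem iscq : PROFStmt → STATStmt → FRMCStmt → ISCQStmt := by
  intro hP hS hF G _ g Z d M D pz L a k X J m E K hd hpz hD hK
  obtain ⟨s1, s2, s3, s4, -, s6, s7⟩ := hS G g L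
  obtain ⟨f1, -, -, f4, -⟩ := hF G g L
  have hST : ContDiff ℝ ∞ ST := Real.smoothTransition.contDiff
  have hDR : (2 * X + 2 : ℝ) ≤ D := by exact_mod_cast hD
  have hX0 : (0 : ℝ) ≤ X := Nat.cast_nonneg X
  -- the profiles
  let f : Z → Stat G := fun z _ y => fK d K (fun j => pz (y j)) z
  have hf : ∀ z, IsStat g L (f z) := fun z =>
    s1 K 1 (fun y => (d z (pz y) : ℝ)) hK.smooth hK.per (fun y => by rw [hpz])
  have hout : ∀ n (y : Fin (n + 1) → G), ∃ B : Finset Z, ∀ z, z ∉ B → ∀ s t,
      f z n y s t = D := by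
    intro n y
    obtain ⟨B, -, hB, -⟩ := hP Z d M D n (fun j => pz (y j)) hd
    exact ⟨B, fun z hz s t => hB K z hz s t⟩
  -- the inner terms
  let v : Z → Z → Stat G := fun x x' n y s t => ST (2 * X + 2 - f x' n y s t) *
    ST (((f x n y s t - a * ((E x : ℕ) : ℝ)) - (f x' n y s t - a * ((E x' : ℕ) : ℝ))) / a)
  have hv : ∀ x x', IsStat g L (v x x') := by
    intro x x'
    have h1 := s4 (f x') (fun r => ST (2 * X + 2 - r)) (hf x')
      (hST.comp (contDiff_const.sub contDiff_id))
    have h2 := (s3 (f x) (f x') (hf x) (hf x')).2.1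
    have h3 := s4 _ (fun r => ST ((r - a * ((E x : ℕ) : ℝ) + a * ((E x' : ℕ) : ℝ)) / a)) h2
      (hST.comp (((contDiff_id.sub contDiff_const).add contDiff_const).div_const a))
    have h4 := (s3 _ _ h1 h3).2.2
    convert h4 using 1
    funext n y s t
    simp only [v]
    congr 3
    ring
  have hsum : ∀ x, IsStat g L fun n y s t => ∑ᶠ x', v x x' n y s t := by
    intro x
    refine s6 Z (v x) (hv x) fun n y => ?_
    obtain ⟨B, hB⟩ := hout n y
    refine ⟨B, fun z hz s t => ?_⟩
    simp only [v]
    rw [hB z hz s t, show ST (2 * X + 2 - D) = 0 from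
      Real.smoothTransition.zero_of_nonpos (by linarith), zero_mul]
  let w : Z → Stat G := fun x n y => wQ d X J a E (fK d K (fun j => pz (y j))) x
  have hw : ∀ x, IsStat g L (w x) := by
    intro x
    classical
    have h0 := s2 (if GoodQ d X J a E x then 1 else 0)
    have h1 := s4 (f x) (fun r => ST (X + 1 - r)) (hf x)
      (hST.comp (contDiff_const.sub contDiff_id))
    have h2 := s4 _ (fun r => ST (1 - r)) (hsum x) (hST.comp (contDiff_const.sub contDiff_id))
    have h3 := (s3 _ _ (s3 _ _ h0 h1).2.2 h2).2.2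
    convert h3 using 1
    funext n y s t
    simp only [w, wQ, v, f]
  have hA : ∀ x, IsConn g L fun n y => frm L (lag L (w x n y)) (w x n y) := fun x =>
    f1 (fun n y => lag L (w x n y)) (w x) (s7 (w x) (hw x)) (hw x)
  have key := f4 Z (fun x n y => frm L (lag L (w x n y)) (w x n y)) hA fun n y => by
    obtain ⟨B, hB⟩ := hout n y
    refine ⟨B, fun z hz t => ISCQ.frm_zero L _ (fun s t' => ?_) t⟩
    have e : fK d K (fun j => pz (y j)) z s t' = D := hB z hz s t'
    simp only [w, wQ]
    rw [e, show ST (X + 1 - D) = 0 from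
      Real.smoothTransition.zero_of_nonpos (by linarith), mul_zero, zero_mul]
  exact key

end Crest.Agent.R192B
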