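import Crest.Agent.R192B.D2

/-! Row 192: task ISCZ (the dominant part is a connection). -/

set_option autoImplicit false

open MeasureTheory Set
open scoped ContDiff

namespace Crest.Agent.R192B
namespace ISCZ

theorem lin_time (L : ℝ) {n : ℕ} (p : Fin (n + 1) → ℝ) (hp : p (Fin.last n) = p 0) (s : ℝ)
    (t : Fin n → ℝ) : lin (fun u => u / L) 1 p s t = lin (fun u => u / L) 1 p 0 t := by
  unfold lin
  have h1 : ∑ i : Fin n, (p i.succ - p i.castSucc) = 0 := by
    have a := Fin.sum_univ_succ p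
    have b := Fin.sum_univ_castSucc p
    rw [Finset.sum_sub_distrib]
    linarith
  have h2 : ∑ i : Fin n, (p i.succ - p i.castSucc) * ((s - t i) / L) =
      ∑ i : Fin n, (p i.succ - p i.castSucc) * ((0 - t i) / L) +
        (∑ i : Fin n, (p i.succ - p i.castSucc)) * (s / L) := by
    rw [Finset.sum_mul, ← Finset.sum_add_distrib]
    apply Finset.sum_congr rfl
    intro i _
    ring
  simp only [h2, h1, zero_mul, add_zero]

end ISCZ

open ISCZ in
theorem iscz : METStmt → PROFStmt → STATStmt → FRMCStmt → AZAStmt → ISCZStmt := by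
  intro hM hP hS hF hA G _ S M D len g ρ₀ ρ₁ γ c₀ L Ψ ϑ hlen hpsi hρ hL
  obtain ⟨hmet, hpz, -⟩ := hM G S M D len g hlen
  obtain ⟨s1, -, -, s4, -⟩ := hS G g L
  obtain ⟨-, -, -, f4, f5⟩ := hF G g L
  let F : Zq g → G → ℝ := fun z y => if dq g len z (pZ g y) ≤ ρ₀ then 1 else 0
  let χ : Zq g → Stat G := fun z _ y s t =>
    ST (10 * lin (fun u => u / L) 1 (fun j => F z (y j)) s t - 8)
  have hFg : ∀ z y, F z (g * y) = F z y := by
    intro z y
    simp only [F, hpz]
  have hχ : ∀ z, IsStat g L (χ z) := by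
    intro z
    refine s4 (fun _ y => lin (fun u => u / L) 1 (fun j => F z (y j))) (fun x => ST (10 * x - 8))
      (s1 _ 1 (F z) (contDiff_id.div_const L) ?_ (hFg z)) ?_
    · intro u
      field_simp
    · exact Real.smoothTransition.contDiff.comp
        ((contDiff_const.mul contDiff_id).sub contDiff_const)
  have hC : ∀ x : G, IsConn g L (fun _ y => AZ1 L (ϑ x) (fun j => Ψ x (y j))) := by
    intro x
    refine ⟨fun n y => ((hA L (ϑ x) n).1 _).1, fun n y _ t c => ((hA L (ϑ x) n).1 _).2.1 t c,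
      fun n y i t => (hA L (ϑ x) n).2.1 (fun j => Ψ x (y j)) i t, ?_⟩
    intro n y hy t
    refine (hA L (ϑ x) n).2.2.1 (fun j => Ψ x (y j)) (fun j => Ψ x (rotY g y j)) ?_ ?_ ?_ t
    · show Ψ x (y (Fin.last (n + 1))) = _ * Ψ x (y 0)
      rw [hy, hpsi.tw]
    · show _ * Ψ x (rotY g y 0) = Ψ x (y (Fin.last n).castSucc)
      have : rotY g y 0 = g⁻¹ * y (Fin.last n).castSucc := by simp [rotY]
      rw [this, ← hpsi.tw, mul_inv_cancel_left]
    · intro j
      show Ψ x (rotY g y j.succ) = Ψ x (y j.castSucc)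
      have : rotY g y j.succ = y j.castSucc := by simp [rotY, Fin.init]
      rw [this]
  refine f4 (Zq g) (fun z n y t => χ z n y 0 t • AZ1 L (ϑ z.out) (fun j => Ψ z.out (y j)) t)
    (fun z => f5 (χ z) _ (hχ z) ?_ (hC z.out)) ?_
  · intro n y hy s t
    show ST (10 * lin (fun u => u / L) 1 (fun j => F z (y j)) s t - 8) =
      ST (10 * lin (fun u => u / L) 1 (fun j => F z (y j)) 0 t - 8)
    rw [lin_time L _ _ s t]
    show F z (y (Fin.last n)) = F z (y 0)
    rw [hy, hFg]
  · intro n y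
    obtain ⟨B, hB, -⟩ := hP (Zq g) (dq g len) M D n (fun j => pZ g (y j)) hmet
    refine ⟨B, fun z hz t => ?_⟩
    have h0 : ∀ j, F z (y j) = 0 := by
      intro j
      have : ¬ dq g len z (pZ g (y j)) < D := fun h => hz ((hB z).mpr ⟨j, h⟩)
      simp only [F]
      rw [if_neg (by omega)]
    have h1 : χ z n y 0 t = 0 := by
      show ST (10 * lin (fun u => u / L) 1 (fun j => F z (y j)) 0 t - 8) = 0
      simp only [h0, lin, sub_self, zero_mul, Finset.sum_const_zero, mul_zero, add_zero]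
      exact Real.smoothTransition.zero_of_nonpos (by norm_num)
    show χ z n y 0 t • _ = 0
    rw [h1, zero_smul]

end Crest.Agent.R192B
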