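import Crest.Agent.R192B.D0

/-! Row 192, task JW: Jordan-Wigner representation of the exterior algebra. -/

set_option autoImplicit false
set_option linter.deprecated false

open scoped InnerProductSpace

namespace Crest.Agent.R192B
namespace JW

variable {n : ℕ}

abbrev H (n : ℕ) := EuclideanSpace ℝ (Finset (Fin n))

def tg (i : Fin n) (S : Finset (Fin n)) : Finset (Fin n) := symmDiff S {i}

theorem mem_tg (i l : Fin n) (S : Finset (Fin n)) : l ∈ tg i S ↔ (l ∈ S ↔ l ≠ i) := by
  unfold tg
  rw [Finset.mem_symmDiff, Finset.mem_singleton]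
  tauto

theorem tg_tg (i : Fin n) (S : Finset (Fin n)) : tg i (tg i S) = S := by
  unfold tg; exact symmDiff_symmDiff_cancel_right _ _

theorem tg_comm (i j : Fin n) (S : Finset (Fin n)) : tg i (tg j S) = tg j (tg i S) := by
  unfold tg; exact symmDiff_right_comm _ _ _

noncomputable def pp (i : Fin n) (S : Finset (Fin n)) : ℝ := if i ∈ S then 1 else 0

noncomputable def ss (i : Fin n) (S : Finset (Fin n)) : ℝ :=
  ∏ l : Fin n, if l < i then (if l ∈ S then -1 else 1) else 1

noncomputable def eps (j i : Fin n) : ℝ := if j < i then -1 else 1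

theorem pp_tg_self (i : Fin n) (S : Finset (Fin n)) : pp i (tg i S) = 1 - pp i S := by
  unfold pp
  by_cases h : i ∈ S <;> simp [mem_tg, h]

theorem pp_tg_ne {i j : Fin n} (h : i ≠ j) (S : Finset (Fin n)) : pp i (tg j S) = pp i S := by
  unfold pp
  simp [mem_tg, h]

theorem pp_sq (i : Fin n) (S : Finset (Fin n)) : pp i S * pp i S = pp i S := by
  unfold pp; split_ifs <;> simp

theorem ss_sq (i : Fin n) (S : Finset (Fin n)) : ss i S * ss i S = 1 := by
  unfold ss
  rw [← Finset.prod_mul_distrib]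
  refine Finset.prod_eq_one fun l _ => ?_
  split_ifs <;> simp

theorem ss_tg (i j : Fin n) (S : Finset (Fin n)) : ss i (tg j S) = ss i S * eps j i := by
  have h : eps j i = ∏ l : Fin n, if l = j then eps j i else 1 := by
    rw [Finset.prod_ite_eq']; simp
  rw [h]
  unfold ss
  rw [← Finset.prod_mul_distrib]
  refine Finset.prod_congr rfl fun l _ => ?_
  by_cases hl : l = j
  · subst hl
    unfold eps
    by_cases h1 : l < i <;> by_cases h2 : l ∈ S <;> simp [mem_tg, h1, h2]
  · simp [mem_tg, hl]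

theorem eps_self (i : Fin n) : eps i i = 1 := by simp [eps]

theorem eps_anti {i j : Fin n} (h : i ≠ j) : eps j i = -eps i j := by
  unfold eps
  rcases lt_or_gt_of_ne h with h1 | h1
  · simp [h1, not_lt.2 h1.le]
  · simp [h1, not_lt.2 h1.le]

noncomputable def opL (c : Finset (Fin n) → ℝ) (i : Fin n) : H n →ₗ[ℝ] H n where
  toFun f := WithLp.toLp 2 fun S => c S * f (tg i S)
  map_add' f g := by ext S; simp [mul_add]
  map_smul' r f := by ext S; simp; ring

noncomputable def op (c : Finset (Fin n) → ℝ) (i : Fin n) : Op n :=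
  LinearMap.toContinuousLinearMap (opL c i)

theorem op_apply (c : Finset (Fin n) → ℝ) (i : Fin n) (f : H n) (S : Finset (Fin n)) :
    op c i f S = c S * f (tg i S) := rfl

noncomputable def cr (i : Fin n) : Op n := op (fun S => pp i S * ss i S) i
noncomputable def an (i : Fin n) : Op n := op (fun S => (1 - pp i S) * ss i S) i

theorem cr_cr (i j : Fin n) : cr i * cr j + cr j * cr i = 0 := by
  ext f S
  simp only [cr, ContinuousLinearMap.add_apply, ContinuousLinearMap.mul_apply, PiLp.add_apply,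
    op_apply, ContinuousLinearMap.zero_apply, PiLp.zero_apply]
  by_cases h : i = j
  · subst h
    rw [pp_tg_self]
    linear_combination (-2 * ss i S * ss i (tg i S) * f (tg i (tg i S))) * pp_sq i S
  · rw [pp_tg_ne h, pp_tg_ne (Ne.symm h), ss_tg, ss_tg, eps_anti h, tg_comm i j]
    ring

theorem an_cr (i j : Fin n) : an i * cr j + cr j * an i = if i = j then 1 else 0 := by
  ext f S
  simp only [cr, an, ContinuousLinearMap.add_apply, ContinuousLinearMap.mul_apply, PiLp.add_apply,
    op_apply]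
  by_cases h : i = j
  · subst h
    rw [pp_tg_self, ss_tg, eps_self, tg_tg, if_pos rfl, ContinuousLinearMap.one_apply]
    linear_combination (2 * ss i S * ss i S * f S) * pp_sq i S + f S * ss_sq i S
  · rw [pp_tg_ne h, pp_tg_ne (Ne.symm h), ss_tg, ss_tg, eps_anti h, tg_comm i j, if_neg h]
    simp only [ContinuousLinearMap.zero_apply, PiLp.zero_apply]
    ring

def tgE (i : Fin n) : Finset (Fin n) ≃ Finset (Fin n) :=
  ⟨tg i, tg i, tg_tg i, tg_tg i⟩

theorem adj (i : Fin n) (f g : H n) : ⟪cr i f, g⟫_ℝ = ⟪f, an i g⟫_ℝ := by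
  simp only [PiLp.inner_apply, cr, an, op_apply, RCLike.inner_apply, conj_trivial]
  rw [← Equiv.sum_comp (tgE i)]
  refine Finset.sum_congr rfl fun S _ => ?_
  change g (tg i S) * (pp i (tg i S) * ss i (tg i S) * f (tg i (tg i S))) = _
  rw [pp_tg_self, ss_tg, eps_self, tg_tg]
  ring

section Gen
variable {A : Type} [Ring A] [Algebra ℝ A]

noncomputable def linT (c : Fin n → A) (T : Finset (Fin n)) : (Fin n → ℝ) →ₗ[ℝ] A where
  toFun u := ∑ i ∈ T, u i • c i
  map_add' u v := by simp [add_smul, Finset.sum_add_distrib]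
  map_smul' r u := by simp [Finset.smul_sum, mul_smul]

theorem linT_apply (c : Fin n → A) (T : Finset (Fin n)) (u : Fin n → ℝ) :
    linT c T u = ∑ i ∈ T, u i • c i := rfl

theorem linT_sq (c : Fin n → A) (hc : ∀ i j, c i * c j + c j * c i = 0) (T : Finset (Fin n))
    (u : Fin n → ℝ) : linT c T u * linT c T u = 0 := by
  have h1 : linT c T u * linT c T u = ∑ i ∈ T, ∑ j ∈ T, (u i * u j) • (c i * c j) := by
    rw [linT_apply, Finset.sum_mul_sum]
    simp only [smul_mul_smul_comm]
  have h2 : linT c T u * linT c T u = ∑ i ∈ T, ∑ j ∈ T, (u i * u j) • (c j * c i) := by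
    rw [h1, Finset.sum_comm]
    simp only [mul_comm]
  have h3 : linT c T u * linT c T u + linT c T u * linT c T u = 0 := by
    nth_rewrite 1 [h1]
    rw [h2, ← Finset.sum_add_distrib]
    refine Finset.sum_eq_zero fun i _ => ?_
    rw [← Finset.sum_add_distrib]
    refine Finset.sum_eq_zero fun j _ => ?_
    rw [← smul_add, hc, smul_zero]
  rw [← two_smul ℝ] at h3
  exact (smul_eq_zero.1 h3).resolve_left two_ne_zero

theorem an_linT (a c : Fin n → A) (h : ∀ i j, a i * c j + c j * a i = if i = j then 1 else 0)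
    (T : Finset (Fin n)) (u : Fin n → ℝ) (i : Fin n) (hi : i ∈ T) :
    a i * linT c T u + linT c T u * a i = u i • (1 : A) := by
  rw [linT_apply, Finset.mul_sum, Finset.sum_mul, ← Finset.sum_add_distrib]
  have : ∀ j, a i * (u j • c j) + (u j • c j) * a i = if i = j then u j • (1 : A) else 0 := by
    intro j
    rw [mul_smul_comm, smul_mul_assoc, ← smul_add, h]
    split_ifs <;> simp
  simp only [this]
  rw [Finset.sum_ite_eq, if_pos hi]

theorem linT_linT (a c : Fin n → A) (h : ∀ i j, a i * c j + c j * a i = if i = j then 1 else 0)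
    (T : Finset (Fin n)) (u : Fin n → ℝ) :
    linT a T u * linT c T u + linT c T u * linT a T u = (∑ i ∈ T, u i ^ 2) • (1 : A) := by
  rw [linT_apply a, Finset.mul_sum, Finset.sum_mul, ← Finset.sum_add_distrib, Finset.sum_smul]
  refine Finset.sum_congr rfl fun i hi => ?_
  rw [mul_smul_comm, smul_mul_assoc, ← smul_add, an_linT a c h T u i hi, smul_smul, sq]

end Gen

noncomputable def crT (T : Finset (Fin n)) : (Fin n → ℝ) →ₗ[ℝ] Op n := linT cr T

theorem crT_apply (T : Finset (Fin n)) (u : Fin n → ℝ) : crT T u = ∑ i ∈ T, u i • cr i := rfl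

theorem crT_sq (T : Finset (Fin n)) (u : Fin n → ℝ) : crT T u * crT T u = 0 :=
  linT_sq cr cr_cr T u

theorem an_crT (T : Finset (Fin n)) (u : Fin n → ℝ) (i : Fin n) (hi : i ∈ T) :
    an i * crT T u + crT T u * an i = u i • (1 : Op n) :=
  an_linT an cr an_cr T u i hi

theorem norm_le_of_car (A B : Op n) (c : ℝ) (hadj : ∀ f g, ⟪A f, g⟫_ℝ = ⟪f, B g⟫_ℝ)
    (h : B * A + A * B = c • (1 : Op n)) (f : H n) : ‖A f‖ ^ 2 + ‖B f‖ ^ 2 = c * ‖f‖ ^ 2 := by
  have h1 : ‖A f‖ ^ 2 = ⟪f, B (A f)⟫_ℝ := by rw [← hadj, real_inner_self_eq_norm_sq]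
  have h2 : ‖B f‖ ^ 2 = ⟪f, A (B f)⟫_ℝ := by
    rw [real_inner_comm, hadj, real_inner_self_eq_norm_sq]
  have h3 : B (A f) + A (B f) = c • f := by
    have := congrArg (fun X : Op n => X f) h
    simpa using this
  rw [h1, h2, ← inner_add_right, h3, inner_smul_right, real_inner_self_eq_norm_sq]

theorem norm_crT (T : Finset (Fin n)) (u : Fin n → ℝ) : ‖crT T u‖ ≤ nT T u := by
  have hc : (∑ i ∈ T, u i • an i) * crT T u + crT T u * (∑ i ∈ T, u i • an i) =
      (∑ i ∈ T, u i ^ 2) • (1 : Op n) := linT_linT an cr an_cr T u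
  have hadj : ∀ f g, ⟪crT T u f, g⟫_ℝ = ⟪f, (∑ i ∈ T, u i • an i) g⟫_ℝ := by
    intro f g
    rw [crT_apply]
    simp only [ContinuousLinearMap.sum_apply, ContinuousLinearMap.smul_apply, sum_inner, inner_sum,
      inner_smul_left, inner_smul_right, adj, conj_trivial]
  refine ContinuousLinearMap.opNorm_le_bound _ (Real.sqrt_nonneg _) fun f => ?_
  have h := norm_le_of_car _ _ _ hadj hc f
  have h0 : 0 ≤ ∑ i ∈ T, u i ^ 2 := Finset.sum_nonneg fun i _ => sq_nonneg _
  refine abs_le_of_sq_le_sq' ?_ (by unfold nT; positivity) |>.2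
  unfold nT
  rw [mul_pow, Real.sq_sqrt h0]
  nlinarith [sq_nonneg ‖(∑ i ∈ T, u i • an i) f‖]

theorem norm_an (i : Fin n) (f : H n) : ‖an i f‖ ≤ ‖f‖ := by
  have h := norm_le_of_car (cr i) (an i) 1 (adj i) (by rw [an_cr, if_pos rfl, one_smul]) f
  refine abs_le_of_sq_le_sq' ?_ (norm_nonneg _) |>.2
  nlinarith [sq_nonneg ‖cr i f‖]

noncomputable def rho (T : Finset (Fin n)) : Ext n →ₐ[ℝ] Op n :=
  ExteriorAlgebra.lift ℝ ⟨crT T, crT_sq T⟩

theorem rho_io (T : Finset (Fin n)) (u : Fin n → ℝ) : rho T (io u) = crT T u :=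
  ExteriorAlgebra.lift_ι_apply _ _ _ _

noncomputable def vac (n : ℕ) : H n := EuclideanSpace.single ∅ 1

theorem an_vac (i : Fin n) : an i (vac n) = 0 := by
  ext S
  simp only [an, op_apply, vac, EuclideanSpace.single_apply, PiLp.zero_apply]
  by_cases h : i ∈ S
  · simp [pp, h]
  · have : tg i S ≠ ∅ := by
      intro h0
      have : i ∈ tg i S := by simp [mem_tg, h]
      rw [h0] at this; simp at this
    simp [this]

theorem dot_ee (i : Fin n) (u : Fin n → ℝ) : dot (ee i) u = u i := by
  simp [dot, ee, Pi.single_apply]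

theorem an_rho (T : Finset (Fin n)) (i : Fin n) (hi : i ∈ T) (α : Ext n) :
    an i (rho T α (vac n)) = rho T (cn (ee i) α) (vac n) := by
  induction α using CliffordAlgebra.left_induction with
  | algebraMap r =>
    have h1 : cn (ee i) (algebraMap ℝ (Ext n) r) = 0 :=
      CliffordAlgebra.contractLeft_algebraMap _ _ _
    rw [h1, AlgHom.commutes, map_zero]
    simp [Algebra.algebraMap_eq_smul_one, an_vac]
  | add x y hx hy => simp only [map_add, ContinuousLinearMap.add_apply, hx, hy]
  | ι_mul x u hx =>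
    have h1 : cn (ee i) (io u * x) = dot (ee i) u • x - io u * cn (ee i) x :=
      CliffordAlgebra.contractLeft_ι_mul _ _ _
    change an i (rho T (io u * x) (vac n)) = rho T (cn (ee i) (io u * x)) (vac n)
    rw [h1, map_sub, map_smul, map_mul, map_mul, rho_io, dot_ee]
    have h2 := congrArg (fun X : Op n => X (rho T x (vac n))) (an_crT T u i hi)
    simp only [ContinuousLinearMap.add_apply, ContinuousLinearMap.mul_apply,
      ContinuousLinearMap.smul_apply, ContinuousLinearMap.one_apply, ContinuousLinearMap.sub_apply]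
      at h2 ⊢
    rw [← hx, ← h2]; abel

theorem rho_vac (T : Finset (Fin n)) (α : Ext n) :
    ExteriorAlgebra.algebraMapInv α = rho T α (vac n) ∅ := by
  induction α using CliffordAlgebra.left_induction with
  | algebraMap r =>
    rw [AlgHom.commutes, AlgHom.commutes]
    simp [Algebra.algebraMap_eq_smul_one, vac]
  | add x y hx hy => simp only [map_add, ContinuousLinearMap.add_apply, PiLp.add_apply, hx, hy]
  | ι_mul x u _ =>
    change ExteriorAlgebra.algebraMapInv (io u * x) = rho T (io u * x) (vac n) ∅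
    have h1 : ExteriorAlgebra.algebraMapInv (io u) = (0 : ℝ) := by
      simp [ExteriorAlgebra.algebraMapInv]
    rw [map_mul, map_mul, h1, zero_mul, rho_io, crT_apply]
    simp [ContinuousLinearMap.sum_apply, cr, op_apply, pp]

theorem ev_list (T : Finset (Fin n)) (l : List (Fin n)) (hl : ∀ i ∈ l, i ∈ T) :
    ∃ A : Op n, (∀ f, ‖A f‖ ≤ ‖f‖) ∧ ∀ α, evL (l.map ee) α = A (rho T α (vac n)) ∅ := by
  induction l with
  | nil => exact ⟨1, fun f => le_rfl, fun α => rho_vac T α⟩
  | cons i l ih =>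
    obtain ⟨A, hA, h⟩ := ih fun j hj => hl j (List.mem_cons_of_mem _ hj)
    refine ⟨A * an i, fun f => (hA _).trans (norm_an i f), fun α => ?_⟩
    rw [ContinuousLinearMap.mul_apply, an_rho T i (hl i List.mem_cons_self), ← h]
    rfl

end JW

open JW in
theorem jw : JWStmt := by
  intro n T
  refine ⟨rho T, fun u => by rw [rho_io]; exact norm_crT T u, fun l hl => ?_⟩
  obtain ⟨A, hA, h⟩ := ev_list T l hl
  refine ⟨(EuclideanSpace.proj (∅ : Finset (Fin n))).comp
    (A.comp (ContinuousLinearMap.apply ℝ (H n) (vac n))), fun a => ?_, fun α => h α⟩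
  change |A (a (vac n)) ∅| ≤ ‖a‖
  have h1 : ‖vac n‖ = 1 := by simp [vac]
  calc |A (a (vac n)) ∅| ≤ ‖A (a (vac n))‖ := by
        rw [← Real.norm_eq_abs]; exact PiLp.norm_apply_le _ _
    _ ≤ ‖a (vac n)‖ := hA _
    _ ≤ ‖a‖ * ‖vac n‖ := a.le_opNorm _
    _ = ‖a‖ := by rw [h1, mul_one]

end Crest.Agent.R192B
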