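import Crest.Agent.R192B.D0

set_option autoImplicit false

open MeasureTheory Set
open scoped ContDiff

namespace Crest.Agent.R192B

namespace KER

noncomputable def b (L k u : ℝ) : ℝ :=
  Real.smoothTransition ((4 - (L / k) ^ 2 * Real.sin (Real.pi * u / L) ^ 2) / 3)

theorem b_smooth (L k : ℝ) : ContDiff ℝ ∞ (b L k) := by
  unfold b
  refine Real.smoothTransition.contDiff.comp ?_
  fun_prop

theorem b_nonneg (L k u : ℝ) : 0 ≤ b L k u := Real.smoothTransition.nonneg _

theorem b_le (L k u : ℝ) : b L k u ≤ 1 := Real.smoothTransition.le_one _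

theorem b_neg (L k u : ℝ) : b L k (-u) = b L k u := by
  unfold b
  rw [mul_neg, neg_div, Real.sin_neg, neg_sq]

theorem b_per {L : ℝ} (k : ℝ) (hL : 0 < L) : Function.Periodic (b L k) L := by
  intro u
  unfold b
  have : Real.pi * (u + L) / L = Real.pi * u / L + Real.pi := by field_simp
  rw [this, Real.sin_add_pi, neg_sq]

theorem b_one {L k u : ℝ} (hk : 0 < k) (hL : 0 < L) (h0 : 0 ≤ u) (h1 : u ≤ k / 4) :
    b L k u = 1 := by
  refine Real.smoothTransition.one_of_one_le ?_
  have a1 : Real.sin (Real.pi * u / L) ^ 2 ≤ (Real.pi * u / L) ^ 2 := Real.sin_sq_le_sq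
  have a2 : Real.pi * u / L ≤ k / L := by
    refine div_le_div_of_nonneg_right ?_ hL.le
    nlinarith [Real.pi_le_four, Real.pi_pos]
  have a3 : (Real.pi * u / L) ^ 2 ≤ (k / L) ^ 2 := pow_le_pow_left₀ (by positivity) a2 2
  have a4 : (L / k) ^ 2 * (k / L) ^ 2 = 1 := by field_simp
  have a5 := mul_le_mul_of_nonneg_left (a1.trans a3) (sq_nonneg (L / k))
  linarith

theorem b_zero_half {L k u : ℝ} (hk : 0 < k) (hL : 0 < L) (h0 : k ≤ u) (h1 : u ≤ L / 2) :
    b L k u = 0 := by
  refine Real.smoothTransition.zero_of_nonpos ?_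
  have hu : 0 < u := lt_of_lt_of_le hk h0
  have a0 : Real.pi * u / L ≤ Real.pi / 2 := by
    rw [div_le_iff₀ hL]; nlinarith [Real.pi_pos]
  have a1 := Real.mul_le_sin (x := Real.pi * u / L) (by positivity) a0
  have a2 : 2 / Real.pi * (Real.pi * u / L) = 2 * u / L := by field_simp
  have a3 : 2 * k / L ≤ Real.sin (Real.pi * u / L) := by
    refine le_trans ?_ (a2 ▸ a1)
    exact div_le_div_of_nonneg_right (by linarith) hL.le
  have a4 : (2 * k / L) ^ 2 ≤ Real.sin (Real.pi * u / L) ^ 2 :=
    pow_le_pow_left₀ (by positivity) a3 2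
  have a5 := mul_le_mul_of_nonneg_left a4 (sq_nonneg (L / k))
  have a6 : (L / k) ^ 2 * (2 * k / L) ^ 2 = 4 := by field_simp; norm_num
  linarith

theorem b_zero {L k u : ℝ} (hk : 0 < k) (hL : 0 < L) (h0 : k ≤ u) (h1 : u ≤ L - k) :
    b L k u = 0 := by
  rcases le_total u (L / 2) with h | h
  · exact b_zero_half hk hL h0 h
  · have : b L k u = b L k (L - u) := by
      rw [← b_neg, ← b_per k hL (-u)]
      congr 1; ring
    rw [this]
    exact b_zero_half hk hL (by linarith) (by linarith)

end KER

open KER in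
theorem ker : KERStmt := by
  intro L k hk hkL
  have hL : 0 < L := by linarith
  have hc : Continuous (b L k) := (b_smooth L k).continuous
  have hi : ∀ x y, IntervalIntegrable (b L k) volume x y := fun x y => hc.intervalIntegrable x y
  set Z : ℝ := ∫ u in (0 : ℝ)..L, b L k u with hZ
  have hZk : k / 4 ≤ Z := by
    have e1 : ∫ u in (0 : ℝ)..(k / 4), b L k u = k / 4 := by
      rw [intervalIntegral.integral_congr (g := fun _ => (1 : ℝ))]
      · simp
      · intro u hu
        rw [uIcc_of_le (by positivity)] at hu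
        exact b_one hk hL hu.1 hu.2
    have e2 : 0 ≤ ∫ u in (k / 4)..L, b L k u :=
      intervalIntegral.integral_nonneg (by linarith) fun u _ => b_nonneg L k u
    have e3 := intervalIntegral.integral_add_adjacent_intervals (hi 0 (k / 4)) (hi (k / 4) L)
    linarith
  have hZ0 : 0 < Z := lt_of_lt_of_le (by positivity) hZk
  set K : ℝ → ℝ := fun u => (∫ r in (0 : ℝ)..u, b L k r) / Z with hK
  have hd : ∀ u, HasDerivAt K (b L k u / Z) u := fun u =>
    (hc.integral_hasStrictDerivAt 0 u).hasDerivAt.div_const Z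
  have hder : deriv K = fun u => b L k u / Z := funext fun u => (hd u).deriv
  have hper : ∀ u, K (u + L) = K u + 1 := by
    intro u
    have e1 := intervalIntegral.integral_add_adjacent_intervals (hi 0 u) (hi u (u + L))
    have e2 := (b_per k hL).intervalIntegral_add_eq u 0
    rw [zero_add] at e2
    simp only [hK]
    rw [← e1, e2, ← hZ]
    field_simp
  have hodd : ∀ u, K (-u) = -K u := by
    intro u
    have e1 := intervalIntegral.integral_comp_neg (a := 0) (b := u) (b L k)
    simp only [b_neg, neg_zero] at e1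
    simp only [hK]
    rw [intervalIntegral.integral_symm (-u) 0, ← e1, neg_div]
  refine ⟨K, ?_, hper, hodd, ?_, ?_, ?_⟩
  · rw [contDiff_infty_iff_deriv]
    refine ⟨fun u => (hd u).differentiableAt, ?_⟩
    rw [hder]
    exact (b_smooth L k).div_const Z
  · intro u
    rw [hder]
    exact div_nonneg (b_nonneg L k u) hZ0.le
  · intro u
    rw [hder]
    show b L k u / Z ≤ 10 / k
    rw [div_le_div_iff₀ hZ0 hk]
    nlinarith [b_le L k u, b_nonneg L k u]
  · intro u h0 h1
    have hmid : K (L / 2) = 1 / 2 := by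
      have e1 := hper (-(L / 2))
      rw [hodd, show -(L / 2) + L = L / 2 by ring] at e1
      linarith
    have e1 := intervalIntegral.integral_add_adjacent_intervals (hi 0 (L / 2)) (hi (L / 2) u)
    have e2 : ∫ r in (L / 2)..u, b L k r = 0 := by
      rw [intervalIntegral.integral_congr (g := fun _ => (0 : ℝ))]
      · simp
      · intro r hr
        rcases mem_uIcc.1 hr with h | h
        · exact b_zero hk hL (by linarith [h.1]) (by linarith [h.2])
        · exact b_zero hk hL (by linarith [h.1]) (by linarith [h.2])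
    rw [← hmid]
    simp only [hK]
    rw [← e1, e2, add_zero]

end Crest.Agent.R192B
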