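import Crest.Agent.R192B.D2

/-! Row 192, task KIN: kernel integrals. -/

set_option autoImplicit false

open MeasureTheory Set intervalIntegral
open scoped ContDiff

namespace Crest.Agent.R192B

namespace KIN

theorem zero_int {f : ℝ → ℝ} {L : ℝ} (hp : Function.Periodic f L) (ho : ∀ u, f (-u) = -f u)
    (a : ℝ) : ∫ x in a..a + L, f x = 0 := by
  rw [hp.intervalIntegral_add_eq a (-(L / 2)), show -(L / 2) + L = L / 2 by ring]
  have h := integral_comp_neg (a := -(L / 2)) (b := L / 2) f
  simp only [ho, intervalIntegral.integral_neg, neg_neg] at h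
  linarith

theorem shift_int (f : ℝ → ℝ) (L v : ℝ) :
    ∫ s in (0 : ℝ)..L, f (s - v) = ∫ x in -v..-v + L, f x := by
  rw [integral_comp_sub_right f v]
  congr 1 <;> ring

theorem cs {a : ℝ → ℝ} {L : ℝ} (hL : 0 < L) (ha : Continuous a) :
    (∫ s in (0 : ℝ)..L, a s) ^ 2 ≤ L * ∫ s in (0 : ℝ)..L, a s ^ 2 := by
  obtain ⟨I, hI⟩ : ∃ I, I = ∫ s in (0 : ℝ)..L, a s := ⟨_, rfl⟩
  have h0 : 0 ≤ ∫ s in (0 : ℝ)..L, (L * a s - I) ^ 2 :=
    integral_nonneg hL.le fun s _ => sq_nonneg _
  have h1 : ∫ s in (0 : ℝ)..L, (L * a s - I) ^ 2 =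
      ∫ s in (0 : ℝ)..L, (L ^ 2 * a s ^ 2 - 2 * L * I * a s + I ^ 2) :=
    integral_congr fun s _ => by ring
  rw [h1, intervalIntegral.integral_add, intervalIntegral.integral_sub,
    intervalIntegral.integral_const_mul, intervalIntegral.integral_const_mul,
    intervalIntegral.integral_const, ← hI] at h0
  · rw [← hI]
    simp only [sub_zero, smul_eq_mul] at h0
    have h2 : L * I ^ 2 ≤ L * (L * ∫ s in (0 : ℝ)..L, a s ^ 2) := by nlinarith
    exact le_of_mul_le_mul_left h2 hL
  all_goals exact Continuous.intervalIntegrable (by fun_prop) _ _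

theorem nT_sq {n : ℕ} (T : Finset (Fin n)) (u : Fin n → ℝ) : nT T u ^ 2 = ∑ i ∈ T, u i ^ 2 :=
  Real.sq_sqrt (Finset.sum_nonneg fun _ _ => sq_nonneg _)

variable {L k : ℝ} {K : ℝ → ℝ}

theorem diff (h : IsKer L k K) : Differentiable ℝ K := h.smooth.differentiable (by simp)

theorem mono (h : IsKer L k K) : Monotone K := monotone_of_deriv_nonneg (diff h) h.d_nonneg

theorem cont_deriv (h : IsKer L k K) : Continuous (deriv K) := h.smooth.continuous_deriv (by simp)

theorem K0 (h : IsKer L k K) : K 0 = 0 := by
  have := h.odd 0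
  rw [neg_zero] at this
  linarith

theorem K01 (h : IsKer L k K) {u : ℝ} (hu : u ∈ Ico 0 L) : 0 ≤ K u ∧ K u ≤ 1 := by
  have h1 := mono h hu.1
  have h2 := mono h hu.2.le
  have h3 := h.per 0
  rw [zero_add] at h3
  rw [K0 h] at h1 h3
  constructor <;> linarith

theorem int_deriv_sq (h : IsKer L k K) (hL : 0 ≤ L) (v : ℝ) :
    ∫ s in (0 : ℝ)..L, deriv K (s - v) ^ 2 ≤ 10 / k := by
  have hc := cont_deriv h
  have h1 : ∫ s in (0 : ℝ)..L, deriv K (s - v) = 1 := by
    rw [shift_int (deriv K), integral_deriv_eq_sub (fun x _ => diff h x) (hc.intervalIntegrable _ _),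
      h.per]
    ring
  calc ∫ s in (0 : ℝ)..L, deriv K (s - v) ^ 2 ≤ ∫ s in (0 : ℝ)..L, 10 / k * deriv K (s - v) := by
        refine integral_mono_on hL (Continuous.intervalIntegrable (by fun_prop) _ _)
          (Continuous.intervalIntegrable (by fun_prop) _ _) fun s _ => ?_
        rw [sq]
        exact mul_le_mul_of_nonneg_right (h.d_le _) (h.d_nonneg _)
    _ = 10 / k := by rw [intervalIntegral.integral_const_mul, h1, mul_one]

theorem int_K (h : IsKer L k K) (hL : 0 < L) (v : ℝ) :
    ∫ s in (0 : ℝ)..L, K (s - v) = L / 2 - v := by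
  have hc := h.smooth.continuous
  have h1 := zero_int (f := fun u => K u - u / L) (L := L)
    (fun u => by simp only [h.per]; field_simp; ring) (fun u => by simp only [h.odd]; ring) (-v)
  rw [intervalIntegral.integral_sub (hc.intervalIntegrable _ _)
    (Continuous.intervalIntegrable (by fun_prop) _ _), intervalIntegral.integral_div,
    integral_id] at h1
  rw [shift_int K, sub_eq_zero.1 h1]
  field_simp
  ring

end KIN

open KIN in
theorem kin : KINStmt := by
  intro L k K hk hkL h
  have hL : 0 < L := by linarith
  refine ⟨mono h, fun n T t => ?_, fun k' K' hkk hk'L h' => ?_, fun n p t hp => ?_⟩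
  · have hc := cont_deriv h
    have c1 : Continuous (aK K T t) := by
      unfold aK nT
      fun_prop
    have c2 : (∫ s in (0 : ℝ)..L, aK K T t s ^ 2) ≤ 10 * T.card / k := by
      simp only [aK, nT_sq]
      rw [intervalIntegral.integral_finset_sum fun l _ =>
        Continuous.intervalIntegrable (by fun_prop) _ _]
      refine (Finset.sum_le_card_nsmul T _ (10 / k) fun l _ => int_deriv_sq h hL.le (t l)).trans
        (le_of_eq ?_)
      rw [nsmul_eq_mul]; ring
    refine ⟨c1, c2, Real.le_sqrt_of_sq_le ((cs hL c1).trans ?_)⟩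
    refine (mul_le_mul_of_nonneg_left c2 hL.le).trans (le_of_eq ?_)
    ring
  · have hc := h.smooth.continuous
    have hc' := h'.smooth.continuous
    have hcc : Continuous fun r => K r - K' r := hc.sub hc'
    have hper : Function.Periodic (fun r => K r - K' r) L := fun u => by
      simp only [h.per, h'.per]; ring
    have hd : ∀ u, HasDerivAt (HK K K') (K u - K' u) u := fun u =>
      (hcc.integral_hasStrictDerivAt 0 u).hasDerivAt
    have hd' : deriv (HK K K') = fun u => K u - K' u := funext fun u => (hd u).deriv
    have hb : ∀ u, |K u - K' u| ≤ 1 := fun u => by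
      obtain ⟨y, hy, e⟩ := hper.exists_mem_Ico₀ hL u
      have h1 := K01 h hy
      have h2 := K01 h' hy
      rw [e, abs_le]
      constructor <;> linarith [h1.1, h1.2, h2.1, h2.2]
    refine ⟨?_, fun u => ?_, fun u => (hd u).deriv, hb, fun n T t => ⟨?_, ?_⟩⟩
    · rw [contDiff_infty_iff_deriv]
      exact ⟨fun u => (hd u).differentiableAt, by rw [hd']; exact h.smooth.sub h'.smooth⟩
    · have h1 := zero_int hper (fun u => by simp only [h.odd, h'.odd]; ring) u
      unfold HK
      rw [← integral_add_adjacent_intervals (b := u) (hcc.intervalIntegrable _ _)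
        (hcc.intervalIntegrable _ _), h1]
    · unfold bK nT
      fun_prop
    · simp only [bK, nT_sq]
      rw [intervalIntegral.integral_finset_sum fun l _ =>
        Continuous.intervalIntegrable (by fun_prop) _ _]
      refine (Finset.sum_le_card_nsmul T _ (2 * k') fun l _ => ?_).trans (le_of_eq ?_)
      · have hper2 : Function.Periodic (fun r => (K r - K' r) ^ 2) L := fun u => by
          simp only [h.per, h'.per]; ring
        have hc2 : Continuous fun r => (K r - K' r) ^ 2 := hcc.pow 2
        rw [shift_int (fun r => (K r - K' r) ^ 2), hper2.intervalIntegral_add_eq _ (-k'),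
          ← integral_add_adjacent_intervals (b := k') (hc2.intervalIntegrable _ _)
            (hc2.intervalIntegrable _ _)]
        have h1 : ∫ x in k'..-k' + L, (K x - K' x) ^ 2 = 0 := by
          rw [← intervalIntegral.integral_zero (a := k') (b := -k' + L) (μ := volume) (E := ℝ)]
          refine integral_congr fun x hx => ?_
          rw [uIcc_of_le (by linarith)] at hx
          rw [h.flat x (by linarith [hx.1]) (by linarith [hx.2]),
            h'.flat x hx.1 (by linarith [hx.2])]
          ring
        have h2 : ∫ x in -k'..k', (K x - K' x) ^ 2 ≤ ∫ _ in -k'..k', (1 : ℝ) := by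
          refine integral_mono_on (by linarith) (hc2.intervalIntegrable _ _)
            (continuous_const.intervalIntegrable _ _) fun x _ => ?_
          rw [← sq_abs]
          exact pow_le_one₀ (abs_nonneg _) (hb x)
        rw [intervalIntegral.integral_const, smul_eq_mul] at h2
        linarith
      · rw [nsmul_eq_mul]; ring
  · have hc := h.smooth.continuous
    have htel : ∑ i : Fin n, (p i.succ - p i.castSucc) = 0 := by
      rw [Finset.sum_sub_distrib]
      have h1 := Fin.sum_univ_succ p
      have h2 := Fin.sum_univ_castSucc p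
      linarith
    simp only [lin, avg]
    rw [intervalIntegral.integral_add (continuous_const.intervalIntegrable _ _)
      (Continuous.intervalIntegrable (by fun_prop) _ _), intervalIntegral.integral_const,
      intervalIntegral.integral_finset_sum fun l _ =>
        Continuous.intervalIntegrable (by fun_prop) _ _]
    simp only [intervalIntegral.integral_const_mul, int_K h hL, smul_eq_mul]
    have h3 : ∑ i : Fin n, (p i.succ - p i.castSucc) * (L / 2 - t i) =
        L / 2 * ∑ i : Fin n, (p i.succ - p i.castSucc) +
          L * ∑ i : Fin n, (p i.succ - p i.castSucc) * ((0 - t i) / L) := by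
      rw [Finset.mul_sum, Finset.mul_sum, ← Finset.sum_add_distrib]
      refine Finset.sum_congr rfl fun i _ => ?_
      field_simp
      ring
    rw [h3, htel]
    ring

end Crest.Agent.R192B
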