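import Crest.Agent.R192B.D0

set_option autoImplicit false

open scoped Pointwise

namespace Crest.Agent.R192B

theorem len_ : LENStmt := by
  classical
  intro G _ S D
  set T : Finset G := insert 1 (S ∪ S⁻¹) with hT
  have hT1 : (1 : G) ∈ T := Finset.mem_insert_self _ _
  have hTi : T⁻¹ = T := by
    ext x
    simp only [hT, Finset.mem_inv', Finset.mem_insert, Finset.mem_union, inv_eq_one, inv_inv]
    tauto
  have hTc : T.card ≤ 2 * S.card + 2 := by
    have h1 : T.card ≤ (S ∪ S⁻¹).card + 1 := Finset.card_insert_le (1 : G) (S ∪ S⁻¹)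
    have h2 := Finset.card_union_le S S⁻¹
    have h3 : S⁻¹.card = S.card := Finset.card_inv S
    omega
  have hinv : ∀ (n : ℕ) (x : G), x⁻¹ ∈ T ^ n ↔ x ∈ T ^ n := by
    intro n x
    rw [← Finset.mem_inv', ← inv_pow, hTi]
  have hmem : ∀ x : G, sInf {n | n = D ∨ x ∈ T ^ n} = D ∨ x ∈ T ^ sInf {n | n = D ∨ x ∈ T ^ n} :=
    fun x => Nat.sInf_mem (s := {n | n = D ∨ x ∈ T ^ n}) ⟨D, Or.inl rfl⟩
  have hle : ∀ x : G, sInf {n | n = D ∨ x ∈ T ^ n} ≤ D := fun x => Nat.sInf_le (Or.inl rfl)
  refine ⟨fun x => sInf {n | n = D ∨ x ∈ T ^ n}, ?_, ?_, ?_, ?_, hle, ?_⟩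
  · exact Nat.le_zero.mp (Nat.sInf_le (Or.inr (by simp)))
  · intro x
    simp only [hinv]
  · intro x y
    rcases hmem x with hx | hx
    · have := hle (x * y)
      omega
    · rcases hmem y with hy | hy
      · have := hle (x * y)
        omega
      · refine Nat.sInf_le (Or.inr ?_)
        rw [pow_add]
        exact Finset.mul_mem_mul hx hy
  · intro s hs
    refine Nat.sInf_le (Or.inr ?_)
    rw [pow_one]
    exact Finset.mem_insert_of_mem (Finset.mem_union_left _ hs)
  · intro r hr
    refine ⟨T ^ r, Finset.card_pow_le.trans (Nat.pow_le_pow_left hTc r), fun x hx => ?_⟩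
    rcases hmem x with h | h
    · omega
    · exact Finset.pow_subset_pow_right hT1 hx h

theorem cs : CSStmt := by
  have h0 : ∀ x, x ≤ 0 → deriv ST x = 0 := by
    intro x hx
    refine IsLocalMin.deriv_eq_zero (Filter.Eventually.of_forall fun y => ?_)
    rw [show ST x = 0 from Real.smoothTransition.zero_of_nonpos hx]
    exact Real.smoothTransition.nonneg y
  have h1 : ∀ x, 1 ≤ x → deriv ST x = 0 := by
    intro x hx
    refine IsLocalMax.deriv_eq_zero (Filter.Eventually.of_forall fun y => ?_)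
    rw [show ST x = 1 from Real.smoothTransition.one_of_one_le hx]
    exact Real.smoothTransition.le_one y
  have hc : Continuous (deriv ST) :=
    (Real.smoothTransition.contDiff (n := 1)).continuous_deriv le_rfl
  obtain ⟨C, hC⟩ := (isCompact_Icc (a := (0 : ℝ)) (b := 1)).exists_bound_of_continuousOn
    hc.continuousOn
  have hb : BddAbove (Set.range fun x => |deriv ST x|) := by
    refine ⟨max C 0, ?_⟩
    rintro _ ⟨x, rfl⟩
    by_cases hx0 : x ≤ 0
    · simp [h0 x hx0]
    · by_cases hx1 : 1 ≤ x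
      · simp [h1 x hx1]
      · exact le_max_of_le_left (hC x ⟨le_of_lt (not_le.mp hx0), le_of_lt (not_le.mp hx1)⟩)
  have hs : ∀ x, |deriv ST x| ≤ ⨆ x, |deriv ST x| := fun x => le_ciSup hb x
  refine ⟨?_, fun x => ?_, h0, h1⟩
  · have := (abs_nonneg _).trans (hs 0)
    unfold cS; linarith
  · have := hs x
    unfold cS; linarith

end Crest.Agent.R192B
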