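import Crest.Agent.R192B.D2

set_option autoImplicit false

open Set Finset
open scoped ContDiff

namespace Crest.Agent.R192B
namespace LIN

theorem tele {n : ℕ} (p : Fin (n + 1) → ℝ) :
    ∑ i : Fin n, (p i.succ - p i.castSucc) = p (Fin.last n) - p 0 := by
  have h1 := Fin.sum_univ_succ p
  have h2 := Fin.sum_univ_castSucc p
  rw [sum_sub_distrib]
  linarith

theorem hasF {n : ℕ} {K : ℝ → ℝ} (hK : ContDiff ℝ ∞ K) (c0 : ℝ) (p : Fin (n + 1) → ℝ) (s : ℝ)
    (t : Fin n → ℝ) : HasFDerivAt (lin K c0 p s)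
      (∑ i : Fin n, (p i.succ - p i.castSucc) • (deriv K (s - t i) •
        (-(ContinuousLinearMap.proj i : (Fin n → ℝ) →L[ℝ] ℝ)))) t := by
  unfold lin
  refine HasFDerivAt.const_add _ (HasFDerivAt.fun_sum fun i _ => ?_)
  refine HasFDerivAt.const_mul ?_ _
  have h1 : HasDerivAt K (deriv K (s - t i)) (s - t i) :=
    (hK.differentiable (by simp) _).hasDerivAt
  have h2 : HasFDerivAt (fun t : Fin n → ℝ => s - t i)
      (-(ContinuousLinearMap.proj i : (Fin n → ℝ) →L[ℝ] ℝ)) t :=
    (hasFDerivAt_apply i t).const_sub s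
  exact h1.comp_hasFDerivAt t h2

theorem gr_eq {n : ℕ} {K : ℝ → ℝ} (hK : ContDiff ℝ ∞ K) (c0 : ℝ) (p : Fin (n + 1) → ℝ) (s : ℝ)
    (t : Fin n → ℝ) (l : Fin n) :
    gr (lin K c0 p) s t l = -(p l.succ - p l.castSucc) * deriv K (s - t l) := by
  unfold gr
  rw [(hasF hK c0 p s t).fderiv, ContinuousLinearMap.sum_apply, sum_eq_single l]
  · simp [ee]
    ring
  · intro i _ hi
    simp [ee, hi]
  · simp

end LIN

theorem lin_ : LINStmt := by
  intro n K hK
  refine ⟨fun c0 p => ⟨?_, ?_, LIN.gr_eq hK c0 p, ?_, ?_⟩, ?_⟩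
  · unfold Sm lin
    fun_prop
  · intro s t c
    simp [lin]
  · intro L hL hp s t
    unfold lin
    have h1 : ∀ i : Fin n, K (s + L - t i) = K (s - t i) + c0 := fun i => by
      rw [← hL]; congr 1; ring
    simp only [h1, mul_add, sum_add_distrib, ← sum_mul, LIN.tele, hp]
    ring
  · intro T b hb hp s t
    unfold aK nT
    rw [← Real.sqrt_sq hb, ← Real.sqrt_mul (sq_nonneg b), mul_sum]
    refine Real.sqrt_le_sqrt (sum_le_sum fun l _ => ?_)
    rw [LIN.gr_eq hK, mul_pow, neg_sq]
    exact mul_le_mul_of_nonneg_right (sq_le_sq' (abs_le.1 (hp l)).1 (abs_le.1 (hp l)).2)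
      (sq_nonneg _)
  · intro L _ hm hL t ht s
    set a : Fin n → ℝ := fun i => K (s - t i) - K (s - L) with ha
    have h0 : ∀ i, 0 ≤ a i := fun i => sub_nonneg.2 (hm (by linarith [(ht.1 i).2]))
    have h1 : ∀ i, a i ≤ 1 := fun i => by
      have h2 := hL (s - L)
      have h3 : K (s - t i) ≤ K (s - L + L) := hm (by linarith [(ht.1 i).1])
      simp only [ha]
      linarith
    have h2 : ∀ i j, i ≤ j → a j ≤ a i := fun i j hij => by
      have h3 : K (s - t j) ≤ K (s - t i) := hm (by linarith [ht.2 hij])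
      simp only [ha]
      linarith
    refine ⟨fun j => (Fin.cons 1 a : Fin (n + 1) → ℝ) j - (Fin.snoc a 0 : Fin (n + 1) → ℝ) j,
      fun j => sub_nonneg.2 ?_, ?_, fun p hp => ?_⟩
    · have key : ∀ (j : Fin (n + 1)) (c : ℝ), 0 ≤ c → (∀ i : Fin n, j = i.castSucc → a i ≤ c) →
          (Fin.snoc a 0 : Fin (n + 1) → ℝ) j ≤ c := by
        intro j c hc h
        induction j using Fin.lastCases with
        | last => simpa using hc
        | cast i => simpa using h i rfl
      induction j using Fin.cases with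
      | zero => exact key _ _ (by simp) fun i _ => by simpa using h1 i
      | succ i =>
        refine key _ _ (by simpa using h0 i) fun i' hi' => ?_
        have h3 : (i : ℕ) + 1 = i' := by simpa using congrArg Fin.val hi'
        simpa using h2 i i' (by rw [Fin.le_def]; omega)
    · rw [sum_sub_distrib, Fin.sum_univ_succ, Fin.sum_univ_castSucc]
      simp
    · simp only [sub_mul]
      rw [sum_sub_distrib, Fin.sum_univ_succ, Fin.sum_univ_castSucc]
      simp only [Fin.cons_zero, Fin.cons_succ, Fin.snoc_castSucc, Fin.snoc_last]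
      have h3 := LIN.tele p
      have h4 : ∑ i : Fin n, (p i.succ - p i.castSucc) * K (s - t i) =
          ∑ i : Fin n, a i * p i.succ - ∑ i : Fin n, a i * p i.castSucc +
            (∑ i : Fin n, (p i.succ - p i.castSucc)) * K (s - L) := by
        rw [sum_mul, ← sum_sub_distrib, ← sum_add_distrib]
        refine sum_congr rfl fun i _ => ?_
        simp only [ha]
        ring
      unfold lin
      rw [h4, h3, hp]
      ring

end Crest.Agent.R192B
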