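import Crest.Agent.R192B.D2

/-! Row 192, task LOC. -/

set_option autoImplicit false

open MeasureTheory Set
open scoped ContDiff

namespace Crest.Agent.R192B

namespace LOC

theorem good_imp {Z : Type} (d : Z → Z → ℕ) (X J m : ℕ) (a : ℝ) (E E' : Z → Fin (m + 1)) (x : Z)
    (h : ∀ y, d x y ≤ 3 * X + 3 → E y = E' y) (hg : GoodQ d X J a E x) : GoodQ d X J a E' x := by
  intro ν h1 h2 A hA
  refine hg ν h1 h2 A fun x' hx' => ⟨(hA x' hx').1, fun x'' hx'' => ?_⟩
  rw [h x' (hA x' hx').1, h x'' hx'']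
  exact (hA x' hx').2 x'' hx''

theorem good_iff {Z : Type} (d : Z → Z → ℕ) (X J m : ℕ) (a : ℝ) (E E' : Z → Fin (m + 1)) (x : Z)
    (h : ∀ y, d x y ≤ 3 * X + 3 → E y = E' y) : GoodQ d X J a E x ↔ GoodQ d X J a E' x :=
  ⟨good_imp d X J m a E E' x h, good_imp d X J m a E' E x fun y hy => (h y hy).symm⟩

theorem wQ_congr {Z : Type} (d : Z → Z → ℕ) (D X J m : ℕ) (a : ℝ) (E E' : Z → Fin (m + 1)) {n : ℕ}
    (f : Z → Fn n) (B : Finset Z) (hD : 3 * X + 3 < D) (hB : ∀ z, z ∉ B → ∀ s t, f z s t = D)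
    (h0 : ∀ x ∈ B, E x = E' x) (h : ∀ x ∈ B, ∀ y, d x y ≤ 3 * X + 3 → E y = E' y) (x : Z) :
    wQ d X J a E f x = wQ d X J a E' f x := by
  have hD' : 3 * (X : ℝ) + 3 < D := by exact_mod_cast hD
  have hX : (0 : ℝ) ≤ X := Nat.cast_nonneg _
  funext s t
  unfold wQ
  by_cases hx : x ∈ B
  · have h1 : GoodQ d X J a E x = GoodQ d X J a E' x := propext (good_iff d X J m a E E' x (h x hx))
    have h2 : ∀ x', ST (2 * X + 2 - f x' s t) *
        ST (((f x s t - a * ((E x : ℕ) : ℝ)) - (f x' s t - a * ((E x' : ℕ) : ℝ))) / a) =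
        ST (2 * X + 2 - f x' s t) *
        ST (((f x s t - a * ((E' x : ℕ) : ℝ)) - (f x' s t - a * ((E' x' : ℕ) : ℝ))) / a) := by
      intro x'
      by_cases hx' : x' ∈ B
      · rw [h0 x hx, h0 x' hx']
      · have : ST (2 * X + 2 - f x' s t) = 0 :=
          Real.smoothTransition.zero_of_nonpos (by rw [hB x' hx']; linarith)
        rw [this, zero_mul, zero_mul]
    simp only [h2]
    rw [h1]
  · have : ST (X + 1 - f x s t) = 0 :=
      Real.smoothTransition.zero_of_nonpos (by rw [hB x hx]; linarith)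
    rw [this, mul_zero, zero_mul, mul_zero, zero_mul]

theorem AQ_loc (hP : PROFStmt) {Z : Type} (d : Z → Z → ℕ) (M D X m : ℕ) (hm : Met d M D)
    (hD : 3 * X + 3 < D) {n : ℕ} (p : Fin (n + 1) → Z) :
    ∃ F : Finset Z, ∀ E E' : Z → Fin (m + 1), (∀ z ∈ F, E z = E' z) →
      ∀ (L : ℝ) (J : ℕ) (a : ℝ) (K : ℝ → ℝ), AQ d L X J a E K p = AQ d L X J a E' K p := by
  classical
  obtain ⟨B, -, hB, -⟩ := hP Z d M D n p hm
  choose Bx _ hBx using fun x => hm.ball x (3 * X + 3) hD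
  refine ⟨B ∪ B.biUnion Bx, fun E E' h L J a K => ?_⟩
  have := wQ_congr d D X J m a E E' (fK d K p) B hD (hB K)
    (fun x hx => h x (Finset.mem_union_left _ hx))
    (fun x hx y hy => h y (Finset.mem_union_right _ (Finset.mem_biUnion.2 ⟨x, hx, hBx x y hy⟩)))
  unfold AQ
  simp only [this]

theorem fin_dep {Z α : Type} (m : ℕ) (F : Finset Z)
    (Φ : (Z → Fin (m + 1)) × (Z → Fin (m + 1)) → α)
    (h : ∀ w w', (∀ z ∈ F, w.1 z = w'.1 z) → (∀ z ∈ F, w.2 z = w'.2 z) → Φ w = Φ w') :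
    ∃ (m' : ℕ) (c : (Z → Fin (m + 1)) × (Z → Fin (m + 1)) → Fin m') (B : Fin m' → α),
      Measurable c ∧ ∀ w, Φ w = B (c w) := by
  classical
  let r : (Z → Fin (m + 1)) × (Z → Fin (m + 1)) → (F → Fin (m + 1)) × (F → Fin (m + 1)) :=
    fun w => (fun z => w.1 z, fun z => w.2 z)
  let ex : (F → Fin (m + 1)) → Z → Fin (m + 1) := fun φ z => if h : z ∈ F then φ ⟨z, h⟩ else 0
  let e := Fintype.equivFin ((F → Fin (m + 1)) × (F → Fin (m + 1)))
  have hr : Measurable r :=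
    (measurable_pi_lambda _ fun z => (measurable_pi_apply _).comp measurable_fst).prodMk
      (measurable_pi_lambda _ fun z => (measurable_pi_apply _).comp measurable_snd)
  refine ⟨_, fun w => e (r w), fun k => Φ (ex (e.symm k).1, ex (e.symm k).2),
    (measurable_of_finite e).comp hr, fun w => ?_⟩
  simp only [Equiv.symm_apply_apply]
  exact h _ _ (fun z hz => by simp [ex, r, hz]) (fun z hz => by simp [ex, r, hz])

end LOC

theorem loc : METStmt → PROFStmt → LOCStmt := by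
  intro hM hP
  refine ⟨fun Z d X J m a E E' x _ h => LOC.good_iff d X J m a E E' x h, ?_⟩
  intro G _ S M D len g X0 I C ρ₀ m a L Ks Ψ ϑ hl hD n y
  obtain ⟨F, hF⟩ := LOC.AQ_loc hP (dq g len) M D (X0 * 16 ^ I) m (hM G S M D len g hl).1 hD
    (fun j => pZ g (y j))
  refine LOC.fin_dep m F (fun w => Atot g len L M X0 I C ρ₀ a Ks Ψ ϑ w n y) fun w w' h1 h2 => ?_
  unfold Atot
  simp only [hF _ _ h1, hF _ _ h2]

end Crest.Agent.R192B
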