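import Crest.Agent.R192B.D0

set_option autoImplicit false

namespace Crest.Agent.R192B
namespace MAU
open Finset

theorem step {Z : Type} (B : Finset Z) (u : Z → Z → ℝ) (ν : Z →₀ ℝ) (hν : IsPr ν) (b : ℝ)
    (hb : b ≤ 1) (hu : ∀ x ∈ B, ∀ y, |u x y| ≤ b) (h0 : ∀ x ∈ B, ∑ y ∈ ν.support, ν y * u x y = 0)
    (S : Z → ℝ) : ∃ y ∈ ν.support, ∑ x ∈ B, (Real.exp (S x + u x y) + Real.exp (-(S x + u x y))) ≤
      Real.exp (b ^ 2) * ∑ x ∈ B, (Real.exp (S x) + Real.exp (-(S x))) := by
  have h1 : ∑ y ∈ ν.support, ν y = 1 := hν.2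
  have hne : ν.support.Nonempty := by
    rw [nonempty_iff_ne_empty]
    intro h
    rw [h] at h1
    simp at h1
  set K := Real.exp (b ^ 2) * ∑ x ∈ B, (Real.exp (S x) + Real.exp (-(S x))) with hK
  have key : ∑ y ∈ ν.support, ν y * ∑ x ∈ B, (Real.exp (S x + u x y) + Real.exp (-(S x + u x y))) ≤
      ∑ y ∈ ν.support, ν y * K := by
    rw [← sum_mul, h1, one_mul, hK, mul_sum]
    simp only [mul_sum]
    rw [sum_comm]
    refine sum_le_sum fun x hx => ?_
    have e1 : ∀ t : ℝ, |t| ≤ b → Real.exp t ≤ 1 + t + b ^ 2 := by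
      intro t ht
      have a1 := (abs_le.1 (Real.abs_exp_sub_one_sub_id_le (ht.trans hb))).2
      have a2 : t ^ 2 ≤ b ^ 2 := by
        rw [← sq_abs t]; gcongr
      linarith
    calc ∑ y ∈ ν.support, ν y * (Real.exp (S x + u x y) + Real.exp (-(S x + u x y)))
        ≤ ∑ y ∈ ν.support, ((1 + b ^ 2) * (Real.exp (S x) + Real.exp (-(S x))) * ν y +
            (Real.exp (S x) - Real.exp (-(S x))) * (ν y * u x y)) := by
          refine sum_le_sum fun y _ => ?_
          have a1 := e1 (u x y) (hu x hx y)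
          have a2 := e1 (-u x y) (by rw [abs_neg]; exact hu x hx y)
          rw [Real.exp_add, neg_add, Real.exp_add]
          calc ν y * (Real.exp (S x) * Real.exp (u x y) + Real.exp (-S x) * Real.exp (-u x y))
              ≤ ν y * (Real.exp (S x) * (1 + u x y + b ^ 2) +
                  Real.exp (-S x) * (1 + -u x y + b ^ 2)) := by
                have := hν.1 y
                gcongr
            _ = _ := by ring
      _ = (1 + b ^ 2) * (Real.exp (S x) + Real.exp (-(S x))) := by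
          rw [sum_add_distrib, ← mul_sum, ← mul_sum, h1, h0 x hx]; ring
      _ ≤ _ := by
          gcongr
          linarith [Real.add_one_le_exp (b ^ 2)]
  obtain ⟨y, hy, h⟩ := exists_le_of_sum_le hne key
  have hpos : 0 < ν y := lt_of_le_of_ne (hν.1 y) (Finsupp.mem_support_iff.1 hy).symm
  exact ⟨y, hy, le_of_mul_le_mul_left h hpos⟩

theorem iter {Z : Type} (B : Finset Z) (u : Z → Z → ℝ) (ν : Z →₀ ℝ) (hν : IsPr ν) (b : ℝ)
    (hb : b ≤ 1) (hu : ∀ x ∈ B, ∀ y, |u x y| ≤ b) (h0 : ∀ x ∈ B, ∑ y ∈ ν.support, ν y * u x y = 0)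
    (n : ℕ) : ∃ ys : Fin n → Z, (∀ j, ys j ∈ ν.support) ∧
      ∑ x ∈ B, (Real.exp (∑ j, u x (ys j)) + Real.exp (-(∑ j, u x (ys j)))) ≤
        Real.exp (n * b ^ 2) * (2 * B.card) := by
  induction n with
  | zero => exact ⟨Fin.elim0, fun j => j.elim0, by simp; linarith⟩
  | succ n ih =>
    obtain ⟨ys, h1, h2⟩ := ih
    obtain ⟨y, hy, h3⟩ := step B u ν hν b hb hu h0 fun x => ∑ j, u x (ys j)
    refine ⟨Fin.cons y ys, fun j => Fin.cases hy h1 j, ?_⟩
    simp only [Fin.sum_univ_succ, Fin.cons_zero, Fin.cons_succ]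
    calc _ = ∑ x ∈ B, (Real.exp (∑ j, u x (ys j) + u x y) + Real.exp (-(∑ j, u x (ys j) + u x y))) :=
          sum_congr rfl fun x _ => by rw [add_comm (u x y)]
      _ ≤ _ := h3
      _ ≤ Real.exp (b ^ 2) * (Real.exp (n * b ^ 2) * (2 * B.card)) := by gcongr
      _ = _ := by
          rw [← mul_assoc, ← Real.exp_add]; congr 2; push_cast; ring

end MAU
open MAU Finset

theorem mau : MAUStmt := by
  intro Z B g R a ν k hν ha haR hg hk hnum
  have hR : 0 < R := ha.trans_le haR
  have h1 : ∑ y ∈ ν.support, ν y = 1 := hν.2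
  set m : Z → ℝ := fun x => ν.sum fun y w => w * g x y with hm
  have hmR : ∀ x ∈ B, |m x| ≤ R := by
    intro x hx
    calc |m x| ≤ ∑ y ∈ ν.support, |ν y * g x y| := abs_sum_le_sum_abs _ _
      _ ≤ ∑ y ∈ ν.support, ν y * R := sum_le_sum fun y _ => by
          rw [abs_mul, abs_of_nonneg (hν.1 y)]
          exact mul_le_mul_of_nonneg_left (hg x hx y) (hν.1 y)
      _ = R := by rw [← sum_mul, h1, one_mul]
  set l : ℝ := a / (8 * R ^ 2) with hl
  have hl0 : 0 < l := by positivity
  obtain ⟨ys, hy, h⟩ := iter B (fun x y => l * (g x y - m x)) ν hν (a / (4 * R))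
    (by rw [div_le_one (by positivity)]; linarith)
    (fun x hx y => by
      rw [abs_mul, abs_of_pos hl0]
      have : |g x y - m x| ≤ 2 * R := (abs_sub _ _).trans (by linarith [hg x hx y, hmR x hx])
      calc l * |g x y - m x| ≤ l * (2 * R) := by gcongr
        _ = _ := by rw [hl]; field_simp; ring)
    (fun x _ => by
      have : ∀ y, ν y * (l * (g x y - m x)) = l * (ν y * g x y) - l * m x * ν y := fun y => by ring
      simp only [this]
      rw [sum_sub_distrib, ← mul_sum, ← mul_sum, h1, mul_one]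
      exact sub_self _) k
  refine ⟨ys, hy, fun x hx => ?_⟩
  by_contra hcon
  have hk0 : (0 : ℝ) < k := by exact_mod_cast hk
  set T : ℝ := ∑ j, l * (g x (ys j) - m x) with hT
  have hT2 : T = -(l * k) * (m x - (∑ j, g x (ys j)) / k) := by
    rw [hT, ← mul_sum, sum_sub_distrib]
    simp only [sum_const, card_univ, Fintype.card_fin, nsmul_eq_mul]
    field_simp
    ring
  have hT3 : l * k * a ≤ |T| := by
    rw [hT2, abs_mul, abs_neg, abs_of_pos (by positivity)]
    exact mul_le_mul_of_nonneg_left (not_le.1 hcon).le (by positivity)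
  have h2 : Real.exp (l * k * a) ≤ Real.exp T + Real.exp (-T) := by
    rcases le_abs.1 hT3 with h' | h'
    · linarith [Real.exp_le_exp.2 h', Real.exp_pos (-T)]
    · linarith [Real.exp_le_exp.2 h', Real.exp_pos T]
  have h3 : Real.exp T + Real.exp (-T) ≤ Real.exp (k * (a / (4 * R)) ^ 2) * (2 * B.card) :=
    le_trans (single_le_sum (f := fun x => Real.exp (∑ j, l * (g x (ys j) - m x)) +
      Real.exp (-(∑ j, l * (g x (ys j) - m x)))) (fun x _ => by positivity) hx) h
  have h4 : l * k * a = k * (a / (4 * R)) ^ 2 + k * a ^ 2 / (16 * R ^ 2) := by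
    rw [hl]; field_simp; ring
  have h5 : Real.log (2 * B.card + 1) ≤ k * a ^ 2 / (16 * R ^ 2) := by
    rw [le_div_iff₀ (by positivity)]
    nlinarith [sq_nonneg R]
  have h6 : (2 * B.card + 1 : ℝ) ≤ Real.exp (k * a ^ 2 / (16 * R ^ 2)) :=
    (Real.log_le_iff_le_exp (by positivity)).1 h5
  rw [h4, Real.exp_add] at h2
  have h7 := le_of_mul_le_mul_left (h2.trans h3) (Real.exp_pos _)
  linarith

end Crest.Agent.R192B
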