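import Crest.Agent.R192B.D0

/-! Row 192: task MET (the quotient metric). -/

set_option autoImplicit false

namespace Crest.Agent.R192B
namespace MET

variable {G : Type} [Group G]

lemma pZ_eq (g x y : G) : pZ g x = pZ g y ↔ ∃ k : ℤ, y = g ^ k * x := by
  unfold pZ
  rw [Quotient.eq, QuotientGroup.rightRel_apply, Subgroup.mem_zpowers_iff]
  constructor
  · rintro ⟨k, hk⟩
    exact ⟨k, by rw [hk]; group⟩
  · rintro ⟨k, hk⟩
    exact ⟨k, by rw [hk]; group⟩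

lemma pZ_zpow (g x : G) (k : ℤ) : pZ g (g ^ k * x) = pZ g x :=
  ((pZ_eq g x _).mpr ⟨k, rfl⟩).symm

lemma pZ_out (g : G) (z : Zq g) : pZ g z.out = z := Quotient.out_eq z

lemma pZ_surj (g : G) (z : Zq g) : ∃ x, z = pZ g x := ⟨z.out, (pZ_out g z).symm⟩

lemma dq_le_iff (g : G) (len : G → ℕ) (x y : G) (r : ℕ) :
    dq g len (pZ g x) (pZ g y) ≤ r ↔ ∃ k : ℤ, len ((g ^ k * x)⁻¹ * y) ≤ r := by
  constructor
  · intro h
    have hne : {r | ∃ x' y', pZ g x' = pZ g x ∧ pZ g y' = pZ g y ∧ len (x'⁻¹ * y') = r}.Nonempty :=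
      ⟨_, x, y, rfl, rfl, rfl⟩
    obtain ⟨x', y', h1, h2, h3⟩ := Nat.sInf_mem hne
    obtain ⟨a, rfl⟩ := (pZ_eq g x x').mp h1.symm
    obtain ⟨b, rfl⟩ := (pZ_eq g y y').mp h2.symm
    refine ⟨a - b, ?_⟩
    have e : (g ^ (a - b) * x)⁻¹ * y = (g ^ a * x)⁻¹ * (g ^ b * y) := by group
    rw [e, h3]
    exact h
  · rintro ⟨k, hk⟩
    refine le_trans (Nat.sInf_le ?_) hk
    exact ⟨g ^ k * x, y, pZ_zpow g x k, rfl, rfl⟩

lemma dq_ex (g : G) (len : G → ℕ) (x y : G) :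
    ∃ k : ℤ, len ((g ^ k * x)⁻¹ * y) ≤ dq g len (pZ g x) (pZ g y) :=
  (dq_le_iff g len x y _).mp le_rfl

lemma dq_symm_le {S : Finset G} {M D : ℕ} {len : G → ℕ} (h : IsLen S M D len) (g x y : G) :
    dq g len (pZ g x) (pZ g y) ≤ dq g len (pZ g y) (pZ g x) := by
  obtain ⟨k, hk⟩ := dq_ex g len y x
  rw [dq_le_iff]
  refine ⟨-k, ?_⟩
  have e : (g ^ (-k) * x)⁻¹ * y = ((g ^ k * y)⁻¹ * x)⁻¹ := by group
  rw [e, h.inv]
  exact hk

def lm (g h : G) (hc : Commute h g) : Zq g → Zq g :=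
  Quotient.map (fun y => h * y) (by
    intro a b hab
    have : pZ g a = pZ g b := Quotient.sound hab
    obtain ⟨k, rfl⟩ := (pZ_eq g a b).mp this
    have : pZ g (h * a) = pZ g (h * (g ^ k * a)) := by
      rw [pZ_eq]
      refine ⟨k, ?_⟩
      rw [← mul_assoc, (hc.zpow_right k).eq, mul_assoc]
    exact Quotient.exact this)

lemma lm_pZ (g h : G) (hc : Commute h g) (y : G) : lm g h hc (pZ g y) = pZ g (h * y) := rfl

lemma dq_mul (g : G) (len : G → ℕ) (h : G) (hc : Commute h g) (x y : G) :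
    dq g len (pZ g (h * x)) (pZ g (h * y)) = dq g len (pZ g x) (pZ g y) := by
  have e : ∀ k : ℤ, (g ^ k * (h * x))⁻¹ * (h * y) = (g ^ k * x)⁻¹ * y := by
    intro k
    rw [← mul_assoc (g ^ k), ← (hc.zpow_right k).eq]
    group
  apply eq_of_forall_ge_iff
  intro r
  rw [dq_le_iff, dq_le_iff]
  simp only [e]

end MET

open MET in
theorem met : METStmt := by
  classical
  intro G _ S M D len g h
  refine ⟨⟨?_, ?_, ?_, ?_, ?_⟩, ?_, ?_, ?_, dq_le_iff g len, ?_⟩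
  · intro z
    obtain ⟨x, rfl⟩ := pZ_surj g z
    apply Nat.eq_zero_of_le_zero
    rw [dq_le_iff]
    refine ⟨0, ?_⟩
    simp [h.one]
  · intro z z'
    obtain ⟨x, rfl⟩ := pZ_surj g z
    obtain ⟨y, rfl⟩ := pZ_surj g z'
    exact le_antisymm (dq_symm_le h g x y) (dq_symm_le h g y x)
  · intro z z' z''
    obtain ⟨x, rfl⟩ := pZ_surj g z
    obtain ⟨y, rfl⟩ := pZ_surj g z'
    obtain ⟨w, rfl⟩ := pZ_surj g z''
    obtain ⟨k, hk⟩ := dq_ex g len x y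
    obtain ⟨j, hj⟩ := dq_ex g len y w
    rw [dq_le_iff]
    refine ⟨j + k, ?_⟩
    have e : (g ^ (j + k) * x)⁻¹ * w = ((g ^ k * x)⁻¹ * y) * ((g ^ j * y)⁻¹ * w) := by group
    rw [e]
    exact (h.mul _ _).trans (add_le_add hk hj)
  · intro z z'
    obtain ⟨x, rfl⟩ := pZ_surj g z
    obtain ⟨y, rfl⟩ := pZ_surj g z'
    rw [dq_le_iff]
    exact ⟨0, h.le _⟩
  · intro z r hr
    obtain ⟨x, rfl⟩ := pZ_surj g z
    obtain ⟨B, hB, hB'⟩ := h.ball r hr
    refine ⟨B.image (fun b => pZ g (x * b)), Finset.card_image_le.trans hB, ?_⟩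
    intro z' hz'
    obtain ⟨y, rfl⟩ := pZ_surj g z'
    obtain ⟨k, hk⟩ := (dq_le_iff g len x y r).mp hz'
    refine Finset.mem_image.mpr ⟨_, hB' _ hk, ?_⟩
    have e : x * ((g ^ k * x)⁻¹ * y) = g ^ (-k) * y := by group
    rw [e, pZ_zpow]
  · intro y
    have := pZ_zpow g y 1
    rwa [zpow_one] at this
  · intro z
    have : ∀ y, ∃ k : ℤ, pZ g y = z → y = g ^ k * z.out := by
      intro y
      by_cases hy : pZ g y = z
      · obtain ⟨k, hk⟩ := (pZ_eq g z.out y).mp ((pZ_out g z).trans hy.symm)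
        exact ⟨k, fun _ => hk⟩
      · exact ⟨0, fun h => absurd h hy⟩
    choose k hk using this
    exact ⟨k, hk⟩
  · intro y s hs
    rw [dq_le_iff]
    refine ⟨0, ?_⟩
    have e : (g ^ (0 : ℤ) * y)⁻¹ * (y * s) = s := by group
    rw [e]
    exact h.step s hs
  · intro a hc
    refine ⟨⟨lm g a hc, lm g a⁻¹ hc.inv_left, ?_, ?_⟩, ?_, ?_⟩
    · intro z
      obtain ⟨x, rfl⟩ := pZ_surj g z
      rw [lm_pZ, lm_pZ, inv_mul_cancel_left]
    · intro z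
      obtain ⟨x, rfl⟩ := pZ_surj g z
      rw [lm_pZ, lm_pZ, mul_inv_cancel_left]
    · intro z z'
      obtain ⟨x, rfl⟩ := pZ_surj g z
      obtain ⟨y, rfl⟩ := pZ_surj g z'
      exact dq_mul g len a hc x y
    · intro y
      rfl

end Crest.Agent.R192B
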