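import Crest.Agent.R192B.D0

/-! Row 192, task PAR: parametric interval integrals of smooth functions. -/

set_option autoImplicit false

open MeasureTheory Set Filter Topology
open scoped ContDiff

namespace Crest.Agent.R192B
namespace PAR

variable {E : Type} [NormedAddCommGroup E] [NormedSpace ℝ E] [FiniteDimensional ℝ E]

theorem hasFD {W : Type} [NormedAddCommGroup W] [NormedSpace ℝ W] (F : E × ℝ → W)
    (hF : ContDiff ℝ 1 F) (a b : ℝ) (p : E) :
    HasFDerivAt (fun p => ∫ r in a..b, F (p, r))
      (∫ r in a..b, (fderiv ℝ F (p, r)).comp (ContinuousLinearMap.inl ℝ E ℝ)) p := by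
  have : ProperSpace E := FiniteDimensional.proper_real E
  have hc : Continuous fun q : E × ℝ => (fderiv ℝ F q).comp (ContinuousLinearMap.inl ℝ E ℝ) :=
    (hF.continuous_fderiv one_ne_zero).clm_comp continuous_const
  obtain ⟨C, hC⟩ := ((isCompact_closedBall p 1).prod (isCompact_uIcc (a := a) (b := b))
    ).exists_bound_of_continuousOn hc.continuousOn
  refine intervalIntegral.hasFDerivAt_integral_of_dominated_of_fderiv_le
    (F := fun p r => F (p, r))
    (F' := fun p r => (fderiv ℝ F (p, r)).comp (ContinuousLinearMap.inl ℝ E ℝ))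
    (bound := fun _ => C) (Metric.closedBall_mem_nhds p one_pos)
    (Eventually.of_forall fun x => ?_) ?_ ?_ (Eventually.of_forall fun t ht x hx => ?_)
    intervalIntegrable_const (Eventually.of_forall fun t _ x _ => ?_)
  · exact (hF.continuous.comp (Continuous.prodMk_right x)).aestronglyMeasurable
  · exact (hF.continuous.comp (Continuous.prodMk_right p)).intervalIntegrable _ _
  · exact (hc.comp (Continuous.prodMk_right p)).aestronglyMeasurable
  · exact hC (x, t) ⟨hx, uIoc_subset_uIcc ht⟩
  · exact ((hF.differentiable one_ne_zero) (x, t)).hasFDerivAt.comp x (hasFDerivAt_prodMk_left x t)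

theorem contDiff_nat (a b : ℝ) (n : ℕ) : ∀ (W : Type) [NormedAddCommGroup W] [NormedSpace ℝ W]
    (F : E × ℝ → W), ContDiff ℝ n F → ContDiff ℝ n (fun p => ∫ r in a..b, F (p, r)) := by
  induction n with
  | zero =>
    intro W _ _ F hF
    have hc : Continuous F := hF.continuous
    simp only [CharP.cast_eq_zero, contDiff_zero]
    exact intervalIntegral.continuous_parametric_intervalIntegral_of_continuous'
      (f := fun p r => F (p, r)) hc a b
  | succ n ih =>
    intro W _ _ F hF
    have h1 : ContDiff ℝ 1 F := hF.of_le (by exact_mod_cast Nat.le_add_left 1 n)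
    push_cast at hF ⊢
    rw [contDiff_succ_iff_fderiv]
    refine ⟨fun p => (hasFD F h1 a b p).differentiableAt, by simp, ?_⟩
    have h2 : fderiv ℝ (fun p => ∫ r in a..b, F (p, r)) = fun p =>
        ∫ r in a..b, (fderiv ℝ F (p, r)).comp (ContinuousLinearMap.inl ℝ E ℝ) :=
      funext fun p => (hasFD F h1 a b p).fderiv
    rw [h2]
    refine ih _ (fun q => (fderiv ℝ F q).comp (ContinuousLinearMap.inl ℝ E ℝ)) ?_
    exact ((contDiff_succ_iff_fderiv.1 hF).2.2).clm_comp contDiff_const

end PAR

theorem par : PARStmt := by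
  intro E _ _ _ F a b hF
  refine ⟨contDiff_infty.2 fun n => PAR.contDiff_nat a b n ℝ _ (contDiff_infty.1 hF n),
    fun p v => ?_⟩
  have h1 : ContDiff ℝ 1 fun p : E × ℝ => F p.1 p.2 := hF.of_le (by simp)
  have h2 := (PAR.hasFD _ h1 a b p).fderiv
  simp only at h2
  have hc : Continuous fun q : E × ℝ =>
      (fderiv ℝ (fun p : E × ℝ => F p.1 p.2) q).comp (ContinuousLinearMap.inl ℝ E ℝ) :=
    (h1.continuous_fderiv one_ne_zero).clm_comp continuous_const
  have hc' : Continuous fun r : ℝ => (fderiv ℝ (fun p : E × ℝ => F p.1 p.2) (p, r)).comp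
      (ContinuousLinearMap.inl ℝ E ℝ) := hc.comp (Continuous.prodMk_right p)
  rw [h2, ContinuousLinearMap.intervalIntegral_apply (hc'.intervalIntegrable _ _)]
  refine intervalIntegral.integral_congr fun r _ => ?_
  have h3 : HasFDerivAt (fun p => F p r)
      ((fderiv ℝ (fun p : E × ℝ => F p.1 p.2) (p, r)).comp (ContinuousLinearMap.inl ℝ E ℝ)) p := by
    have h4 := ((h1.differentiable one_ne_zero) (p, r)).hasFDerivAt.comp p
      (hasFDerivAt_prodMk_left (𝕜 := ℝ) p r)
    exact h4
  simp only [h3.fderiv]

end Crest.Agent.R192B
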