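import Crest.Agent.R192B.D2

set_option autoImplicit false

namespace Crest.Agent.R192B

theorem param : PARAMStmt := by
  intro M η a C hM hη ha ha1
  have hη' : 0 < η / 60000 := by positivity
  obtain ⟨X1, hX1⟩ := exists_nat_ge (6 * (8 * M + 3 * cS) * (5 * 2 ^ 42) / (η / 60000))
  set X0 := X1 + 30 with hX0
  obtain ⟨I, hI⟩ := pow_unbounded_of_one_lt
    ((64 * cS ^ 2 * ((C : ℝ) * (X0 : ℝ) ^ 5) ^ 2) ^ 2 / (a ^ 2 * (η / 60000))) (by norm_num : (1 : ℝ) < 16)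
  set ρ₀ := 100 * (X0 * 16 ^ I + 1) with hρ₀
  have hM0 : (0 : ℝ) < (M : ℝ) ^ (2 * ρ₀) := by
    have : (0 : ℝ) < M := by exact_mod_cast (by omega : 0 < M)
    positivity
  set γ := min 1 (√(η / 60000) / (6 * (M : ℝ) ^ (2 * ρ₀))) with hγ
  have hγ0 : 0 < γ := lt_min one_pos (by positivity)
  obtain ⟨r, hr⟩ := exists_nat_ge (2 / γ)
  refine ⟨X0, I, ρ₀, ρ₀ + r, 4 * (ρ₀ + r) + 2 + C * (X0 * 16 ^ I) ^ 2, γ, hM, hη, ha, ha1, by omega,
    ?_, ?_, le_rfl, by omega, hγ0, min_le_left _ _, ?_, ?_, by omega, by omega⟩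
  · rw [div_le_iff₀ hη'] at hX1
    have : (X1 : ℝ) ≤ X0 := by exact_mod_cast (by omega)
    nlinarith
  · rw [div_lt_iff₀ (by positivity)] at hI
    have e : (64 * cS ^ 2 * ((C * (X0 * 16 ^ I) ^ 5 : ℕ) : ℝ) ^ 2) ^ 2 =
        (64 * cS ^ 2 * ((C : ℝ) * (X0 : ℝ) ^ 5) ^ 2) ^ 2 * 16 ^ (20 * I) := by
      push_cast
      rw [show (16 : ℝ) ^ (20 * I) = (16 ^ I) ^ 20 by rw [← pow_mul, mul_comm]]
      ring
    rw [e, show 21 * I = I + 20 * I by ring, pow_add, ← mul_assoc]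
    exact mul_le_mul_of_nonneg_right (by linarith) (by positivity)
  · have h1 : γ ≤ √(η / 60000) / (6 * (M : ℝ) ^ (2 * ρ₀)) := min_le_right _ _
    rw [le_div_iff₀ (by positivity)] at h1
    calc (6 * γ * (M : ℝ) ^ (2 * ρ₀)) ^ 2 ≤ √(η / 60000) ^ 2 :=
          pow_le_pow_left₀ (by positivity) (by linarith) 2
      _ = _ := Real.sq_sqrt hη'.le
  · push_cast
    have : (0 : ℝ) ≤ ρ₀ := Nat.cast_nonneg _
    linarith

end Crest.Agent.R192B
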