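import Crest.Agent.R192B.D2

set_option autoImplicit false

open MeasureTheory Set
open scoped ContDiff

namespace Crest.Agent.R192B

namespace POS

theorem chain (P : ℕ → Prop) (I : ℕ) (h0 : P 0) : P I ∨ ∃ i, i < I ∧ P i ∧ ¬ P (i + 1) := by
  induction I with
  | zero => exact Or.inl h0
  | succ I ih =>
    rcases ih with h | ⟨i, hi, h⟩
    · by_cases h' : P (I + 1)
      · exact Or.inl h'
      · exact Or.inr ⟨I, Nat.lt_succ_self _, h, h'⟩
    · exact Or.inr ⟨i, Nat.lt_succ_of_lt hi, h⟩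

theorem integ (L : ℝ) (hL : 0 ≤ L) (I : ℕ) (φ : ℕ → ℝ → ℝ) (q1 q2 c : ℝ → ℝ)
    (hφ : ∀ i ∈ Finset.range I, Continuous (φ i)) (h1 : Continuous q1) (h2 : Continuous q2)
    (hc : Continuous c)
    (h : ∀ s ∈ Icc 0 L, 1 ≤ 2 * ∑ i ∈ Finset.range I, φ i s + 1000 / 3 * (q1 s + q2 s) + c s / 6) :
    L ≤ 2 * ∑ i ∈ Finset.range I, (∫ s in (0 : ℝ)..L, φ i s) +
      1000 / 3 * ((∫ s in (0 : ℝ)..L, q1 s) + ∫ s in (0 : ℝ)..L, q2 s) +
      (∫ s in (0 : ℝ)..L, c s) / 6 := by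
  have hs : Continuous fun s => ∑ i ∈ Finset.range I, φ i s := continuous_finsetSum _ hφ
  have ha : Continuous fun s => 2 * ∑ i ∈ Finset.range I, φ i s := continuous_const.mul hs
  have hb : Continuous fun s => 1000 / 3 * (q1 s + q2 s) := continuous_const.mul (h1.add h2)
  have hd : Continuous fun s => c s / 6 := hc.div_const _
  have hab : Continuous fun s => 2 * ∑ i ∈ Finset.range I, φ i s + 1000 / 3 * (q1 s + q2 s) :=
    ha.add hb
  have he : Continuous fun s => 2 * ∑ i ∈ Finset.range I, φ i s + 1000 / 3 * (q1 s + q2 s) +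
      c s / 6 := hab.add hd
  have key := intervalIntegral.integral_mono_on (μ := volume) hL
    ((continuous_const (y := (1 : ℝ))).intervalIntegrable 0 L) (he.intervalIntegrable 0 L) h
  rw [intervalIntegral.integral_add (hab.intervalIntegrable 0 L) (hd.intervalIntegrable 0 L),
    intervalIntegral.integral_add (ha.intervalIntegrable 0 L) (hb.intervalIntegrable 0 L),
    intervalIntegral.integral_const_mul, intervalIntegral.integral_const_mul,
    intervalIntegral.integral_add (h1.intervalIntegrable 0 L) (h2.intervalIntegrable 0 L),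
    intervalIntegral.integral_div,
    intervalIntegral.integral_finsetSum (fun i hi => (hφ i hi).intervalIntegrable 0 L)] at key
  simpa using key

end POS

open POS in
theorem pos : METStmt → KINStmt → SHARPStmt → PROFStmt → AFEStmt → AQPStmt → AZEStmt →
    POSStmt := by
  intro hMET hKIN hSH hPR hAFE hAQP hAZE G _ S M η a C X0 I ρ₀ ρ₁ D γ c₀ len g Ψ ϑ N Ks m w n y
    hc t ht
  obtain ⟨hmet, hg, -, hstep, -, -⟩ := hMET G S M D len g hc.hlen
  have prm := hc.prm
  set d := dq g len with hd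
  set p : Fin (n + 1) → Zq g := fun j => pZ g (y j) with hp
  have hloop : Loop d p := by
    refine ⟨?_, fun i => ?_⟩
    · simp only [hp]; rw [hc.closed, hg]
    · have := hstep (y i.castSucc) _ (hc.steps i)
      simpa [hp] using this
  have hX0 := prm.X0_ge
  have hρ₀ := prm.hρ₀
  have hρ₁ := prm.hρ₁
  have hD₁ := prm.hD₁
  have hXle : ∀ i, i ≤ I → X0 * 16 ^ i ≤ X0 * 16 ^ I := fun i hi =>
    Nat.mul_le_mul_left _ (Nat.pow_le_pow_right (by norm_num) hi)
  have hXge : ∀ i, X0 ≤ X0 * 16 ^ i := fun i => Nat.le_mul_of_pos_right _ (by positivity)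
  have hbig : (4 : ℝ) * 16 ^ (21 * I) ≤ N := by exact_mod_cast hc.big
  have hk4 : ∀ i, i ≤ I → (4 : ℝ) * 16 ^ (21 * i) ≤ N := fun i hi =>
    le_trans (mul_le_mul_of_nonneg_left
      (pow_le_pow_right₀ (by norm_num) (Nat.mul_le_mul_left _ hi)) (by norm_num)) hbig
  have hN4 : (4 : ℝ) ≤ N := by simpa using hk4 0 (Nat.zero_le _)
  have hN0 : (0 : ℝ) ≤ N := by linarith
  have hn : (n : ℝ) ≤ 3 * N := by exact_mod_cast hc.n_le
  -- escape parts
  have hF : ∀ i, ∃ φ : ℝ → ℝ, i < I → Continuous φ ∧ (∀ s, 0 ≤ φ s) ∧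
      (∫ s in (0 : ℝ)..N, φ s) ≤
        ∑ l, AF d N (4 * M) ((X0 * 16 ^ i : ℕ) : ℝ) (Ks i) (Ks (i + 1)) p t l ∧
      ∀ s, (∃ z, fK d (Ks i) p z s t ≤ ((X0 * 16 ^ i : ℕ) : ℝ) / 5) →
        (∀ z, 3 * ((X0 * 16 ^ i : ℕ) : ℝ) ≤ fK d (Ks (i + 1)) p z s t) → 1 / 2 ≤ φ s := by
    intro i
    by_cases hi : i < I
    swap
    · exact ⟨fun _ => 0, fun h => absurd h hi⟩
    have h1 := hXle i hi.le
    have h2 := hXge i
    obtain ⟨-, -, -, φ, hφ⟩ := hAFE (Zq g) d M D n (X0 * 16 ^ i) N (16 ^ (21 * i))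
      (16 ^ (21 * (i + 1))) (Ks i) (Ks (i + 1)) p hmet (by omega) (by omega) (by positivity)
      (pow_le_pow_right₀ (by norm_num) (by omega)) (hk4 _ hi) (hc.ker i hi.le) (hc.ker _ hi) hloop t ht
    exact ⟨φ, fun _ => hφ⟩
  choose φ hφ using hF
  -- marker parts
  have hlab := hc.lab
  have ha0 := prm.a_pos
  have ham : 0 ≤ a * m := by positivity
  have hQ := fun E : Zq g → Fin (m + 1) => hAQP (Zq g) d M D n (X0 * 16 ^ I) (C * (X0 * 16 ^ I) ^ 5)
    m ρ₀ a N (16 ^ (21 * I)) E (Ks I) p hmet ha0 prm.a_le (by linarith) (by omega) (by positivity)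
    hbig (hc.ker I le_rfl) hloop hρ₀ t ht
  obtain ⟨q1, hq1c, hq10, hq1s, hq1⟩ := hQ w.1
  obtain ⟨q2, hq2c, hq20, hq2s, hq2⟩ := hQ w.2
  -- dominant part
  obtain ⟨-, -, -, hZ0, hZ⟩ := hAZE G S M D len g ρ₀ ρ₁ n γ c₀ N Ψ ϑ y hc.hlen
    (by have := prm.two; omega) hc.psi hρ₁ (by omega) prm.γ_pos.le prm.γ_le hc.c_pos (by linarith) hn
    hc.closed hc.steps t ht
  have htot : ∑ l, Atot g len N M X0 I C ρ₀ a Ks Ψ ϑ w n y t l =
      (∑ i ∈ Finset.range I,
        ∑ l, AF d N (4 * M) ((X0 * 16 ^ i : ℕ) : ℝ) (Ks i) (Ks (i + 1)) p t l) +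
      ((∫ s in (0 : ℝ)..N, q1 s) + ∫ s in (0 : ℝ)..N, q2 s) + ∑ l, AZ g len N ρ₀ Ψ ϑ y t l := by
    rw [← hq1s, ← hq2s, Finset.sum_comm]
    simp only [Atot, Pi.add_apply, Finset.sum_apply, Finset.sum_add_distrib]
    rfl
  have hFs : ∑ i ∈ Finset.range I, (∫ s in (0 : ℝ)..N, φ i s) ≤ ∑ i ∈ Finset.range I,
      ∑ l, AF d N (4 * M) ((X0 * 16 ^ i : ℕ) : ℝ) (Ks i) (Ks (i + 1)) p t l :=
    Finset.sum_le_sum fun i hi => (hφ i (Finset.mem_range.1 hi)).2.2.1
  have hF0 : 0 ≤ ∑ i ∈ Finset.range I, (∫ s in (0 : ℝ)..N, φ i s) :=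
    Finset.sum_nonneg fun i hi => intervalIntegral.integral_nonneg hN0
      fun s _ => (hφ i (Finset.mem_range.1 hi)).2.1 s
  have hI1 : 0 ≤ ∫ s in (0 : ℝ)..N, q1 s := intervalIntegral.integral_nonneg hN0 fun s _ => hq10 s
  have hI2 : 0 ≤ ∫ s in (0 : ℝ)..N, q2 s := intervalIntegral.integral_nonneg hN0 fun s _ => hq20 s
  rw [htot]
  by_cases hm : ∃ z, 9 / 10 ≤ mz d ρ₀ N p z t
  · have := hZ hm
    linarith
  have hm' : ∀ z, mz d ρ₀ N p z t ≤ 9 / 10 := fun z => by
    by_contra h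
    exact hm ⟨z, (not_le.1 h).le⟩
  have hK0 : IsKer N 1 (Ks 0) := by simpa using hc.ker 0 (Nat.zero_le _)
  obtain ⟨hcc, hc0, hci, hcj⟩ := hSH N 1 (Ks 0) one_pos (by linarith) hK0 n t
  obtain ⟨B, hB, hout, hpr⟩ := hPR (Zq g) d M D n p hmet
  have hKI := hc.ker I le_rfl
  have hprof : Prof d M D (fK d (Ks I) p) B t :=
    (hpr N (Ks I) hN0 hKI.smooth (hKIN N _ _ (by positivity) hbig hKI).1 hKI.per hloop).2.2 t ht
  have hmain := integ N hN0 I φ q1 q2 (cnt (Ks 0) t)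
    (fun i hi => (hφ i (Finset.mem_range.1 hi)).1) hq1c hq2c hcc (by
      intro s hs
      have hs0 : 0 ≤ ∑ i ∈ Finset.range I, φ i s :=
        Finset.sum_nonneg fun i hi => (hφ i (Finset.mem_range.1 hi)).2.1 s
      have := hq10 s
      have := hq20 s
      have := hc0 s
      by_cases h6 : 6 ≤ cnt (Ks 0) t s
      · linarith
      obtain ⟨j, hj⟩ := hcj ht s hs
      have hP0 : ∃ z, fK d (Ks 0) p z s t ≤ ((X0 * 16 ^ 0 : ℕ) : ℝ) / 5 := by
        refine ⟨p j, ?_⟩
        have h1 := hj (fun j' => (d (p j) (p j') : ℝ)) (by simp only [hloop.1]) (fun l => by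
          have a1 := hmet.tri (p j) (p l.castSucc) (p l.succ)
          have a2 := hmet.tri (p j) (p l.succ) (p l.castSucc)
          have a3 := hloop.2 l
          have a4 := hmet.symm (p l.succ) (p l.castSucc)
          have b1 : (d (p j) (p l.succ) : ℝ) ≤ d (p j) (p l.castSucc) + 1 := by
            exact_mod_cast (by omega)
          have b2 : (d (p j) (p l.castSucc) : ℝ) ≤ d (p j) (p l.succ) + 1 := by
            exact_mod_cast (by omega)
          rw [abs_le]; constructor <;> linarith)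
        simp only [hmet.refl, Nat.cast_zero, sub_zero] at h1
        have h2 : (30 : ℝ) ≤ X0 := by exact_mod_cast hX0
        have h3 := (abs_le.1 h1).2
        simp only [pow_zero, mul_one]
        change lin (Ks 0) 1 (fun j' => (d (p j) (p j') : ℝ)) s t ≤ _
        linarith
      rcases chain (fun i => ∃ z, fK d (Ks i) p z s t ≤ ((X0 * 16 ^ i : ℕ) : ℝ) / 5) I hP0 with
        ⟨z, hz⟩ | ⟨i, hi, h1, h2⟩
      · have hX : (0 : ℝ) ≤ ((X0 * 16 ^ I : ℕ) : ℝ) := Nat.cast_nonneg _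
        have hzB : z ∈ B := by
          by_contra h
          rw [hout _ z h] at hz
          have : ((X0 * 16 ^ I : ℕ) : ℝ) + 1 ≤ D := by exact_mod_cast (by omega)
          linarith
        have hmin : ∀ E : Zq g → Fin (m + 1), ∃ x ∈ B,
            fK d (Ks I) p x s t ≤ ((X0 * 16 ^ I : ℕ) : ℝ) ∧ ∀ x', (∃ j, d x' (p j) < D) →
              fK d (Ks I) p x s t - a * ((E x : ℕ) : ℝ) ≤
                fK d (Ks I) p x' s t - a * ((E x' : ℕ) : ℝ) := by
          intro E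
          obtain ⟨x, hx, hx'⟩ := Finset.exists_min_image B
            (fun x => fK d (Ks I) p x s t - a * ((E x : ℕ) : ℝ)) ⟨z, hzB⟩
          refine ⟨x, hx, ?_, fun x' h => hx' x' ((hB x').2 h)⟩
          have e1 := hx' z hzB
          have e2 : a * ((E x : ℕ) : ℝ) ≤ a * m :=
            mul_le_mul_of_nonneg_left (by exact_mod_cast Nat.lt_succ_iff.1 (E x).2) ha0.le
          have e3 : 0 ≤ a * ((E z : ℕ) : ℝ) := by positivity
          linarith
        obtain ⟨x1, hx1, f1, m1⟩ := hmin w.1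
        obtain ⟨x2, hx2, f2, m2⟩ := hmin w.2
        have hd12 : d x1 x2 ≤ 3 * (X0 * 16 ^ I) + 3 := by
          have e1 := hprof.tri s x1 x2
          have : (d x1 x2 : ℝ) ≤ ((3 * (X0 * 16 ^ I) + 3 : ℕ) : ℝ) := by
            rw [Nat.cast_add, Nat.cast_mul]
            simp only [Nat.cast_ofNat]
            linarith
          exact_mod_cast this
        rcases hc.good x1 x2 ((hB _).1 hx1) ((hB _).1 hx2) hd12 with h | h
        · have := hq1 s x1 h f1 m1 (hm' _)
          linarith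
        · have := hq2 s x2 h f2 m2 (hm' _)
          linarith
      · have h3 := (hφ i hi).2.2.2 s h1 (fun z => by
          by_contra h
          refine h2 ⟨z, ?_⟩
          have e : ((X0 * 16 ^ (i + 1) : ℕ) : ℝ) = 16 * ((X0 * 16 ^ i : ℕ) : ℝ) := by
            push_cast; ring
          have hX : (0 : ℝ) ≤ ((X0 * 16 ^ i : ℕ) : ℝ) := Nat.cast_nonneg _
          rw [e]
          linarith [not_le.1 h])
        have h4 : φ i s ≤ ∑ i ∈ Finset.range I, φ i s :=
          Finset.single_le_sum (f := fun i => φ i s)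
            (fun i hi => (hφ i (Finset.mem_range.1 hi)).2.1 s) (Finset.mem_range.2 hi)
        linarith)
  linarith

end Crest.Agent.R192B
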