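import Crest.Agent.R192B.D1

/-! Row 192, task PR: the pairing of weights with functionals on step sequences. -/

set_option autoImplicit false

open Finset

namespace Crest.Agent.R192B

open Crest.Agent.R192

namespace PR

variable {G : Type} [Group G] {q : ℕ}

open Classical in
/-- support of a matrix over the group algebra -/
noncomputable def sp (w : Mat G q) : Finset G :=
  univ.biUnion fun i => univ.biUnion fun j => (w i j).coeff.support

theorem mem_sp (w : Mat G q) (x : G) : x ∈ sp w ↔ cf w x ≠ 0 := by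
  simp only [sp, mem_biUnion, mem_univ, true_and, Finsupp.mem_support_iff, ne_eq,
    ← Matrix.ext_iff, cf, Matrix.zero_apply, not_forall]

theorem supp_sub (w : Mat G q) (i j : Fin q) : (w i j).coeff.support ⊆ sp w := fun x hx => by
  simp only [sp, mem_biUnion, mem_univ, true_and]
  exact ⟨i, j, hx⟩

open Classical in
/-- one term of the pairing -/
noncomputable def tm (C : Set G) {n : ℕ} (m : Fin n → Matrix (Fin q) (Fin q) ℂ) (x : Fin n → G)
    (r : ℝ) : ℂ :=
  if (List.ofFn x).prod ∈ C then (List.ofFn m).prod.trace * (r : ℂ) else 0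

theorem pr_def (C : Set G) {n : ℕ} (w : Fin n → Mat G q) (Φ : (Fin n → G) → ℝ) :
    pr C w Φ = ∑ᶠ x : Fin n → G, tm C (fun i => cf (w i) (x i)) x (Φ x) := rfl

theorem tm_zero (C : Set G) {n : ℕ} (m : Fin n → Matrix (Fin q) (Fin q) ℂ) (x : Fin n → G) (r : ℝ)
    (i : Fin n) (h : m i = 0) : tm C m x r = 0 := by
  have : (List.ofFn m).prod = 0 := List.prod_eq_zero (by rw [List.mem_ofFn]; exact ⟨i, h⟩)
  simp [tm, this]

theorem supp_tm (C : Set G) {n : ℕ} (w : Fin n → Mat G q) (Φ : (Fin n → G) → ℝ)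
    (S : Fin n → Finset G) (hS : ∀ i, sp (w i) ⊆ S i) :
    Function.support (fun x : Fin n → G => tm C (fun i => cf (w i) (x i)) x (Φ x)) ⊆
      (Fintype.piFinset S : Finset (Fin n → G)) := by
  intro x hx
  rw [mem_coe, Fintype.mem_piFinset]
  intro i
  refine hS i ((mem_sp _ _).2 fun h => hx ?_)
  exact tm_zero C _ x _ i h

theorem pr_eq (C : Set G) {n : ℕ} (w : Fin n → Mat G q) (Φ : (Fin n → G) → ℝ)
    (S : Fin n → Finset G) (hS : ∀ i, sp (w i) ⊆ S i) :
    pr C w Φ = ∑ x ∈ Fintype.piFinset S, tm C (fun i => cf (w i) (x i)) x (Φ x) := by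
  rw [pr_def]
  exact finsum_eq_sum_of_support_subset _ (supp_tm C w Φ S hS)

theorem cf_add (u u' : Mat G q) (x : G) : cf (u + u') x = cf u x + cf u' x := by
  ext i j; simp [cf]

theorem cf_neg (u : Mat G q) (x : G) : cf (-u) x = -cf u x := by
  ext i j; simp [cf]

theorem cf_update {n : ℕ} (w : Fin n → Mat G q) (i : Fin n) (u : Mat G q) (x : Fin n → G) :
    (fun k => cf (Function.update w i u k) (x k)) =
      Function.update (fun k => cf (w k) (x k)) i (cf u (x i)) := by
  funext k
  by_cases h : k = i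
  · subst h; simp
  · simp [Function.update_of_ne h]

theorem tm_sum (C : Set G) {n : ℕ} (m : Fin n → Matrix (Fin q) (Fin q) ℂ) (x : Fin n → G) (r : ℝ)
    (i : Fin n) {α : Type} (t : Finset α) (g : α → Matrix (Fin q) (Fin q) ℂ) :
    tm C (Function.update m i (∑ a ∈ t, g a)) x r = ∑ a ∈ t, tm C (Function.update m i (g a)) x r := by
  unfold tm
  split_ifs
  · have := (MultilinearMap.mkPiAlgebraFin ℂ n (Matrix (Fin q) (Fin q) ℂ)).map_update_sum t i g m
    simp only [MultilinearMap.mkPiAlgebraFin_apply] at this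
    rw [this, Matrix.trace_sum, sum_mul]
  · simp

theorem tm_add (C : Set G) {n : ℕ} (m : Fin n → Matrix (Fin q) (Fin q) ℂ) (x : Fin n → G) (r : ℝ)
    (i : Fin n) (a b : Matrix (Fin q) (Fin q) ℂ) :
    tm C (Function.update m i (a + b)) x r =
      tm C (Function.update m i a) x r + tm C (Function.update m i b) x r := by
  unfold tm
  split_ifs
  · have := (MultilinearMap.mkPiAlgebraFin ℂ n (Matrix (Fin q) (Fin q) ℂ)).map_update_add m i a b
    simp only [MultilinearMap.mkPiAlgebraFin_apply] at this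
    rw [this, Matrix.trace_add, add_mul]
  · simp

theorem tm_neg (C : Set G) {n : ℕ} (m : Fin n → Matrix (Fin q) (Fin q) ℂ) (x : Fin n → G) (r : ℝ)
    (i : Fin n) (a : Matrix (Fin q) (Fin q) ℂ) :
    tm C (Function.update m i (-a)) x r = -tm C (Function.update m i a) x r := by
  unfold tm
  split_ifs
  · have := (MultilinearMap.mkPiAlgebraFin ℂ n (Matrix (Fin q) (Fin q) ℂ)).map_update_neg m i a
    simp only [MultilinearMap.mkPiAlgebraFin_apply] at this
    rw [this, Matrix.trace_neg, neg_mul]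
  · simp

theorem fin_tm (C : Set G) {n : ℕ} (w : Fin n → Mat G q) (Φ : (Fin n → G) → ℝ) :
    Function.HasFiniteSupport (fun x : Fin n → G => tm C (fun i => cf (w i) (x i)) x (Φ x)) :=
  (Finset.finite_toSet _).subset (supp_tm C w Φ (fun i => sp (w i)) fun _ => subset_rfl)

theorem p1 (C : Set G) {n : ℕ} (w : Fin n → Mat G q) (i : Fin n) (u u' : Mat G q)
    (Φ : (Fin n → G) → ℝ) :
    pr C (Function.update w i (u + u')) Φ =
      pr C (Function.update w i u) Φ + pr C (Function.update w i u') Φ := by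
  rw [pr_def, pr_def, pr_def, ← finsum_add_distrib (fin_tm C _ Φ) (fin_tm C _ Φ)]
  refine finsum_congr fun x => ?_
  rw [cf_update, cf_update, cf_update, cf_add, tm_add]

theorem p2 (C : Set G) {n : ℕ} (w : Fin n → Mat G q) (i : Fin n) (u : Mat G q)
    (Φ : (Fin n → G) → ℝ) :
    pr C (Function.update w i (-u)) Φ = -pr C (Function.update w i u) Φ := by
  rw [pr_def, pr_def, ← finsum_neg_distrib]
  refine finsum_congr fun x => ?_
  rw [cf_update, cf_update, cf_neg, tm_neg]

theorem p3 (C : Set G) {n : ℕ} (w : Fin n → Mat G q) (Φ Φ' : (Fin n → G) → ℝ)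
    (h : ∀ x, (∀ i, cf (w i) (x i) ≠ 0) → (List.ofFn x).prod ∈ C → Φ x = Φ' x) :
    pr C w Φ = pr C w Φ' := by
  rw [pr_def, pr_def]
  refine finsum_congr fun x => ?_
  by_cases h1 : ∀ i, cf (w i) (x i) ≠ 0
  · by_cases h2 : (List.ofFn x).prod ∈ C
    · rw [h x h1 h2]
    · simp [tm, h2]
  · push Not at h1
    obtain ⟨i, hi⟩ := h1
    rw [tm_zero C _ x _ i hi, tm_zero C _ x _ i hi]

theorem p4 (C : Set G) {n : ℕ} (w : Fin n → Mat G q) (ι : Type) (s : Finset ι) (c : ι → ℝ)
    (Φ : ι → (Fin n → G) → ℝ) :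
    pr C w (fun x => ∑ i ∈ s, c i * Φ i x) = ∑ i ∈ s, (c i : ℂ) * pr C w (Φ i) := by
  simp only [pr_eq C w _ (fun i => sp (w i)) fun _ => subset_rfl, mul_sum]
  rw [sum_comm]
  refine sum_congr rfl fun x _ => ?_
  unfold tm
  split_ifs
  · push_cast
    rw [mul_sum]
    exact sum_congr rfl fun i _ => by ring
  · simp

theorem mX_eq {α : Type} [Mul α] {n : ℕ} (i : Fin n) (x : Fin (n + 1) → α) :
    mX i x = Function.update (fun k => x (i.castSucc.succAbove k)) i (x i.castSucc * x i.succ) := by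
  funext k
  by_cases h : k = i
  · subst h
    rw [Function.update_self, mX, Fin.contractNth_apply_of_eq _ _ _ _ (by simp)]
  · rw [Function.update_of_ne h, mX,
      Fin.contractNth_apply_of_ne _ _ _ _ (by simpa [Fin.ext_iff, eq_comm] using h)]

theorem prod_mX {α : Type} [Monoid α] {n : ℕ} (i : Fin n) (x : Fin (n + 1) → α) :
    (List.ofFn (mX i x)).prod = (List.ofFn x).prod := by
  have h := congrFun (Fin.partialProd_contractNth x i.castSucc) (Fin.last n)
  have h2 : i.castSucc.succ.succAbove (Fin.last n) = Fin.last (n + 1) := by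
    rw [Fin.succAbove_of_le_castSucc _ _ (by
      simp only [Fin.le_def, Fin.val_succ, Fin.val_castSucc, Fin.val_last]; omega), Fin.succ_last]
  simp only [Function.comp_apply] at h
  have h3 : ∀ (m : ℕ) (y : Fin m → α), Fin.partialProd y (Fin.last m) = (List.ofFn y).prod := by
    intro m y
    rw [Fin.partialProd, List.take_of_length_le (by simp)]
  rw [← h3, ← h3, mX, h, h2]

theorem cf_mul (u v : Mat G q) (z : G) :
    cf (u * v) z = ∑ a ∈ sp u, cf u a * cf v (a⁻¹ * z) := by
  ext i j
  simp only [cf, Matrix.mul_apply, Matrix.sum_apply]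
  rw [sum_comm, MonoidAlgebra.coeff_sum, Finsupp.finset_sum_apply]
  refine sum_congr rfl fun k _ => ?_
  rw [MonoidAlgebra.coeff_mul_apply_left, Finsupp.sum]
  refine sum_subset (supp_sub u i k) fun a _ ha => ?_
  rw [Finsupp.notMem_support_iff.1 ha, zero_mul]

theorem p5 (C : Set G) {n : ℕ} (w : Fin (n + 1) → Mat G q) (i : Fin n) (Φ : (Fin n → G) → ℝ) :
    pr C w (fun x => Φ (mX i x)) = pr C (mX i w) Φ := by
  have hs : i.castSucc.succAbove i = i.succ := Fin.succAbove_castSucc_self i
  obtain ⟨e, he⟩ : ∃ e : (Fin n → G) × G → (Fin (n + 1) → G), e = fun p =>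
      Fin.insertNth i.castSucc p.2 (Function.update p.1 i (p.2⁻¹ * p.1 i)) := ⟨_, rfl⟩
  have e1 : ∀ p, e p i.castSucc = p.2 := fun p => by rw [he]; simp
  have e2 : ∀ p k, e p (i.castSucc.succAbove k) = Function.update p.1 i (p.2⁻¹ * p.1 i) k :=
    fun p k => by rw [he]; simp only [Fin.insertNth_apply_succAbove]
  have e3 : ∀ p, e p i.succ = p.2⁻¹ * p.1 i := fun p => by rw [← hs, e2, Function.update_self]
  have e4 : ∀ p, mX i (e p) = p.1 := fun p => by
    rw [mX_eq, e1, e3]
    funext k
    by_cases h : k = i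
    · subst h; simp
    · rw [Function.update_of_ne h, e2, Function.update_of_ne h]
  have hb : Function.Bijective e := by
    constructor
    · intro p p' h
      refine Prod.ext ?_ ?_
      · rw [← e4 p, h, e4]
      · rw [← e1 p, h, e1]
    · intro x
      refine ⟨(mX i x, x i.castSucc), ?_⟩
      funext k
      refine Fin.succAboveCases i.castSucc ?_ (fun k => ?_) k
      · rw [e1]
      · rw [e2, mX_eq]
        by_cases h : k = i
        · subst h; simp [hs]
        · rw [Function.update_of_ne h]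
          dsimp only
          rw [Function.update_of_ne h]
  have hfin := (fin_tm C w (fun x => Φ (mX i x))).preimage hb.1.injOn
  rw [pr_def, pr_def, ← finsum_comp e hb, finsum_curry _ hfin]
  refine finsum_congr fun z => ?_
  have key : ∀ a : G, tm C (fun k => cf (w k) (e (z, a) k)) (e (z, a)) (Φ (mX i (e (z, a)))) =
      tm C (Function.update (fun k => cf (w (i.castSucc.succAbove k)) (z k)) i
        (cf (w i.castSucc) a * cf (w i.succ) (a⁻¹ * z i))) z (Φ z) := by
    intro a
    unfold tm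
    rw [← prod_mX i (e (z, a)), ← prod_mX i (fun k => cf (w k) (e (z, a) k)), e4, mX_eq, e1, e3]
    have : Function.update (fun k => cf (w (i.castSucc.succAbove k))
        (e (z, a) (i.castSucc.succAbove k))) i (cf (w i.castSucc) a * cf (w i.succ) (a⁻¹ * z i)) =
        Function.update (fun k => cf (w (i.castSucc.succAbove k)) (z k)) i
        (cf (w i.castSucc) a * cf (w i.succ) (a⁻¹ * z i)) := by
      funext k
      by_cases h : k = i
      · subst h; simp
      · rw [Function.update_of_ne h, Function.update_of_ne h, e2, Function.update_of_ne h]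
    rw [this]
  simp only [key]
  rw [mX_eq, cf_update, cf_mul, tm_sum]
  refine finsum_eq_sum_of_support_subset _ fun a ha => ?_
  rw [mem_coe, mem_sp]
  intro h0
  exact ha (tm_zero C _ z _ i (by simp [h0]))

theorem prod_rotV {α : Type} [Monoid α] {n : ℕ} (x : Fin (n + 1) → α) :
    (List.ofFn (rotV x)).prod = x (Fin.last n) * (List.ofFn (Fin.init x)).prod ∧
      (List.ofFn x).prod = (List.ofFn (Fin.init x)).prod * x (Fin.last n) := by
  constructor
  · rw [rotV, List.ofFn_succ]; simp
  · rw [List.ofFn_succ', List.prod_concat]; rfl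

theorem p6 (C : ConjClasses G) {n : ℕ} (w : Fin (n + 1) → Mat G q) (Φ : (Fin (n + 1) → G) → ℝ) :
    pr C.carrier w (fun x => Φ (rotV x)) = pr C.carrier (rotV w) Φ := by
  have hb : Function.Bijective (rotV : (Fin (n + 1) → G) → (Fin (n + 1) → G)) := by
    constructor
    · intro x x' h
      have h1 := congrFun h 0
      have h2 : Fin.init x = Fin.init x' := funext fun k => by simpa [rotV] using congrFun h k.succ
      simp only [rotV, Fin.cons_zero] at h1
      rw [← Fin.snoc_init_self x, ← Fin.snoc_init_self x', h1, h2]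
    · intro y
      refine ⟨Fin.snoc (Fin.tail y) (y 0), ?_⟩
      simp [rotV]
  rw [pr_def, pr_def, ← finsum_comp rotV hb (g := fun x => tm C.carrier
    (fun i => cf (rotV w i) (x i)) x (Φ x))]
  refine finsum_congr fun x => ?_
  have h1 : (fun i => cf (rotV w i) (rotV x i)) = rotV (fun i => cf (w i) (x i)) := by
    funext k
    refine Fin.cases ?_ (fun k => ?_) k <;> simp [rotV, Fin.init]
  have h2 : (List.ofFn (rotV x)).prod ∈ C.carrier ↔ (List.ofFn x).prod ∈ C.carrier := by
    rw [(prod_rotV x).1, (prod_rotV x).2]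
    have : ∀ a b : G, ConjClasses.mk (a * b) = ConjClasses.mk (b * a) := fun a b => by
      rw [ConjClasses.mk_eq_mk_iff_isConj, isConj_iff]
      exact ⟨b, by group⟩
    simp only [ConjClasses.mem_carrier_iff_mk_eq, this (x (Fin.last n))]
  unfold tm
  rw [h1, (prod_rotV (fun i => cf (w i) (x i))).1, (prod_rotV (fun i => cf (w i) (x i))).2,
    Matrix.trace_mul_comm (List.ofFn (Fin.init fun i => cf (w i) (x i))).prod]
  by_cases h3 : (List.ofFn x).prod ∈ C.carrier
  · rw [if_pos h3, if_pos (h2.2 h3)]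
  · rw [if_neg h3, if_neg fun h => h3 (h2.1 h)]

/-- entrywise `ℓ¹` norm -/
noncomputable def n1 (M : Matrix (Fin q) (Fin q) ℂ) : ℝ := ∑ i, ∑ j, ‖M i j‖

theorem n1_nonneg (M : Matrix (Fin q) (Fin q) ℂ) : 0 ≤ n1 M :=
  sum_nonneg fun _ _ => sum_nonneg fun _ _ => norm_nonneg _

theorem n1_mul (A B : Matrix (Fin q) (Fin q) ℂ) : n1 (A * B) ≤ n1 A * n1 B := by
  refine le_trans ?_ (sum_mul_le (fun i j => ‖A i j‖) (fun i j => ‖B i j‖)
    (fun _ _ => norm_nonneg _) (fun _ _ => norm_nonneg _))
  refine sum_le_sum fun i _ => sum_le_sum fun j _ => ?_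
  rw [Matrix.mul_apply]
  exact (norm_sum_le _ _).trans (sum_le_sum fun k _ => (norm_mul _ _).le)

theorem n1_prod (n : ℕ) (m : Fin (n + 1) → Matrix (Fin q) (Fin q) ℂ) :
    n1 (List.ofFn m).prod ≤ ∏ i, n1 (m i) := by
  induction n with
  | zero => simp
  | succ n ih =>
    rw [List.ofFn_succ, List.prod_cons, Fin.prod_univ_succ]
    exact (n1_mul _ _).trans (mul_le_mul_of_nonneg_left (ih _) (n1_nonneg _))

theorem trace_le (M : Matrix (Fin q) (Fin q) ℂ) : ‖M.trace‖ ≤ n1 M :=
  (norm_sum_le _ _).trans (sum_le_sum fun i _ =>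
    single_le_sum (f := fun j => ‖M i j‖) (fun _ _ => norm_nonneg _) (mem_univ i))

theorem sum_n1 (w : Mat G q) : ∑ y ∈ sp w, n1 (cf w y) = nrm w := by
  unfold n1 nrm
  rw [sum_comm]
  refine sum_congr rfl fun i _ => ?_
  rw [sum_comm]
  refine sum_congr rfl fun j _ => ?_
  refine (sum_subset (supp_sub w i j) fun a _ ha => ?_).symm
  rw [cf, Finsupp.notMem_support_iff.1 ha, norm_zero]

theorem p7 (C : Set G) {n : ℕ} (w : Fin (n + 1) → Mat G q) (Φ : (Fin (n + 1) → G) → ℝ) (B : ℝ)
    (hB : 0 ≤ B) (h : ∀ x, (∀ i, cf (w i) (x i) ≠ 0) → (List.ofFn x).prod ∈ C → |Φ x| ≤ B) :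
    ‖pr C w Φ‖ ≤ B * ∏ i, nrm (w i) := by
  rw [pr_eq C w Φ (fun i => sp (w i)) fun _ => subset_rfl]
  simp only [← sum_n1]
  rw [prod_univ_sum, mul_sum]
  refine (norm_sum_le _ _).trans (sum_le_sum fun x hx => ?_)
  rw [Fintype.mem_piFinset] at hx
  have hp : 0 ≤ ∏ i, n1 (cf (w i) (x i)) := prod_nonneg fun i _ => n1_nonneg _
  unfold tm
  split_ifs with hc
  · rw [norm_mul, Complex.norm_real, Real.norm_eq_abs, mul_comm]
    exact mul_le_mul (h x (fun i => (mem_sp _ _).1 (hx i)) hc)
      ((trace_le _).trans (n1_prod n _)) (norm_nonneg _) hB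
  · rw [norm_zero]; positivity

/-- a matrix supported on one group element -/
noncomputable def sg (x : G) (M : Matrix (Fin q) (Fin q) ℂ) : Mat G q :=
  fun i j => MonoidAlgebra.single x (M i j)

theorem sg_mul (x y : G) (A B : Matrix (Fin q) (Fin q) ℂ) :
    sg x A * sg y B = sg (x * y) (A * B) := by
  ext1 i j
  simp only [Matrix.mul_apply, sg, MonoidAlgebra.single_mul_single]
  induction (univ : Finset (Fin q)) using Finset.induction_on with
  | empty => simp
  | insert a s ha ih => rw [sum_insert ha, sum_insert ha, ih, MonoidAlgebra.single_add]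

theorem sg_one : sg (1 : G) (1 : Matrix (Fin q) (Fin q) ℂ) = 1 := by
  ext1 i j
  by_cases h : i = j
  · subst h; simp [sg, MonoidAlgebra.one_def]
  · simp [sg, Matrix.one_apply_ne h]

theorem sg_prod (n : ℕ) (x : Fin n → G) (m : Fin n → Matrix (Fin q) (Fin q) ℂ) :
    (List.ofFn fun i => sg (x i) (m i)).prod = sg (List.ofFn x).prod (List.ofFn m).prod := by
  induction n with
  | zero => simp [sg_one]
  | succ n ih =>
    rw [List.ofFn_succ, List.ofFn_succ, List.ofFn_succ, List.prod_cons, List.prod_cons,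
      List.prod_cons, ih, sg_mul]

theorem sum_sg (w : Mat G q) : ∑ y ∈ sp w, sg y (cf w y) = w := by
  ext1 i j
  rw [Matrix.sum_apply]
  conv_rhs => rw [← MonoidAlgebra.sum_coeff_single (w i j), Finsupp.sum]
  refine (sum_subset (supp_sub w i j) fun a _ ha => ?_).symm
  show MonoidAlgebra.single a ((w i j).coeff a) = 0
  rw [Finsupp.notMem_support_iff.1 ha, MonoidAlgebra.single_zero]

theorem p8 (C : Set G) {n : ℕ} (w : Fin n → Mat G q) :
    pr C w (fun _ => 1) = trC C (List.ofFn w).prod := by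
  rw [pr_eq C w _ (fun i => sp (w i)) fun _ => subset_rfl]
  have h := (MultilinearMap.mkPiAlgebraFin ℂ n (Mat G q)).map_sum_finset
    (fun i y => sg y (cf (w i) y)) (fun i => sp (w i))
  simp only [MultilinearMap.mkPiAlgebraFin_apply, sum_sg] at h
  rw [h, map_sum]
  refine sum_congr rfl fun x _ => ?_
  rw [sg_prod, trC_apply]
  simp only [sg, ctr_single, tm]
  split_ifs
  · simp [Matrix.trace]
  · simp

end PR

theorem pr_ : PRStmt := fun _ _ _ C _ =>
  ⟨PR.p1 C.carrier, PR.p2 C.carrier, PR.p3 C.carrier, PR.p4 C.carrier, PR.p5 C.carrier, PR.p6 C,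
    PR.p7 C.carrier, PR.p8 C.carrier⟩

end Crest.Agent.R192B
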