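import Crest.Agent.R192B.D2

/-! Row 192: `PROF` (smoothed distances along a loop form a profile). -/

set_option autoImplicit false

open MeasureTheory Set
open scoped ContDiff

namespace Crest.Agent.R192B

namespace PROF

theorem sum_single {Z ι : Type} [Fintype ι] (p : ι → Z) (ν : ι → ℝ) (F : Z → ℝ) :
    (∑ j, Finsupp.single (p j) (ν j)).sum (fun y w => w * F y) = ∑ j, ν j * F (p j) := by
  rw [← Finsupp.sum_finsetSum_index (fun _ => zero_mul _) (fun _ _ _ => add_mul _ _ _)]
  exact Finset.sum_congr rfl fun j _ => Finsupp.sum_single_index (zero_mul _)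

end PROF

theorem prof : LINStmt → PROFStmt := by
  classical
  intro hLIN Z d M D n p hM
  have hfin : {z | ∃ j, d z (p j) < D}.Finite := by
    have : {z | ∃ j, d z (p j) < D} = ⋃ j, {z | d z (p j) < D} := by
      ext z
      simp
    rw [this]
    refine Set.finite_iUnion fun j => ?_
    rcases Nat.eq_zero_or_pos D with h | h
    · simp [h]
    · obtain ⟨B, -, hB⟩ := hM.ball (p j) (D - 1) (by omega)
      refine B.finite_toSet.subset fun z hz => hB z ?_
      have : d z (p j) < D := hz
      rw [hM.symm]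
      omega
  have hout : ∀ K : ℝ → ℝ, ∀ z, z ∉ hfin.toFinset → ∀ s t, fK d K p z s t = D := by
    intro K z hz s t
    have h1 : ∀ j, d z (p j) = D := by
      intro j
      have := hM.le z (p j)
      by_contra hne
      exact hz (hfin.mem_toFinset.2 ⟨j, by omega⟩)
    simp [fK, lin, h1]
  refine ⟨hfin.toFinset, fun z => hfin.mem_toFinset, hout, ?_⟩
  intro L K hL sK mK pK hp
  obtain ⟨H1, H2⟩ := hLIN n K sK
  have hcl : ∀ z, (fun j => (d z (p j) : ℝ)) (Fin.last n) = (fun j => (d z (p j) : ℝ)) 0 := by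
    intro z
    simp only [hp.1]
  refine ⟨fun z => ⟨(H1 1 _).2.1, (H1 1 _).2.2.2.1 L pK (hcl z)⟩, fun z T s t => ?_,
    fun t ht => ?_⟩
  · have := (H1 1 (fun j => (d z (p j) : ℝ))).2.2.2.2 T 1 zero_le_one (fun l => by
      have a := hp.2 l
      have b := hM.tri z (p l.castSucc) (p l.succ)
      have c := hM.tri z (p l.succ) (p l.castSucc)
      rw [hM.symm (p l.succ)] at c
      have b' : (d z (p l.succ) : ℝ) ≤ d z (p l.castSucc) + 1 := by exact_mod_cast (by omega)
      have c' : (d z (p l.castSucc) : ℝ) ≤ d z (p l.succ) + 1 := by exact_mod_cast (by omega)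
      rw [abs_le]
      constructor <;> linarith) s t
    rw [one_mul] at this
    exact this
  · have hw : ∀ s, ∃ ν : Fin (n + 1) → ℝ, (∀ j, 0 ≤ ν j) ∧ ∑ j, ν j = 1 ∧
        ∀ z, fK d K p z s t = ∑ j, ν j * d z (p j) := by
      intro s
      obtain ⟨ν, h0, h1, h2⟩ := H2 L hL mK pK t ht s
      exact ⟨ν, h0, h1, fun z => h2 _ (hcl z)⟩
    refine ⟨hM, fun z => (H1 1 _).1, hout K, fun s => ?_, fun s z => ?_, fun s z z' => ?_⟩
    · obtain ⟨ν, h0, h1, h2⟩ := hw s
      refine ⟨∑ j, Finsupp.single (p j) (ν j), ⟨fun y => ?_, ?_⟩, fun z => ?_⟩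
      · rw [Finsupp.finsetSum_apply]
        refine Finset.sum_nonneg fun j _ => ?_
        rw [Finsupp.single_apply]
        split_ifs
        exacts [h0 j, le_rfl]
      · have := PROF.sum_single p ν (fun _ => 1)
        simp only [mul_one] at this
        rw [this, h1]
      · rw [h2, fm, PROF.sum_single p ν (fun y => (d z y : ℝ))]
    · obtain ⟨ν, h0, -, h2⟩ := hw s
      rw [h2]
      exact Finset.sum_nonneg fun j _ => mul_nonneg (h0 j) (Nat.cast_nonneg _)
    · obtain ⟨ν, h0, h1, h2⟩ := hw s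
      rw [h2, h2, ← Finset.sum_add_distrib, ← one_mul (d z z' : ℝ), ← h1, Finset.sum_mul]
      refine Finset.sum_le_sum fun j _ => ?_
      rw [← mul_add]
      refine mul_le_mul_of_nonneg_left ?_ (h0 j)
      have := hM.tri z (p j) z'
      rw [hM.symm (p j)] at this
      exact_mod_cast this

end Crest.Agent.R192B
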