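import Crest.Agent.R192B.D0

/-! Row 192, task PSI: twisted bumps. -/

set_option autoImplicit false

namespace Crest.Agent.R192B
namespace PSI

theorem bump_lip (ρ a b : ℝ) :
    |max 0 (min 1 (2 - a / ρ)) - max 0 (min 1 (2 - b / ρ))| ≤ |a / ρ - b / ρ| := by
  refine le_trans (abs_max_sub_max_le_max _ _ _ _) ?_
  refine max_le (by simp) ?_
  refine le_trans (abs_min_sub_min_le_max _ _ _ _) ?_
  refine max_le (by simp) ?_
  rw [show 2 - a / ρ - (2 - b / ρ) = -(a / ρ - b / ρ) by ring, abs_neg]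

theorem core {G : Type} [Group G] {S : Finset G} {M D : ℕ} {len : G → ℕ} (hl : IsLen S M D len)
    (ρ₁ : ℕ) (γ : ℝ) (hρ : 0 < ρ₁) (hγρ : 2 / γ ≤ ρ₁) (hγ : 0 < γ) (c : G) (θ : ℝ)
    (h1 : ∀ k : ℤ, c ^ k = 1 → Complex.exp (θ * k * Complex.I) = 1)
    (h2 : ∀ k : ℤ, len (c ^ k) ≤ 4 * ρ₁ + 1 → ‖Complex.exp (θ * k * Complex.I) - 1‖ ≤ γ / 2) :
    ∃ F : G → ℂ, (∀ w, F (c * w) = Complex.exp (θ * Complex.I) * F w) ∧
      (∀ w, ∀ s ∈ S, ‖F (w * s) - F w‖ ≤ γ) ∧
      ∀ w (k : ℤ), len (c ^ k * w) ≤ ρ₁ → ‖F w‖ = 1 := by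
  classical
  have hrep : ∀ O : Set G, ∃ u : G, O.Nonempty → u ∈ O ∧ ∀ v ∈ O, len u ≤ len v := by
    intro O
    by_cases h : O.Nonempty
    · exact ⟨Function.argminOn len O h, fun _ => ⟨Function.argminOn_mem len O h,
        fun v hv => Function.argminOn_le len O hv⟩⟩
    · exact ⟨1, fun h' => absurd h' h⟩
  choose rep hrep using hrep
  let O : G → Set G := fun w => {u | ∃ k : ℤ, w = c ^ k * u}
  have hne : ∀ w, (O w).Nonempty := fun w => ⟨w, 0, by simp⟩
  let u : G → G := fun w => rep (O w)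
  have hu : ∀ w, ∃ k : ℤ, w = c ^ k * u w := fun w => (hrep _ (hne w)).1
  have hmin : ∀ w v (k : ℤ), w = c ^ k * v → len (u w) ≤ len v :=
    fun w v k h => (hrep _ (hne w)).2 v ⟨k, h⟩
  choose kk hk using hu
  have hO : ∀ w, O (c * w) = O w := by
    intro w
    ext v
    constructor
    · rintro ⟨k, h⟩
      refine ⟨k - 1, ?_⟩
      have : w = c⁻¹ * (c ^ k * v) := by rw [← h]; group
      rw [this]; group
    · rintro ⟨k, h⟩
      refine ⟨k + 1, ?_⟩
      rw [h]; group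
  have huc : ∀ w, u (c * w) = u w := fun w => by simp only [u, hO]
  let φ : G → ℂ := fun w => Complex.exp (θ * kk w * Complex.I)
  have hφ1 : ∀ w, ‖φ w‖ = 1 := by
    intro w
    have : (θ : ℂ) * kk w * Complex.I = ((θ * kk w : ℝ) : ℂ) * Complex.I := by push_cast; ring
    simp only [φ]
    rw [this, Complex.norm_exp_ofReal_mul_I]
  have hφc : ∀ w, φ (c * w) = Complex.exp (θ * Complex.I) * φ w := by
    intro w
    have e1 := hk (c * w)
    rw [huc] at e1
    have e2 := hk w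
    have e3 : c ^ (kk (c * w) - kk w - 1) = 1 := by
      have e4 : c * (c ^ kk w * u w) = c ^ kk (c * w) * u w := by rw [← e2]; exact e1
      rw [← mul_assoc] at e4
      have e5 := mul_right_cancel e4
      have : c ^ (kk (c * w) - kk w - 1) = c ^ kk (c * w) * (c * c ^ kk w)⁻¹ := by group
      rw [this, e5, mul_inv_cancel]
    have e6 := h1 _ e3
    simp only [φ]
    rw [← Complex.exp_add, ← mul_one (Complex.exp (θ * Complex.I + _)), ← e6, ← Complex.exp_add]
    congr 1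
    push_cast; ring
  let b : G → ℝ := fun w => max 0 (min 1 (2 - (len (u w) : ℝ) / ρ₁))
  have hρ' : (0 : ℝ) < ρ₁ := by exact_mod_cast hρ
  have hb0 : ∀ w, 0 ≤ b w := fun w => le_max_left _ _
  have hb1 : ∀ w, b w ≤ 1 := fun w => max_le zero_le_one (min_le_left _ _)
  have hbz : ∀ w, 2 * ρ₁ ≤ len (u w) → b w = 0 := by
    intro w h
    have h' : (2 : ℝ) ≤ (len (u w) : ℝ) / ρ₁ := by
      rw [le_div_iff₀ hρ']; exact_mod_cast h
    exact max_eq_left ((min_le_right _ _).trans (by linarith))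
  refine ⟨fun w => (b w : ℂ) * φ w, fun w => ?_, fun w s hs => ?_, fun w k h => ?_⟩
  · have : b (c * w) = b w := by simp only [b, huc]
    simp only [this, hφc]; ring
  · have hs1 := hl.step s hs
    have d1 : len (u (w * s)) ≤ len (u w) + 1 := by
      refine (hmin (w * s) (u w * s) (kk w) ?_).trans ((hl.mul _ _).trans (by omega))
      rw [← mul_assoc, ← hk w]
    have d2 : len (u w) ≤ len (u (w * s)) + 1 := by
      refine (hmin w (u (w * s) * s⁻¹) (kk (w * s)) ?_).trans ((hl.mul _ _).trans ?_)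
      · rw [← mul_assoc, ← hk (w * s)]; simp
      · rw [hl.inv]; omega
    by_cases hbig : 2 * ρ₁ < len (u w) ∨ 2 * ρ₁ < len (u (w * s))
    · show ‖(b (w * s) : ℂ) * φ (w * s) - (b w : ℂ) * φ w‖ ≤ γ
      rw [hbz w (by omega), hbz (w * s) (by omega)]
      simpa using hγ.le
    · push Not at hbig
      have e1 : c ^ (kk w - kk (w * s)) = u (w * s) * (s⁻¹ * (u w)⁻¹) := by
        have e2 : c ^ kk w * u w * s = c ^ kk (w * s) * u (w * s) := by
          rw [← hk w]; exact hk (w * s)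
        have e3 : u (w * s) = (c ^ kk (w * s))⁻¹ * (c ^ kk w * u w * s) := by
          rw [e2]; group
        rw [e3]; group
      have e4 : len (c ^ (kk w - kk (w * s))) ≤ 4 * ρ₁ + 1 := by
        rw [e1]
        have := hl.mul (u (w * s)) (s⁻¹ * (u w)⁻¹)
        have := hl.mul s⁻¹ (u w)⁻¹
        have := hl.inv s
        have := hl.inv (u w)
        omega
      have e5 := h2 _ e4
      have e6 : ‖φ (w * s) - φ w‖ ≤ γ / 2 := by
        have : φ (w * s) - φ w = -(φ (w * s) *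
            (Complex.exp (θ * ((kk w - kk (w * s) : ℤ) : ℂ) * Complex.I) - 1)) := by
          simp only [φ]
          rw [mul_sub, ← Complex.exp_add, mul_one, neg_sub]
          congr 2
          push_cast; ring
        rw [this, norm_neg, norm_mul, hφ1, one_mul]
        exact e5
      have e7 : |b (w * s) - b w| ≤ γ / 2 := by
        refine (bump_lip _ _ _).trans ?_
        rw [← sub_div, abs_div, abs_of_pos hρ', div_le_iff₀ hρ']
        have f1 : |(len (u (w * s)) : ℝ) - len (u w)| ≤ 1 := by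
          have g1 : (len (u (w * s)) : ℝ) ≤ len (u w) + 1 := by exact_mod_cast d1
          have g2 : (len (u w) : ℝ) ≤ len (u (w * s)) + 1 := by exact_mod_cast d2
          rw [abs_le]; constructor <;> linarith
        rw [div_le_iff₀ hγ] at hγρ
        linarith
      have e8 : (b (w * s) : ℂ) * φ (w * s) - (b w : ℂ) * φ w =
          ((b (w * s) - b w : ℝ) : ℂ) * φ (w * s) + (b w : ℂ) * (φ (w * s) - φ w) := by
        push_cast; ring
      show ‖(b (w * s) : ℂ) * φ (w * s) - (b w : ℂ) * φ w‖ ≤ γ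
      rw [e8]
      refine (norm_add_le _ _).trans ?_
      rw [norm_mul, norm_mul, hφ1, mul_one, Complex.norm_real, Complex.norm_real,
        Real.norm_eq_abs, Real.norm_eq_abs, abs_of_nonneg (hb0 w)]
      have := mul_le_mul (hb1 w) e6 (norm_nonneg _) zero_le_one
      linarith
  · have d : len (u w) ≤ ρ₁ := (hmin w (c ^ k * w) (-k) (by group)).trans h
    have hb : b w = 1 := by
      have h' : (len (u w) : ℝ) / ρ₁ ≤ 1 := by
        rw [div_le_one hρ']; exact_mod_cast d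
      simp only [b]
      rw [min_eq_left (by linarith), max_eq_right zero_le_one]
    show ‖(b w : ℂ) * φ w‖ = 1
    rw [hb, norm_mul, hφ1]; simp

end PSI

theorem psi (hM : METStmt) (hZ : ZETAStmt) : PSIStmt := by
  intro G _ S M D len hl ρ₁ γ hD hρ hγρ hγ
  obtain ⟨𝒮, c₀, hS, hc₀, hϑ⟩ := hZ G S M D len hl (4 * ρ₁ + 1) (γ / 2) hD (by positivity)
  refine ⟨𝒮, c₀, hS, hc₀, fun g hg => ?_⟩
  have key : ∀ c : G, ∃ (θ : ℝ) (F : G → ℂ), c ∉ 𝒮 → |θ| ≤ Real.pi ∧ c₀ ≤ |Real.sin (θ / 2)| ∧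
      (∀ w, F (c * w) = Complex.exp (θ * Complex.I) * F w) ∧
      (∀ w, ∀ s ∈ S, ‖F (w * s) - F w‖ ≤ γ) ∧
      ∀ w (k : ℤ), len (c ^ k * w) ≤ ρ₁ → ‖F w‖ = 1 := by
    intro c
    by_cases hc : c ∈ 𝒮
    · exact ⟨0, 0, fun h => absurd hc h⟩
    · obtain ⟨θ, a1, a2, a3, a4⟩ := hϑ c hc
      obtain ⟨F, hF⟩ := PSI.core hl ρ₁ γ hρ hγρ hγ c θ a3 a4
      exact ⟨θ, F, fun _ => ⟨a1, a2, hF⟩⟩
  choose Θ F hF using key
  have hconj : ∀ h x : G, Commute h g → (h * x)⁻¹ * g * (h * x) = x⁻¹ * g * x := by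
    intro h x hc
    have : g * h = h * g := hc.eq.symm
    calc (h * x)⁻¹ * g * (h * x) = x⁻¹ * h⁻¹ * (g * h) * x := by group
      _ = x⁻¹ * g * x := by rw [this]; group
  refine ⟨fun x y => F (x⁻¹ * g * x) (x⁻¹ * y), fun x => Θ (x⁻¹ * g * x),
    ⟨fun x y => ?_, fun h x hc => ?_, fun h x y hc => ?_, fun x y s hs => ?_, fun x y hxy => ?_,
      fun x => (hF _ (hg x)).1, fun x => (hF _ (hg x)).2.1⟩⟩
  · have : x⁻¹ * (g * y) = (x⁻¹ * g * x) * (x⁻¹ * y) := by group
    simp only [this]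
    exact (hF _ (hg x)).2.2.1 _
  · simp only [hconj h x hc]
  · have : (h * x)⁻¹ * (h * y) = x⁻¹ * y := by group
    simp only [hconj h x hc, this]
  · have := (hF _ (hg x)).2.2.2.1 (x⁻¹ * y) s hs
    simpa only [mul_assoc] using this
  · obtain ⟨k, hk⟩ := ((hM G S M D len g hl).2.2.2.2.1 x y ρ₁).mp hxy
    have e : (g ^ k * x)⁻¹ * y = (x⁻¹ * g * x) ^ (-k) * (x⁻¹ * y) := by
      have : (x⁻¹ * g * x) ^ (-k) = x⁻¹ * g ^ (-k) * x := by
        have := conj_zpow (i := -k) (a := x⁻¹) (b := g)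
        simpa using this
      rw [this]; group
    rw [e] at hk
    have := (hF _ (hg x)).2.2.2.2 _ _ hk
    show 3 / 4 ≤ ‖F (x⁻¹ * g * x) (x⁻¹ * y)‖
    rw [this]; norm_num

end Crest.Agent.R192B
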