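import Crest.Agent.R192B.D0

/-! Row 192: ordered simplices. -/

set_option autoImplicit false

open MeasureTheory Set

namespace Crest.Agent.R192B
namespace SIMP

theorem lo_le_iff {L : ℝ} {n : ℕ} {t : Fin n → ℝ} (ht : t ∈ Sx L n) (i : Fin (n + 1)) (x : ℝ) :
    (Fin.cons 0 t : Fin (n + 1) → ℝ) i ≤ x ↔ 0 ≤ x ∧ ∀ j : Fin n, j.castSucc < i → t j ≤ x := by
  cases i using Fin.cases with
  | zero => simp
  | succ j0 =>
    rw [Fin.cons_succ]
    exact ⟨fun h => ⟨(ht.1 j0).1.trans h, fun j hj =>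
      (ht.2 (Fin.castSucc_lt_succ_iff.1 hj)).trans h⟩, fun h => h.2 j0 Fin.castSucc_lt_succ⟩

theorem le_hi_iff {L : ℝ} {n : ℕ} {t : Fin n → ℝ} (ht : t ∈ Sx L n) (i : Fin (n + 1)) (x : ℝ) :
    x ≤ (Fin.snoc t L : Fin (n + 1) → ℝ) i ↔ x ≤ L ∧ ∀ j : Fin n, i ≤ j.castSucc → x ≤ t j := by
  cases i using Fin.lastCases with
  | last =>
    rw [Fin.snoc_last]
    exact ⟨fun h => ⟨h, fun j hj => absurd hj (not_le.2 (Fin.castSucc_lt_last j))⟩, fun h => h.1⟩
  | cast j0 =>
    rw [Fin.snoc_castSucc]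
    exact ⟨fun h => ⟨h.trans (ht.1 j0).2, fun j hj =>
      h.trans (ht.2 (Fin.castSucc_le_castSucc_iff.1 hj))⟩, fun h => h.2 j0 le_rfl⟩

theorem lo_le_hi {L : ℝ} (hL : 0 ≤ L) {n : ℕ} {t : Fin n → ℝ} (ht : t ∈ Sx L n)
    (i : Fin (n + 1)) :
    (Fin.cons 0 t : Fin (n + 1) → ℝ) i ≤ (Fin.snoc t L : Fin (n + 1) → ℝ) i := by
  rw [lo_le_iff ht]
  cases i using Fin.lastCases with
  | last =>
    rw [Fin.snoc_last]
    exact ⟨hL, fun j _ => (ht.1 j).2⟩
  | cast j0 =>
    rw [Fin.snoc_castSucc]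
    exact ⟨(ht.1 j0).1, fun j hj => ht.2 (Fin.castSucc_lt_castSucc_iff.1 hj).le⟩

theorem mem_ins {L : ℝ} {n : ℕ} (i : Fin (n + 1)) (x : ℝ) (t : Fin n → ℝ) :
    (Fin.insertNth i x t : Fin (n + 1) → ℝ) ∈ Sx L (n + 1) ↔
      t ∈ Sx L n ∧ x ∈ Icc ((Fin.cons 0 t : Fin (n + 1) → ℝ) i)
        ((Fin.snoc t L : Fin (n + 1) → ℝ) i) := by
  set u : Fin (n + 1) → ℝ := Fin.insertNth i x t with hu
  have h0 : u i = x := by simp [hu]
  have h1 : ∀ j, u (i.succAbove j) = t j := fun j => by simp [hu]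
  constructor
  · rintro ⟨a, b⟩
    have ht : t ∈ Sx L n := ⟨fun j => h1 j ▸ a _, fun j k hjk => by
      rw [← h1 j, ← h1 k]; exact b ((Fin.strictMono_succAbove i).monotone hjk)⟩
    refine ⟨ht, (lo_le_iff ht i x).2 ⟨h0 ▸ (a i).1, fun j hj => ?_⟩,
      (le_hi_iff ht i x).2 ⟨h0 ▸ (a i).2, fun j hj => ?_⟩⟩
    · rw [← h1 j, ← h0]; exact b ((Fin.succAbove_lt_iff_castSucc_lt i j).2 hj).le
    · rw [← h1 j, ← h0]; exact b ((Fin.lt_succAbove_iff_le_castSucc i j).2 hj).le
  · rintro ⟨ht, a, b⟩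
    rw [lo_le_iff ht] at a
    rw [le_hi_iff ht] at b
    refine ⟨fun k => ?_, fun k l hkl => ?_⟩
    · rcases Fin.eq_self_or_eq_succAbove i k with rfl | ⟨j, rfl⟩
      · rw [h0]; exact ⟨a.1, b.1⟩
      · rw [h1]; exact ht.1 j
    · rcases Fin.eq_self_or_eq_succAbove i k with rfl | ⟨j, rfl⟩
      · rcases Fin.eq_self_or_eq_succAbove k l with rfl | ⟨j', rfl⟩
        · exact le_rfl
        · rw [h0, h1]
          exact b.2 j' ((Fin.lt_succAbove_iff_le_castSucc k j').1
            (lt_of_le_of_ne hkl (Fin.succAbove_ne k j').symm))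
      · rcases Fin.eq_self_or_eq_succAbove i l with rfl | ⟨j', rfl⟩
        · rw [h0, h1]
          exact a.2 j ((Fin.succAbove_lt_iff_castSucc_lt l j).1
            (lt_of_le_of_ne hkl (Fin.succAbove_ne l j)))
        · rw [h1, h1]
          exact ht.2 ((Fin.strictMono_succAbove i).le_iff_le.1 hkl)

theorem isClosed_Sx (L : ℝ) (n : ℕ) : IsClosed (Sx L n) := by
  have : Sx L n = (⋂ i, (fun t : Fin n → ℝ => t i) ⁻¹' Icc 0 L) ∩
      ⋂ i, ⋂ j, ⋂ (_ : i ≤ j), {t : Fin n → ℝ | t i ≤ t j} := by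
    ext t
    simp only [Sx, mem_inter_iff, mem_iInter, mem_preimage, Monotone]
    rfl
  rw [this]
  refine (isClosed_iInter fun i => isClosed_Icc.preimage (continuous_apply i)).inter
    (isClosed_iInter fun i => isClosed_iInter fun j => isClosed_iInter fun _ => ?_)
  exact isClosed_le (continuous_apply i) (continuous_apply j)

theorem isCompact_Sx (L : ℝ) (n : ℕ) : IsCompact (Sx L n) :=
  (isCompact_univ_pi fun _ : Fin n => (isCompact_Icc : IsCompact (Icc (0 : ℝ) L))).of_isClosed_subset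
    (isClosed_Sx L n) fun _ ht i _ => ht.1 i

theorem meas_Sx (L : ℝ) (n : ℕ) : MeasurableSet (Sx L n) := (isClosed_Sx L n).measurableSet

theorem vol_Sx (n : ℕ) : ∀ L : ℝ, 0 ≤ L →
    volume (Sx L n) = ENNReal.ofReal (L ^ n / n.factorial) := by
  induction n with
  | zero =>
    intro L _
    have : Sx L 0 = univ := eq_univ_of_forall fun t =>
      ⟨fun i => i.elim0, fun i => i.elim0⟩
    rw [this]
    simp [volume_pi, Measure.pi_univ]
  | succ n ih =>
    intro L hL
    have hp := (volume_preserving_piFinSuccAbove (fun _ : Fin (n + 1) => ℝ) (Fin.last n)).symm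
    rw [← hp.measure_preimage (meas_Sx L (n + 1)).nullMeasurableSet, Measure.volume_eq_prod,
      Measure.prod_apply (hp.measurable (meas_Sx L (n + 1)))]
    have h1 : ∀ x : ℝ, volume (Prod.mk x ⁻¹'
        ((MeasurableEquiv.piFinSuccAbove (fun _ : Fin (n + 1) => ℝ) (Fin.last n)).symm ⁻¹'
          Sx L (n + 1))) = (Icc (0 : ℝ) L).indicator
            (fun x => ENNReal.ofReal (x ^ n / n.factorial)) x := by
      intro x
      have h2 : ∀ t : Fin n → ℝ, t ∈ Prod.mk x ⁻¹'
          ((MeasurableEquiv.piFinSuccAbove (fun _ : Fin (n + 1) => ℝ) (Fin.last n)).symm ⁻¹'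
            Sx L (n + 1)) ↔ x ∈ Icc 0 L ∧ t ∈ Sx x n := by
        intro t
        have := mem_ins (L := L) (Fin.last n) x t
        refine Iff.trans this ?_
        rw [Fin.snoc_last]
        constructor
        · rintro ⟨ht, a, b⟩
          rw [lo_le_iff ht] at a
          exact ⟨⟨a.1, b⟩, fun j => ⟨(ht.1 j).1, a.2 j (Fin.castSucc_lt_last j)⟩, ht.2⟩
        · rintro ⟨a, b⟩
          have ht : t ∈ Sx L n := ⟨fun j => ⟨(b.1 j).1, (b.1 j).2.trans a.2⟩, b.2⟩
          exact ⟨ht, (lo_le_iff ht _ x).2 ⟨a.1, fun j _ => (b.1 j).2⟩, a.2⟩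
      by_cases hx : x ∈ Icc (0 : ℝ) L
      · rw [indicator_of_mem hx, ← ih x hx.1]
        congr 1
        ext t
        rw [h2]; exact ⟨fun h => h.2, fun h => ⟨hx, h⟩⟩
      · rw [indicator_of_notMem hx]
        rw [eq_empty_of_forall_notMem fun t ht => hx ((h2 t).1 ht).1, measure_empty]
    simp_rw [h1]
    rw [lintegral_indicator measurableSet_Icc, ← ofReal_integral_eq_lintegral_ofReal]
    · congr 1
      rw [integral_Icc_eq_integral_Ioc, ← intervalIntegral.integral_of_le hL,
        intervalIntegral.integral_div, integral_pow, Nat.factorial_succ]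
      push_cast
      field_simp
      ring
    · exact (by fun_prop : Continuous fun x : ℝ => x ^ n / (n.factorial : ℝ)).integrableOn_Icc
    · filter_upwards [ae_restrict_mem measurableSet_Icc] with x hx
      have := hx.1
      positivity

theorem cont_ins {n : ℕ} (i : Fin (n + 1)) (g : (Fin n → ℝ) → ℝ) (hg : Continuous g) :
    Continuous fun t : Fin n → ℝ => (Fin.insertNth i (g t) t : Fin (n + 1) → ℝ) := by
  refine continuous_pi fun k => ?_
  rcases Fin.eq_self_or_eq_succAbove i k with rfl | ⟨j, rfl⟩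
  · simpa using hg
  · simpa using continuous_apply j

theorem cont_upF (L : ℝ) {n : ℕ} (i : Fin (n + 1)) : Continuous (upF L i) := by
  refine cont_ins i _ ?_
  cases i using Fin.lastCases with
  | last => simpa using continuous_const
  | cast j => simpa using continuous_apply j

theorem cont_loF {n : ℕ} (i : Fin (n + 1)) : Continuous (loF i) := by
  refine cont_ins i _ ?_
  cases i using Fin.cases with
  | zero => simpa using continuous_const
  | succ j => simpa using continuous_apply j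

theorem faces {L : ℝ} (hL : 0 ≤ L) {n : ℕ} (i : Fin (n + 1)) (t : Fin n → ℝ) (ht : t ∈ Sx L n) :
    upF L i t ∈ Sx L (n + 1) ∧ loF i t ∈ Sx L (n + 1) :=
  ⟨(mem_ins i _ t).2 ⟨ht, lo_le_hi hL ht i, le_rfl⟩,
    (mem_ins i _ t).2 ⟨ht, le_rfl, lo_le_hi hL ht i⟩⟩

theorem ins_eq {n : ℕ} (i : Fin (n + 1)) (x : ℝ) (t : Fin n → ℝ) :
    (Fin.insertNth i x t : Fin (n + 1) → ℝ) = Fin.insertNth i 0 t + x • ee i := by
  funext k
  rcases Fin.eq_self_or_eq_succAbove i k with rfl | ⟨j, rfl⟩
  · simp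
  · simp [Pi.single_eq_of_ne (Fin.succAbove_ne i j)]

theorem ftc {L : ℝ} (hL : 0 ≤ L) {n : ℕ} (f : (Fin (n + 1) → ℝ) → ℝ) (i : Fin (n + 1))
    (hf : ∀ t ∈ Sx L (n + 1), ContDiffAt ℝ 1 f t) :
    ∫ t in Sx L (n + 1), fderiv ℝ f t (ee i) =
      (∫ t in Sx L n, f (upF L i t)) - ∫ t in Sx L n, f (loF i t) := by
  set F : (Fin (n + 1) → ℝ) → ℝ := fun u => fderiv ℝ f u (ee i) with hF
  have hFc : ContinuousOn F (Sx L (n + 1)) := fun u hu =>
    (((hf u hu).continuousAt_fderiv (by simp)).clm_apply continuousAt_const).continuousWithinAt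
  have hfc : ContinuousOn f (Sx L (n + 1)) := fun u hu => (hf u hu).continuousAt.continuousWithinAt
  have hFi : Integrable ((Sx L (n + 1)).indicator F) :=
    (integrable_indicator_iff (meas_Sx L _)).2 (hFc.integrableOn_compact (isCompact_Sx L _))
  have hp := (volume_preserving_piFinSuccAbove (fun _ : Fin (n + 1) => ℝ) i).symm
  have hi2 := (hp.integrable_comp_emb (MeasurableEquiv.measurableEmbedding _)).2 hFi
  rw [← integral_indicator (meas_Sx L _), ← hp.integral_comp' ((Sx L (n + 1)).indicator F)]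
  rw [Measure.volume_eq_prod] at hi2 ⊢
  rw [integral_prod_symm (fun x => (Sx L (n + 1)).indicator F
    ((MeasurableEquiv.piFinSuccAbove (fun _ : Fin (n + 1) => ℝ) i).symm x)) hi2]
  have h1 : ∀ t : Fin n → ℝ, ∫ x : ℝ, (Sx L (n + 1)).indicator F
      ((MeasurableEquiv.piFinSuccAbove (fun _ : Fin (n + 1) => ℝ) i).symm (x, t))
      = (Sx L n).indicator (fun t => f (upF L i t) - f (loF i t)) t := by
    intro t
    have e0 : ∀ x : ℝ, (MeasurableEquiv.piFinSuccAbove (fun _ : Fin (n + 1) => ℝ) i).symm (x, t)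
        = (Fin.insertNth i x t : Fin (n + 1) → ℝ) := fun x => rfl
    simp_rw [e0]
    by_cases ht : t ∈ Sx L n
    · rw [indicator_of_mem ht]
      set lo := (Fin.cons 0 t : Fin (n + 1) → ℝ) i with hlo
      set hi := (Fin.snoc t L : Fin (n + 1) → ℝ) i with hhi
      have hlh : lo ≤ hi := lo_le_hi hL ht i
      have e1 : (fun x : ℝ => (Sx L (n + 1)).indicator F (Fin.insertNth i x t))
          = (Icc lo hi).indicator fun x => F (Fin.insertNth i x t) := by
        funext x
        by_cases hx : x ∈ Icc lo hi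
        · rw [indicator_of_mem hx, indicator_of_mem ((mem_ins i x t).2 ⟨ht, hx⟩)]
        · rw [indicator_of_notMem hx, indicator_of_notMem fun h => hx ((mem_ins i x t).1 h).2]
      rw [e1, integral_indicator measurableSet_Icc, integral_Icc_eq_integral_Ioc,
        ← intervalIntegral.integral_of_le hlh]
      have hd : ∀ x : ℝ, HasDerivAt (fun x : ℝ => (Fin.insertNth i x t : Fin (n + 1) → ℝ))
          (ee i) x := by
        intro x
        have : (fun x : ℝ => (Fin.insertNth i x t : Fin (n + 1) → ℝ))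
            = fun x : ℝ => Fin.insertNth i 0 t + x • ee i := funext fun x => ins_eq i x t
        rw [this]
        simpa using ((hasDerivAt_id x).smul_const (ee i : Fin (n + 1) → ℝ)).const_add
          (Fin.insertNth i 0 t : Fin (n + 1) → ℝ)
      refine intervalIntegral.integral_eq_sub_of_hasDerivAt
        (f := fun x => f (Fin.insertNth i x t)) (fun x hx => ?_) ?_
      · rw [uIcc_of_le hlh] at hx
        exact (((hf _ ((mem_ins i x t).2 ⟨ht, hx⟩)).differentiableAt
          (by simp)).hasFDerivAt).comp_hasDerivAt x (hd x)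
      · apply ContinuousOn.intervalIntegrable
        rw [uIcc_of_le hlh]
        exact hFc.comp (fun x _ => (hd x).continuousAt.continuousWithinAt)
          fun x hx => (mem_ins i x t).2 ⟨ht, hx⟩
    · rw [indicator_of_notMem ht]
      have : (fun x : ℝ => (Sx L (n + 1)).indicator F (Fin.insertNth i x t)) = fun _ => 0 :=
        funext fun x => indicator_of_notMem (fun h => ht ((mem_ins i x t).1 h).1) _
      rw [this, integral_zero]
  simp_rw [h1]
  rw [integral_indicator (meas_Sx L _), integral_sub]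
  · exact (hfc.comp (cont_upF L i).continuousOn
      fun t ht => (faces hL i t ht).1).integrableOn_compact (isCompact_Sx L _)
  · exact (hfc.comp (cont_loF i).continuousOn
      fun t ht => (faces hL i t ht).2).integrableOn_compact (isCompact_Sx L _)

theorem dups (L : ℝ) {n : ℕ} (i : Fin n) (t : Fin n → ℝ) :
    upF L i.castSucc t = dup i t ∧ loF i.succ t = dup i t := by
  constructor
  · funext k
    unfold upF dup
    rcases Fin.eq_self_or_eq_succAbove i.castSucc k with rfl | ⟨j, rfl⟩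
    · simp
    · simp
  · funext k
    unfold loF dup
    rcases Fin.eq_self_or_eq_succAbove i.succ k with rfl | ⟨j, rfl⟩
    · simp
    · rw [Fin.insertNth_apply_succAbove]
      congr 1
      rcases lt_or_ge i j with h | h
      · rw [Fin.succAbove_of_le_castSucc _ _ (Fin.succ_le_castSucc_iff.2 h),
          Fin.predAbove_succ_of_le _ _ h.le]
      · rw [Fin.succAbove_of_castSucc_lt _ _ (Fin.castSucc_lt_succ_iff.2 h),
          Fin.predAbove_castSucc_of_le _ _ h]

end SIMP
open SIMP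

theorem simp_ : SIMPStmt := by
  intro L hL n
  refine ⟨isCompact_Sx L n, meas_Sx L n, ?_, fun i t ht => faces hL i t ht,
    fun i t => dups L i t, fun f i hf => ftc hL f i hf⟩
  rw [vol_Sx n L hL, ENNReal.toReal_ofReal (by positivity)]

end Crest.Agent.R192B
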