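import Crest.Agent.R192B.D1

set_option autoImplicit false

open MeasureTheory Set
open scoped ContDiff

namespace Crest.Agent.R192B
namespace SPL

variable {n : ℕ}

theorem io_smul (c : ℝ) (u : Fin n → ℝ) : io (c • u) = c • io u := map_smul _ _ _

theorem io_sum (u : Fin n → Fin n → ℝ) : io (∑ i, u i) = ∑ i, io (u i) := map_sum _ _ _

theorem anti (a b : Fin n → ℝ) : io a * io b = -(io b * io a) :=
  eq_neg_of_add_eq_zero_left (ExteriorAlgebra.ι_add_mul_swap a b)

theorem comm2 (u a b : Fin n → ℝ) : io u * (io a * io b) = io a * io b * io u := by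
  rw [← mul_assoc, anti u a, neg_mul, mul_assoc, anti u b, mul_neg, neg_neg, mul_assoc]

theorem comm_dF (u : Fin n → ℝ) (f : Vf n) (t : Fin n → ℝ) : io u * dF f t = dF f t * io u := by
  unfold dF
  rw [Finset.mul_sum, Finset.sum_mul]
  exact Finset.sum_congr rfl fun i _ => comm2 _ _ _

theorem io_pow (u c : Fin n → ℝ) (a : ℝ) (Ω : Ext n) (h : io u * Ω = Ω * io u) (j : ℕ) :
    io u * (a • Ω + io c * io u) ^ j = a ^ j • (io u * Ω ^ j) := by
  induction j with
  | zero => simp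
  | succ j ih =>
    have h0 : io u * (io c * io u) = 0 := by
      rw [comm2, mul_assoc, ExteriorAlgebra.ι_sq_zero, mul_zero]
    rw [pow_succ', ← mul_assoc, mul_add, h0, add_zero, mul_smul_comm, h, smul_mul_assoc,
      mul_assoc, ih, mul_smul_comm, smul_smul, ← mul_assoc, ← h, mul_assoc, ← pow_succ',
      ← pow_succ']

theorem cda_sum {L : ℝ} {f : Vf n} (hf : Reg L f) (t : Fin n → ℝ) :
    ContDiffAt ℝ ∞ (fun t => ∑ i, f t i) t :=
  ContDiffAt.sum fun i _ => (contDiff_pi.1 hf.1 i).contDiffAt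

theorem cda_inv {L : ℝ} {f : Vf n} (hf : Reg L f) {t : Fin n → ℝ} (ht : t ∈ Sx L n) :
    ContDiffAt ℝ ∞ (fun t => (∑ i, f t i)⁻¹) t := (cda_sum hf t).inv (hf.2 t ht)

theorem cda_th {L : ℝ} {f : Vf n} (hf : Reg L f) {t : Fin n → ℝ} (ht : t ∈ Sx L n) :
    ContDiffAt ℝ ∞ (th f) t := (cda_inv hf ht).smul hf.1.contDiffAt

theorem dF_th {L : ℝ} {f : Vf n} (hf : Reg L f) {t : Fin n → ℝ} (ht : t ∈ Sx L n) :
    ∃ c, dF (th f) t = (∑ i, f t i)⁻¹ • dF f t + io c * io (f t) := by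
  have h1 := ((cda_inv hf ht).differentiableAt (by simp)).hasFDerivAt
  have h2 := (hf.1.differentiable (by simp) t).hasFDerivAt
  have h3 : fderiv ℝ (th f) t = _ := (h1.smul h2).fderiv
  refine ⟨∑ i, fderiv ℝ (fun t => (∑ i, f t i)⁻¹) t (ee i) • ee i, ?_⟩
  unfold dF
  rw [h3, Finset.smul_sum, io_sum, Finset.sum_mul, ← Finset.sum_add_distrib]
  refine Finset.sum_congr rfl fun i _ => ?_
  simp only [ContinuousLinearMap.add_apply, ContinuousLinearMap.smul_apply,
    ContinuousLinearMap.smulRight_apply, map_add, map_smul, mul_add, mul_smul_comm,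
    smul_mul_assoc]

theorem th_pow {L : ℝ} {f : Vf n} (hf : Reg L f) {t : Fin n → ℝ} (ht : t ∈ Sx L n) (j : ℕ) :
    io (th f t) * dF (th f) t ^ j = ((∑ i, f t i)⁻¹) ^ (j + 1) • (io (f t) * dF f t ^ j) := by
  obtain ⟨c, hc⟩ := dF_th hf ht
  rw [hc, th, io_smul, smul_mul_assoc, io_pow _ _ _ _ (comm_dF _ _ _), smul_smul, pow_succ']

theorem sum_th {f : Vf n} {t : Fin n → ℝ} (h : ∑ i, f t i ≠ 0) : ∑ i, th f t i = 1 := by
  simp only [th, Pi.smul_apply, smul_eq_mul, ← Finset.mul_sum]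
  exact inv_mul_cancel₀ h

theorem sum_dth {L : ℝ} {f : Vf n} (hf : Reg L f) {t : Fin n → ℝ} (ht : t ∈ Sx L n)
    (v : Fin n → ℝ) : ∑ l, fderiv ℝ (th f) t v l = 0 := by
  have h1 := ((cda_th hf ht).differentiableAt (by simp)).hasFDerivAt
  have h2 : HasFDerivAt (fun s => ∑ l, th f s l)
      (∑ l, (ContinuousLinearMap.proj l).comp (fderiv ℝ (th f) t)) t :=
    HasFDerivAt.fun_sum fun l _ => (hasFDerivAt_pi'.1 h1) l
  have h3 : (fun s => ∑ l, th f s l) =ᶠ[nhds t] fun _ => 1 := by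
    filter_upwards [(cda_sum hf t).continuousAt.eventually_ne (hf.2 t ht)] with s hs
    exact sum_th hs
  have h4 := (h2.congr_of_eventuallyEq h3.symm).unique (hasFDerivAt_const 1 t)
  have h5 := congrArg (fun φ : (Fin n → ℝ) →L[ℝ] ℝ => φ v) h4
  simpa using h5

theorem dth_one {L : ℝ} {f : Vf n} (hf : Reg L f) {t : Fin n → ℝ} (ht : t ∈ Sx L n)
    (hs : ∀ t c, f (fun i => t i + c) = f t) : ∑ i, fderiv ℝ (th f) t (ee i) = 0 := by
  have h1 := ((cda_th hf ht).differentiableAt (by simp)).hasFDerivAt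
  have h2 : HasDerivAt (fun c : ℝ => (fun i => t i + c : Fin n → ℝ)) (fun _ => 1) 0 :=
    hasDerivAt_pi.2 fun i => (hasDerivAt_id (0 : ℝ)).const_add (t i)
  have h3 : HasFDerivAt (th f) (fderiv ℝ (th f) t) (fun i => t i + 0) := by simpa using h1
  have h4 := h3.comp_hasDerivAt (0 : ℝ) h2
  have h5 : (th f ∘ fun c : ℝ => (fun i => t i + c : Fin n → ℝ)) = fun _ => th f t := by
    ext1 c
    simp only [Function.comp_apply, th, hs]
  rw [h5] at h4
  have h6 := h4.unique (hasDerivAt_const 0 _)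
  rw [← map_sum, ← h6]
  congr 1
  ext l
  simp [Finset.sum_apply, Pi.single_apply]

theorem cn_one (w : Fin n → ℝ) : cn w (1 : Ext n) = 0 := CliffordAlgebra.contractLeft_one _ _

theorem cn_dF (hE : EVStmt) {g : Vf n} {t : Fin n → ℝ}
    (h1 : ∀ v, ∑ l, fderiv ℝ g t v l = 0) (h2 : ∑ i, fderiv ℝ g t (ee i) = 0) (β : Ext n) :
    cn (fun _ => 1) (dF g t * β) = dF g t * cn (fun _ => 1) β := by
  have h3 : ∀ i, cn (fun _ => 1) (io (ee i) * io (fderiv ℝ g t (ee i)) * β) =
      io (fderiv ℝ g t (ee i)) * β +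
        io (ee i) * io (fderiv ℝ g t (ee i)) * cn (fun _ => 1) β := by
    intro i
    rw [mul_assoc, (hE n).1, (hE n).1]
    simp only [one_mul, h1, zero_smul, zero_sub, mul_neg, sub_neg_eq_add, mul_assoc]
    congr 1
    simp [Pi.single_apply]
  unfold dF
  rw [Finset.sum_mul, map_sum, Finset.sum_mul]
  simp only [h3, Finset.sum_add_distrib]
  rw [← Finset.sum_mul, ← map_sum, h2]
  simp

theorem cn_pow (hE : EVStmt) {g : Vf n} {t : Fin n → ℝ}
    (h1 : ∀ v, ∑ l, fderiv ℝ g t v l = 0) (h2 : ∑ i, fderiv ℝ g t (ee i) = 0) (j : ℕ) :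
    cn (fun _ => 1) (dF g t ^ j) = 0 := by
  induction j with
  | zero => rw [pow_zero, cn_one]
  | succ j ih => rw [pow_succ', cn_dF hE h1 h2, ih, mul_zero]

theorem point (hE : EVStmt) {L : ℝ} {f : Vf n} (hf : Reg L f) {t : Fin n → ℝ} (ht : t ∈ Sx L n)
    (hs : ∀ t c, f (fun i => t i + c) = f t) {d : Fin n → ℝ} (hd : ∑ i, d i ≠ 0) (j : ℕ)
    (T : Finset (Fin n)) :
    evL (dirs T) (io (th f t) * dF (th f) t ^ j) = evL (dirs T) (io (th0 d) * dF (th f) t ^ j) +
      ∑ i ∈ Tᶜ, evL (ee i :: dirs T) (gam j d f t) := by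
  have h0 : ∑ i, th0 d i = 1 := by
    simp only [th0, Pi.smul_apply, smul_eq_mul, ← Finset.mul_sum]
    exact inv_mul_cancel₀ hd
  have h1 : cn (fun _ => 1) (gam j d f t) =
      io (th f t) * dF (th f) t ^ j - io (th0 d) * dF (th f) t ^ j := by
    rw [gam, mul_assoc, (hE n).1, (hE n).1, cn_pow hE (sum_dth hf ht) (dth_one hf ht hs)]
    simp only [one_mul, h0, sum_th (hf.2 t ht), one_smul, mul_zero, sub_zero]
  have h2 := (hE n).2.2.1 (dirs T) (gam j d f t)
  have h3 : evL ((fun _ => 1) :: dirs T) (gam j d f t) =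
      evL (dirs T) (cn (fun _ => 1) (gam j d f t)) := rfl
  rw [h3, h1, map_sub, ← Finset.sum_add_sum_compl T,
    Finset.sum_eq_zero (fun i hi => (hE n).2.2.2.1 T i _ hi), zero_add] at h2
  linarith

theorem cts_io (ρ : Ext n →ₐ[ℝ] Op n) {u : (Fin n → ℝ) → Fin n → ℝ} {s : Set (Fin n → ℝ)}
    (hu : ContinuousOn u s) : ContinuousOn (fun t => ρ (io (u t))) s :=
  (LinearMap.continuous_of_finiteDimensional
    (ρ.toLinearMap ∘ₗ ExteriorAlgebra.ι ℝ)).comp_continuousOn hu

theorem cts_th {L : ℝ} {f : Vf n} (hf : Reg L f) : ContinuousOn (th f) (Sx L n) :=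
  fun _ ht => (cda_th hf ht).continuousAt.continuousWithinAt

theorem cts_pow (ρ : Ext n →ₐ[ℝ] Op n) {L : ℝ} {f : Vf n} (hf : Reg L f) (j : ℕ) :
    ContinuousOn (fun t => ρ (dF (th f) t ^ j)) (Sx L n) := by
  simp only [map_pow, dF, map_sum, map_mul]
  refine ContinuousOn.pow (continuousOn_finsetSum _ fun i _ => continuousOn_const.mul ?_) j
  refine cts_io ρ (u := fun t => fderiv ℝ (th f) t (ee i)) fun t ht => ?_
  have h1 : ContinuousAt (fderiv ℝ (th f)) t :=
    ((cda_th hf ht).fderiv_right (m := 0) (by simp)).continuousAt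
  exact (h1.clm_apply continuousAt_const).continuousWithinAt

theorem intg (hJ : JWStmt) (hS : SIMPStmt) {L : ℝ} (hL : 0 ≤ L) (l : List (Fin n))
    {F : (Fin n → ℝ) → Ext n}
    (hF : ∀ ρ : Ext n →ₐ[ℝ] Op n, ContinuousOn (fun t => ρ (F t)) (Sx L n)) :
    IntegrableOn (fun t => evL (l.map ee) (F t)) (Sx L n) := by
  obtain ⟨ρ, -, h⟩ := hJ n Finset.univ
  obtain ⟨Λ, -, hΛ⟩ := h l fun _ _ => Finset.mem_univ _
  simp only [hΛ]
  exact (Λ.continuous.comp_continuousOn (hF ρ)).integrableOn_compact (hS L hL n).1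

end SPL

open SPL in
theorem spl : JWStmt → SIMPStmt → EVStmt → SPLStmt := by
  intro hJ hS hE L j n d f T hL hf
  have hvol : volume.real (Sx L n) = L ^ n / n.factorial := (hS L hL n).2.2.1
  have hm : MeasurableSet (Sx L n) := (hS L hL n).2.1
  refine ⟨fun hs hd => ?_, fun i hi => ?_, fun i => ?_, fun K hK => ?_⟩
  · have i1 : IntegrableOn (fun t => evL (dirs T) (io (th0 d) * dF (th f) t ^ j)) (Sx L n) :=
      intg hJ hS hL _ fun ρ => by
        simp only [map_mul]
        exact continuousOn_const.mul (cts_pow ρ hf j)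
    have i2 : ∀ i, IntegrableOn (fun t => evL (ee i :: dirs T) (gam j d f t)) (Sx L n) := fun i =>
      intg hJ hS hL (i :: T.sort (· ≤ ·)) fun ρ => by
        simp only [gam, map_mul]
        exact (continuousOn_const.mul (cts_io ρ (cts_th hf))).mul (cts_pow ρ hf j)
    unfold cX cD cGc
    rw [← integral_finsetSum _ fun i _ => i2 i,
      ← integral_add i1 (integrable_finsetSum _ fun i _ => i2 i)]
    exact setIntegral_congr_fun hm fun t ht => point hE hf ht hs hd j T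
  · unfold cGc cGd
    rw [← integral_const_mul]
    exact setIntegral_congr_fun hm fun t _ => (hE n).2.2.2.2.1 T i _ hi
  · unfold cD
    have h1 : ∀ t, evL (dirs {i}) (io (th0 d) * dF (th f) t ^ 0) = d i / ∑ l, d l := by
      intro t
      have h2 : dirs ({i} : Finset (Fin n)) = [ee i] := by simp [dirs]
      have h3 : ∀ α : Ext n, evL [ee i] α = ExteriorAlgebra.algebraMapInv (cn (ee i) α) :=
        fun _ => rfl
      rw [h2, h3, pow_zero, (hE n).1, cn_one]
      simp [Pi.single_apply, th0, div_eq_inv_mul]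
    simp only [h1]
    rw [setIntegral_const, hvol, smul_eq_mul, mul_comm]
  · unfold cX
    rw [← hvol, ← Real.norm_eq_abs]
    refine norm_setIntegral_le_of_norm_le_const (hS L hL n).1.measure_lt_top fun t ht => ?_
    obtain ⟨h1, h2⟩ := hK t ht
    rw [th_pow hf ht, map_smul, smul_eq_mul, Real.norm_eq_abs, abs_mul,
      abs_of_pos (by positivity), inv_pow, inv_mul_le_iff₀ (by positivity), mul_comm]
    exact h2

end Crest.Agent.R192B
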