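import Crest.Agent.R192B.D1

set_option autoImplicit false

open MeasureTheory Set
open scoped ContDiff

namespace Crest.Agent.R192B

namespace STK

variable {n : ℕ}

theorem io_swap (a b : Fin n → ℝ) : io a * io b = -(io b * io a) :=
  eq_neg_of_add_eq_zero_left (ExteriorAlgebra.ι_add_mul_swap a b)

theorem io_comm2 (a b c : Fin n → ℝ) : Commute (io a) (io b * io c) := by
  unfold Commute SemiconjBy
  rw [← mul_assoc, io_swap a b, neg_mul, mul_assoc, io_swap a c, mul_neg, neg_neg, mul_assoc]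

theorem io_comm_dF (a : Fin n → ℝ) (f : Vf n) (t : Fin n → ℝ) : Commute (io a) (dF f t) := by
  unfold dF
  exact Commute.sum_right _ _ _ fun i _ => io_comm2 _ _ _

/-- `α` is `C¹` at `t` through `ρ`, with exterior derivative `δ` -/
def HD (ρ : Ext n →ₐ[ℝ] Op n) (α : (Fin n → ℝ) → Ext n) (t : Fin n → ℝ) (δ : Ext n) : Prop :=
  ContDiffAt ℝ 1 (fun s => ρ (α s)) t ∧ ∃ β : Fin n → Ext n,
    (∀ i, fderiv ℝ (fun s => ρ (α s)) t (ee i) = ρ (β i)) ∧ ∑ i, io (ee i) * β i = δ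

theorem HD.const (ρ : Ext n →ₐ[ℝ] Op n) (a : Ext n) (t : Fin n → ℝ) : HD ρ (fun _ => a) t 0 :=
  ⟨contDiffAt_const, fun _ => 0, fun i => by simp, by simp⟩

theorem HD.mul {ρ : Ext n →ₐ[ℝ] Op n} {α₁ α₂ : (Fin n → ℝ) → Ext n} {t : Fin n → ℝ}
    {δ₁ δ₂ : Ext n} (h₁ : HD ρ α₁ t δ₁) (h₂ : HD ρ α₂ t δ₂) (ε : ℝ)
    (hc : ∀ i, io (ee i) * α₁ t = ε • (α₁ t * io (ee i))) :
    HD ρ (fun s => α₁ s * α₂ s) t (δ₁ * α₂ t + ε • (α₁ t * δ₂)) := by
  obtain ⟨c₁, β₁, e₁, s₁⟩ := h₁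
  obtain ⟨c₂, β₂, e₂, s₂⟩ := h₂
  have hfun : (fun s => ρ (α₁ s * α₂ s)) = fun s => ρ (α₁ s) * ρ (α₂ s) := by
    funext s; rw [map_mul]
  refine ⟨by rw [hfun]; exact c₁.mul c₂, fun i => β₁ i * α₂ t + α₁ t * β₂ i, fun i => ?_, ?_⟩
  · rw [hfun]
    have d₁ := (c₁.differentiableAt (by norm_num)).hasFDerivAt
    have d₂ := (c₂.differentiableAt (by norm_num)).hasFDerivAt
    have := (d₁.mul' d₂).fderiv
    rw [show (fun s => ρ (α₁ s) * ρ (α₂ s)) = (fun s => ρ (α₁ s)) * (fun s => ρ (α₂ s)) from rfl,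
      this]
    simp only [ContinuousLinearMap.add_apply, ContinuousLinearMap.smul_apply, e₁, e₂, smul_eq_mul,
      map_add, map_mul, op_smul_eq_mul]
    rw [add_comm]
  · rw [← s₁, ← s₂, Finset.sum_mul, Finset.mul_sum, Finset.smul_sum, ← Finset.sum_add_distrib]
    refine Finset.sum_congr rfl fun i _ => ?_
    rw [mul_add, ← mul_assoc, ← mul_assoc, hc i, smul_mul_assoc, mul_assoc (α₁ t)]

/-- `ρ ∘ io` as a continuous linear map -/
noncomputable def rio (ρ : Ext n →ₐ[ℝ] Op n) : (Fin n → ℝ) →L[ℝ] Op n :=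
  LinearMap.toContinuousLinearMap (ρ.toLinearMap ∘ₗ ExteriorAlgebra.ι ℝ)

theorem rio_apply (ρ : Ext n →ₐ[ℝ] Op n) (u : Fin n → ℝ) : rio ρ u = ρ (io u) := rfl

theorem HD.io (ρ : Ext n →ₐ[ℝ] Op n) {θ : Vf n} {t : Fin n → ℝ} (h : ContDiffAt ℝ 1 θ t) :
    HD ρ (fun s => io (θ s)) t (dF θ t) := by
  refine ⟨(rio ρ).contDiff.contDiffAt.comp t h, fun i => R192B.io (fderiv ℝ θ t (ee i)),
    fun i => ?_, rfl⟩
  have := ((rio ρ).hasFDerivAt.comp t (h.differentiableAt (by norm_num)).hasFDerivAt).fderiv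
  rw [show (fun s => ρ (R192B.io (θ s))) = rio ρ ∘ θ from rfl, this]
  rfl

theorem HD.dF (ρ : Ext n →ₐ[ℝ] Op n) {θ : Vf n} {t : Fin n → ℝ} (h : ContDiffAt ℝ 2 θ t) :
    HD ρ (fun s => dF θ s) t 0 := by
  have h1 : ContDiffAt ℝ 1 (fderiv ℝ θ) t := h.fderiv_right (by norm_num)
  have hk : ∀ k, ContDiffAt ℝ 1 (fun s => fderiv ℝ θ s (ee k)) t := fun k =>
    h1.clm_apply contDiffAt_const
  have hfun : (fun s => ρ (R192B.dF θ s)) =
      fun s => ∑ k, ρ (R192B.io (ee k)) * rio ρ (fderiv ℝ θ s (ee k)) := by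
    funext s
    simp only [R192B.dF, map_sum, map_mul, rio_apply]
  have hsym := h.isSymmSndFDerivAt (by simp)
  refine ⟨?_, fun i => ∑ k, R192B.io (ee k) * R192B.io (fderiv ℝ (fderiv ℝ θ) t (ee i) (ee k)),
    fun i => ?_, ?_⟩
  · rw [hfun]
    exact ContDiffAt.sum fun k _ =>
      contDiffAt_const.mul ((rio ρ).contDiff.contDiffAt.comp t (hk k))
  · rw [hfun]
    have d1 := (h1.differentiableAt (by norm_num)).hasFDerivAt
    have d2 : ∀ k, HasFDerivAt (fun s => ρ (R192B.io (ee k)) * rio ρ (fderiv ℝ θ s (ee k))) _ t :=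
      fun k => ((rio ρ).hasFDerivAt.comp t
        (d1.clm_apply (hasFDerivAt_const (ee k) t))).const_mul (ρ (R192B.io (ee k)))
    rw [(HasFDerivAt.fun_sum (u := Finset.univ) fun k _ => d2 k).fderiv]
    simp [rio_apply]
  · set H : Fin n → Fin n → Ext n := fun i k => R192B.io (fderiv ℝ (fderiv ℝ θ) t (ee i) (ee k))
      with hH
    have hs : ∀ i k, H i k = H k i := fun i k => by
      simp only [hH]
      rw [hsym.eq (ee i) (ee k)]
    have h2 : ∑ i, R192B.io (ee i) * ∑ k, R192B.io (ee k) * H i k =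
        -∑ i, R192B.io (ee i) * ∑ k, R192B.io (ee k) * H i k := by
      simp only [Finset.mul_sum]
      conv_lhs => rw [Finset.sum_comm]
      rw [← Finset.sum_neg_distrib]
      refine Finset.sum_congr rfl fun i _ => ?_
      rw [← Finset.sum_neg_distrib]
      refine Finset.sum_congr rfl fun k _ => ?_
      rw [← mul_assoc, ← mul_assoc, io_swap (ee k) (ee i), neg_mul, hs k i]
    have h3 : (2 : ℝ) • (∑ i, R192B.io (ee i) * ∑ k, R192B.io (ee k) * H i k) = 0 := by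
      rw [two_smul]
      exact add_eq_zero_iff_eq_neg.2 h2
    exact (smul_eq_zero.1 h3).resolve_left (by norm_num)

theorem HD.pow (ρ : Ext n →ₐ[ℝ] Op n) {θ : Vf n} {t : Fin n → ℝ} (h : ContDiffAt ℝ 2 θ t) (j : ℕ) :
    HD ρ (fun s => R192B.dF θ s ^ j) t 0 := by
  induction j with
  | zero => simpa using HD.const ρ 1 t
  | succ j ih =>
    have := ih.mul (HD.dF ρ h) 1 (fun i => by
      rw [one_smul]; exact ((io_comm_dF (ee i) θ t).pow_right j).eq)
    simpa [pow_succ] using this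

theorem HD.gam (ρ : Ext n →ₐ[ℝ] Op n) (j : ℕ) (d : Fin n → ℝ) {f : Vf n} {t : Fin n → ℝ}
    (h : ContDiffAt ℝ 2 (th f) t) :
    HD ρ (fun s => gam j d f s) t (-(R192B.io (th0 d) * R192B.dF (th f) t ^ (j + 1))) := by
  have h1 := (HD.const ρ (R192B.io (th0 d)) t).mul (HD.io ρ (h.of_le (by norm_num))) (-1)
    (fun i => by rw [io_swap, neg_one_smul])
  have h2 := h1.mul (HD.pow ρ h j) 1 (fun i => by
    rw [one_smul]; exact (io_comm2 _ _ _).eq)
  have h3 : (0 * R192B.io (th f t) + (-1 : ℝ) • (R192B.io (th0 d) * R192B.dF (th f) t)) *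
      R192B.dF (th f) t ^ j + (1 : ℝ) • (R192B.io (th0 d) * R192B.io (th f t) * 0) =
      -(R192B.io (th0 d) * R192B.dF (th f) t ^ (j + 1)) := by
    rw [zero_mul, zero_add, mul_zero, smul_zero, add_zero, neg_one_smul, neg_mul, mul_assoc,
      pow_succ']
  rw [h3] at h2
  exact h2

theorem th_contDiffAt {f : Vf n} {t : Fin n → ℝ} (hf : ContDiff ℝ ∞ f) (h : ∑ i, f t i ≠ 0) :
    ContDiffAt ℝ 2 (th f) t := by
  have h2 : ContDiffAt ℝ 2 f t := (hf.of_le (by norm_cast)).contDiffAt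
  have h3 : ContDiffAt ℝ 2 (fun s => ∑ i, f s i) t :=
    ContDiffAt.sum fun i _ => contDiffAt_pi.1 h2 i
  exact (h3.inv h).smul h2

end STK

open STK in
theorem stk (hJ : JWStmt) (hS : SIMPStmt) (hE : EVStmt) : STKStmt := by
  intro L j n d f T hL hf
  obtain ⟨ρ, -, hρ⟩ := hJ (n + 1) Finset.univ
  choose Λ _ hΛ using fun i : Fin (n + 1) =>
    hρ ((T.erase i).sort (· ≤ ·)) (fun _ _ => Finset.mem_univ _)
  obtain ⟨hcpt, hmeas, -⟩ := hS L hL (n + 1)
  obtain ⟨-, -, -, -, -, hftc⟩ := hS L hL n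
  obtain ⟨-, -, -, -, -, h6, -⟩ := hE (n + 1)
  let g : Fin (n + 1) → (Fin (n + 1) → ℝ) → ℝ := fun i t => evL (dirs (T.erase i)) (gam j d f t)
  have hg : ∀ i, g i = Λ i ∘ fun s => ρ (gam j d f s) := fun i => by
    funext s
    exact hΛ i _
  have hH : ∀ t ∈ Sx L (n + 1), HD ρ (fun s => gam j d f s) t
      (-(io (th0 d) * dF (th f) t ^ (j + 1))) := fun t ht =>
    HD.gam ρ j d (th_contDiffAt hf.1 (hf.2 t ht))
  have hc : ∀ i, ∀ t ∈ Sx L (n + 1), ContDiffAt ℝ 1 (g i) t := fun i t ht => by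
    rw [hg]
    exact (Λ i).contDiff.contDiffAt.comp t (hH t ht).1
  have hint : ∀ i, IntegrableOn (fun t => fderiv ℝ (g i) t (ee i)) (Sx L (n + 1)) := fun i => by
    refine ContinuousOn.integrableOn_compact hcpt fun t ht => ?_
    have h0 : ContDiffAt ℝ 0 (fderiv ℝ (g i)) t := (hc i t ht).fderiv_right (by norm_num)
    exact (h0.continuousAt.clm_apply continuousAt_const).continuousWithinAt
  have hpt : ∀ t ∈ Sx L (n + 1), evL (dirs T) (io (th0 d) * dF (th f) t ^ (j + 1)) =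
      -∑ i ∈ T, (-1) ^ rk T i * fderiv ℝ (g i) t (ee i) := by
    intro t ht
    obtain ⟨c, β, hβ, hs⟩ := hH t ht
    have h1 : ∀ i, fderiv ℝ (g i) t (ee i) = evL (dirs (T.erase i)) (β i) := fun i => by
      rw [hg, ((Λ i).hasFDerivAt.comp t (c.differentiableAt (by norm_num)).hasFDerivAt).fderiv]
      simp only [ContinuousLinearMap.comp_apply, hβ]
      exact (hΛ i _).symm
    simp only [h1]
    rw [← h6 T β, hs, map_neg, neg_neg]
  unfold cD
  rw [setIntegral_congr_fun hmeas hpt, integral_neg,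
    integral_finsetSum _ fun i _ => (hint i).const_mul _]
  congr 1
  refine Finset.sum_congr rfl fun i _ => ?_
  rw [integral_const_mul, hftc (g i) i (hc i)]
  rfl

end Crest.Agent.R192B
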