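import Crest.Agent.R192B.D0

/-! Row 192, task TIE: ties for truncated geometric labels. -/

set_option autoImplicit false

open MeasureTheory Set
open scoped ENNReal

namespace Crest.Agent.R192B

namespace TIE

theorem exists_geo (m : ℕ) (q : ℝ) (hq0 : 0 < q) (hq1 : q < 1) : ∃ ν, IsGeo m q ν := by
  let Q : ℕ → ℝ := fun j => if j ≤ m then q ^ j else 0
  let w : ℕ → ℝ := fun j => Q j - Q (j + 1)
  have hw : ∀ j, 0 ≤ w j := by
    intro j
    simp only [w, Q]
    split_ifs with h1 h2 h2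
    · rw [pow_succ]; nlinarith [pow_pos hq0 j]
    · simp; positivity
    · omega
    · simp
  let ν : Measure (Fin (m + 1)) := ∑ j : Fin (m + 1), ENNReal.ofReal (w j) • Measure.dirac j
  have key : ∀ i : ℕ, i ≤ m → ν {E | i ≤ (E : ℕ)} = ENNReal.ofReal (q ^ i) := by
    intro i hi
    simp only [ν, Measure.coe_finset_sum, Finset.sum_apply, Measure.smul_apply, smul_eq_mul]
    have h1 : ∀ j : Fin (m + 1), ENNReal.ofReal (w j) * Measure.dirac j {E : Fin (m + 1) | i ≤ (E : ℕ)}
        = ENNReal.ofReal (if i ≤ (j : ℕ) then w j else 0) := by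
      intro j
      rw [Measure.dirac_apply' _ (MeasurableSet.of_discrete)]
      by_cases h : i ≤ (j : ℕ)
      · simp [h]
      · simp [h]
    rw [Finset.sum_congr rfl fun j _ => h1 j, ← ENNReal.ofReal_sum_of_nonneg
      (fun j _ => by split_ifs; exacts [hw _, le_rfl])]
    congr 1
    rw [Fin.sum_univ_eq_sum_range (fun j => if i ≤ j then w j else 0) (m + 1), ← Finset.sum_filter]
    have h2 : (Finset.range (m + 1)).filter (fun j => i ≤ j) = Finset.Ico i (m + 1) := by
      ext j; simp [Finset.mem_Ico]; omega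
    rw [h2, Finset.sum_Ico_eq_sum_range]
    have h3 : ∀ k, w (i + k) = Q (i + k) - Q (i + (k + 1)) := fun k => rfl
    simp only [h3]
    rw [Finset.sum_range_sub' (fun k => Q (i + k))]
    have h4 : i + (m + 1 - i) = m + 1 := by omega
    simp [Q, h4, hi]
  refine ⟨ν, ⟨?_⟩, key⟩
  have := key 0 (Nat.zero_le _)
  simpa using this

/-- the weight attached to one label -/
noncomputable def hh (m : ℕ) (t : ℝ) (E : Fin (m + 1)) : ℝ≥0∞ :=
  if t < ((E : ℕ) : ℝ) then 0 else if t - 6 < ((E : ℕ) : ℝ) ∧ (E : ℕ) + 7 < m then 3 else 1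

theorem lint_hh {m : ℕ} {q : ℝ} {ν : Measure (Fin (m + 1))} (hν : IsGeo m q ν) (hq0 : 0 < q)
    (hq1 : q < 1) (hq7 : (q ^ 7)⁻¹ ≤ 4 / 3) (t : ℝ) : ∫⁻ E, hh m t E ∂ν ≤ 1 := by
  haveI := hν.1
  rcases lt_or_ge t 0 with ht | ht
  · have : ∀ E, hh m t E = 0 := fun E => if_pos (lt_of_lt_of_le ht (Nat.cast_nonneg _))
    simp [this]
  set i0 : ℕ := ⌊t⌋₊ + 1 with hi0
  have hlt : ∀ n : ℕ, t < (n : ℝ) ↔ i0 ≤ n := fun n => by
    rw [hi0, Nat.succ_le_iff, Nat.floor_lt ht]
  have hwin : ∀ n : ℕ, t - 6 < (n : ℝ) → i0 ≤ n + 6 := fun n hn => by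
    rw [← hlt]; push_cast; linarith
  by_cases hm : i0 ≤ m
  · set i1 : ℕ := i0 - 6 with hi1
    have hpt : ∀ E : Fin (m + 1), hh m t E + {E : Fin (m + 1) | i0 ≤ (E : ℕ)}.indicator (fun _ => 3) E ≤
        1 + {E : Fin (m + 1) | i1 ≤ (E : ℕ)}.indicator (fun _ => 2) E := by
      intro E
      unfold hh
      by_cases h0 : i0 ≤ (E : ℕ)
      · have h1 : i1 ≤ (E : ℕ) := by omega
        rw [if_pos ((hlt _).2 h0), indicator_of_mem (by exact h0), indicator_of_mem (by exact h1)]
        norm_num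
      · rw [if_neg (fun h => h0 ((hlt _).1 h)), indicator_of_notMem (by exact h0), add_zero]
        split_ifs with h2
        · have h1 : i1 ≤ (E : ℕ) := by have := hwin _ h2.1; omega
          rw [indicator_of_mem (by exact h1)]
          norm_num
        · exact le_self_add
    have h1 := lintegral_mono (μ := ν) hpt
    rw [lintegral_add_left (Measurable.of_discrete), lintegral_add_left (Measurable.of_discrete),
      lintegral_indicator_const (MeasurableSet.of_discrete),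
      lintegral_indicator_const (MeasurableSet.of_discrete), hν.2 i0 hm, hν.2 i1 (by omega)] at h1
    simp only [lintegral_const, measure_univ, mul_one] at h1
    have h2 : (2 : ℝ≥0∞) * ENNReal.ofReal (q ^ i1) ≤ 3 * ENNReal.ofReal (q ^ i0) := by
      have e2 : (2 : ℝ≥0∞) = ENNReal.ofReal 2 := by simp
      have e3 : (3 : ℝ≥0∞) = ENNReal.ofReal 3 := by simp
      rw [e2, e3, ← ENNReal.ofReal_mul (by norm_num), ← ENNReal.ofReal_mul (by norm_num)]
      refine ENNReal.ofReal_le_ofReal ?_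
      have h3 : q ^ i1 * q ^ 7 ≤ q ^ i0 := by
        rw [← pow_add]
        exact pow_le_pow_of_le_one hq0.le hq1.le (by omega)
      have h4 : 0 < q ^ 7 := pow_pos hq0 7
      have h5 : 1 ≤ 4 / 3 * q ^ 7 := by
        rw [inv_le_iff_one_le_mul₀ h4] at hq7
        exact hq7
      have h6 : 0 < q ^ i1 := pow_pos hq0 _
      nlinarith
    have h3 := h1.trans (add_le_add_right h2 1)
    exact (ENNReal.add_le_add_iff_right (ENNReal.mul_ne_top (by norm_num) ENNReal.ofReal_ne_top)).1 h3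
  · have : ∀ E, hh m t E ≤ 1 := by
      intro E
      unfold hh
      split_ifs with h1 h2
      · exact zero_le_one
      · have := hwin _ h2.1
        omega
      · exact le_rfl
    calc ∫⁻ E, hh m t E ∂ν ≤ ∫⁻ _, 1 ∂ν := lintegral_mono this
      _ = 1 := by simp

theorem grid_bound {Z : Type} (B : Finset Z) {m : ℕ} {q : ℝ} {ν : Measure (Fin (m + 1))}
    (hν : IsGeo m q ν) (hq0 : 0 < q) (hq1 : q < 1) (hq7 : (q ^ 7)⁻¹ ≤ 4 / 3) (t : Z → ℝ) (J : ℕ) :
    Measure.infinitePi (fun _ : Z => ν) {E | (3 : ℝ≥0∞) ^ J ≤ ∏ x ∈ B, hh m (t x) (E x)} ≤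
      1 / 3 ^ J := by
  haveI := hν.1
  have hm : ∀ x, Measurable (fun E : Z → Fin (m + 1) => hh m (t x) (E x)) := fun x =>
    (Measurable.of_discrete (f := hh m (t x))).comp (measurable_pi_apply x)
  refine le_trans (meas_ge_le_lintegral_div (Finset.measurable_prod B fun x _ => hm x).aemeasurable
    (by positivity) (ENNReal.pow_ne_top (by norm_num))) ?_
  refine ENNReal.div_le_div_right ?_ _
  rw [ProbabilityTheory.lintegral_prod_eq_prod_lintegral_of_indepFun B
    (fun x (E : Z → Fin (m + 1)) => hh m (t x) (E x))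
    (ProbabilityTheory.iIndepFun_infinitePi (X := fun x => hh m (t x))
      fun x => Measurable.of_discrete) hm]
  refine Finset.prod_le_one' fun x _ => ?_
  rw [(measurePreserving_eval_infinitePi (fun _ : Z => ν) x).lintegral_comp
    (Measurable.of_discrete (f := hh m (t x)))]
  exact lint_hh hν hq0 hq1 hq7 _

end TIE

theorem tie : TIEStmt := by
  refine ⟨TIE.exists_geo, ?_⟩
  intro Z B m q a R ν f J hν hq0 hq1 hq7 ha hR hf
  haveI := hν.1
  rcases Nat.eq_zero_or_pos J with rfl | hJ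
  · refine le_trans prob_le_one ?_
    rw [ENNReal.one_le_ofReal]
    have : 0 ≤ 2 * R / a := by positivity
    have : (0 : ℝ) ≤ m := Nat.cast_nonneg _
    simp only [Nat.cast_zero, neg_zero, Real.exp_zero, mul_one]
    linarith
  set K : ℕ := ⌊2 * R / a + m⌋₊ with hK
  let t : ℕ → Z → ℝ := fun k x => (f x - (-R - a * m + k * a)) / a
  have hsub : {E : Z → Fin (m + 1) | (∀ x ∈ B, (E x : ℕ) + 7 < m) ∧ ∃ A : Finset Z, A ⊆ B ∧
      J ≤ A.card ∧ ∀ x' ∈ A, ∀ x'' ∈ B,
        f x' - a * ((E x' : ℕ) : ℝ) ≤ f x'' - a * ((E x'' : ℕ) : ℝ) + 5 * a} ⊆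
      ⋃ k ∈ Finset.range (K + 1), {E | (3 : ℝ≥0∞) ^ J ≤ ∏ x ∈ B, TIE.hh m (t k x) (E x)} := by
    rintro E ⟨h7, A, hAB, hJA, hA⟩
    have hAne : A.Nonempty := Finset.card_pos.1 (by omega)
    obtain ⟨x0, hx0, hmin⟩ := B.exists_min_image (fun x => f x - a * ((E x : ℕ) : ℝ))
      (hAne.mono hAB)
    set F0 := f x0 - a * ((E x0 : ℕ) : ℝ) with hF0
    have hE0 : ((E x0 : ℕ) : ℝ) ≤ m := by exact_mod_cast Nat.lt_succ_iff.1 (E x0).2
    have hE1 : (0 : ℝ) ≤ ((E x0 : ℕ) : ℝ) := Nat.cast_nonneg _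
    have hf0 := abs_le.1 (hf x0 hx0)
    have hs0 : 0 ≤ (F0 + R + a * m) / a := div_nonneg (by nlinarith) ha.le
    set k : ℕ := ⌊(F0 + R + a * m) / a⌋₊ with hk
    have hk1 : (k : ℝ) * a ≤ F0 + R + a * m := by
      rw [← le_div_iff₀ ha]; exact Nat.floor_le hs0
    have hk2 : F0 + R + a * m < (k + 1) * a := by
      rw [← div_lt_iff₀ ha]; exact Nat.lt_floor_add_one _
    have hkK : k ≤ K := by
      refine Nat.floor_le_floor ?_
      rw [div_le_iff₀ ha, add_mul, div_mul_cancel₀ _ ha.ne']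
      nlinarith
    simp only [Set.mem_iUnion, Set.mem_ofPred_eq]
    refine ⟨k, Finset.mem_range.2 (by omega), ?_⟩
    have hnot : ∀ x ∈ B, ¬ t k x < ((E x : ℕ) : ℝ) := by
      intro x hx
      have := hmin x hx
      simp only [t, not_lt]
      rw [le_div_iff₀ ha]
      linarith
    have hone : ∀ x ∈ B, 1 ≤ TIE.hh m (t k x) (E x) := by
      intro x hx
      unfold TIE.hh
      rw [if_neg (hnot x hx)]
      split_ifs <;> norm_num
    have hthree : ∀ x ∈ A, TIE.hh m (t k x) (E x) = 3 := by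
      intro x hx
      unfold TIE.hh
      rw [if_neg (hnot x (hAB hx)), if_pos]
      refine ⟨?_, h7 x (hAB hx)⟩
      have := hA x hx x0 hx0
      simp only [t]
      rw [sub_lt_iff_lt_add, div_lt_iff₀ ha]
      linarith
    calc (3 : ℝ≥0∞) ^ J ≤ 3 ^ A.card := pow_le_pow_right₀ (by norm_num) hJA
      _ = ∏ x ∈ A, TIE.hh m (t k x) (E x) := by
          rw [Finset.prod_congr rfl hthree, Finset.prod_const]
      _ ≤ _ := Finset.prod_le_prod_of_subset_of_one_le' hAB fun x hx _ => hone x hx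
  refine le_trans (measure_mono hsub) (le_trans (measure_biUnion_finset_le _ _) ?_)
  refine le_trans (Finset.sum_le_sum fun k _ => TIE.grid_bound B hν hq0 hq1 hq7 (t k) J) ?_
  rw [Finset.sum_const, Finset.card_range, nsmul_eq_mul]
  have hK1 : ((K + 1 : ℕ) : ℝ) ≤ 2 * R / a + m + 2 := by
    have : (K : ℝ) ≤ 2 * R / a + m := Nat.floor_le (by positivity)
    push_cast; linarith
  rw [ENNReal.ofReal_mul (by positivity)]
  refine mul_le_mul' ?_ ?_
  · rw [← ENNReal.ofReal_natCast]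
    exact ENNReal.ofReal_le_ofReal hK1
  · have e3 : (1 : ℝ≥0∞) / 3 ^ J = ENNReal.ofReal (1 / 3 ^ J) := by
      rw [ENNReal.ofReal_div_of_pos (by positivity), ENNReal.ofReal_pow (by norm_num)]
      simp
    rw [e3]
    refine ENNReal.ofReal_le_ofReal ?_
    rw [Real.exp_neg, inv_eq_one_div]
    refine one_div_le_one_div_of_le (Real.exp_pos _) ?_
    rw [← Real.exp_one_pow]
    exact pow_le_pow_left₀ (Real.exp_pos _).le
      (le_of_lt (lt_trans Real.exp_one_lt_d9 (by norm_num))) _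

end Crest.Agent.R192B
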