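import Crest.Agent.R192B.D1

set_option autoImplicit false

open MeasureTheory Set

namespace Crest.Agent.R192B

namespace WRAP

variable {G : Type} [Group G]

theorem pp_last {n : ℕ} (x : Fin n → G) : Fin.partialProd x (Fin.last n) = (List.ofFn x).prod := by
  simp [Fin.partialProd, List.take_of_length_le]

theorem same_steps {n : ℕ} (y z : Fin (n + 1) → G)
    (h : ∀ i : Fin n, (y i.castSucc)⁻¹ * y i.succ = (z i.castSucc)⁻¹ * z i.succ) (i : Fin (n + 1)) :
    y i = y 0 * (z 0)⁻¹ * z i := by
  induction i using Fin.induction with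
  | zero => simp
  | succ i ih =>
    have := h i
    rw [inv_mul_eq_iff_eq_mul] at this
    rw [this, ih]; group

/-- the path of a step sequence -/
def path (b : G → G) {n : ℕ} (x : Fin n → G) : Fin (n + 1) → G :=
  fun i => b (List.ofFn x).prod * Fin.partialProd x i

theorem path_step (b : G → G) {n : ℕ} (x : Fin n → G) (i : Fin n) :
    (path b x i.castSucc)⁻¹ * path b x i.succ = x i := by
  simp only [path, Fin.partialProd_succ]; group

theorem path_closed {b : G → G} {g : G} {C : Set G} (hb : ∀ p ∈ C, b p * p = g * b p) {n : ℕ}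
    {x : Fin n → G} (hx : (List.ofFn x).prod ∈ C) : Closed g (path b x) := by
  simp only [Closed, path, pp_last, Fin.partialProd_zero, mul_one]
  exact hb _ hx

theorem path_mX (b : G → G) {n : ℕ} (i : Fin n) (x : Fin (n + 1) → G) :
    path b (mX i x) = mer i (path b x) := by
  have h1 : Fin.partialProd (mX i x) = Fin.partialProd x ∘ i.castSucc.succ.succAbove :=
    Fin.partialProd_contractNth _ _
  have h2 : (List.ofFn (mX i x)).prod = (List.ofFn x).prod := by
    rw [← pp_last, ← pp_last, h1, Function.comp, Fin.succAbove_ne_last_last]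
    rw [Fin.succ_castSucc]
    exact Fin.castSucc_ne_last _
  funext m
  simp only [path, mer, h2, h1, Function.comp]
  rfl

theorem rotY_step {g : G} {n : ℕ} {y : Fin (n + 2) → G} (hy : Closed g y)
    {x : Fin (n + 1) → G} (hx : ∀ i : Fin (n + 1), (y i.castSucc)⁻¹ * y i.succ = x i)
    (i : Fin (n + 1)) : (rotY g y i.castSucc)⁻¹ * rotY g y i.succ = rotV x i := by
  induction i using Fin.cases with
  | zero =>
    have := hx (Fin.last n)
    rw [Fin.succ_last, hy] at this
    simp only [rotY, rotV, Fin.castSucc_zero, Fin.cons_zero, Fin.cons_succ, Fin.init]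
    rw [← this]; group
  | succ i =>
    rw [← Fin.succ_castSucc]
    simp only [rotY, rotV, Fin.cons_succ, Fin.init]
    rw [← hx]; rfl

theorem rotY_closed (g : G) {n : ℕ} (y : Fin (n + 2) → G) : Closed g (rotY g y) := by
  unfold Closed
  rw [← Fin.succ_last]
  simp only [rotY, Fin.cons_zero, Fin.cons_succ, Fin.init]
  group

theorem path_rot {b : G → G} {g : G} (hb : ∀ p ∈ (ConjClasses.mk g).carrier, b p * p = g * b p)
    {n : ℕ} {x : Fin (n + 1) → G} (hx : (List.ofFn x).prod ∈ (ConjClasses.mk g).carrier) :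
    ∃ h, Commute h g ∧ path b (rotV x) = fun i => h * rotY g (path b x) i := by
  set z := rotY g (path b x) with hz
  have hs := rotY_step (path_closed hb hx) (path_step b x)
  have hc : Closed g z := rotY_closed g _
  have h1 : (List.ofFn (rotV x)).prod ∈ (ConjClasses.mk g).carrier := by
    have := same_steps (Fin.partialProd (rotV x)) z
      (fun i => (Fin.partialProd_right_inv _ i).trans (hs i).symm) (Fin.last _)
    rw [pp_last, hc, Fin.partialProd_zero, one_mul] at this
    rw [this, ConjClasses.mem_carrier_iff_mk_eq, ConjClasses.mk_eq_mk_iff_isConj, isConj_iff]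
    exact ⟨z 0, by group⟩
  have h2 := same_steps (path b (rotV x)) z (fun i => (path_step b _ i).trans (hs i).symm)
  refine ⟨path b (rotV x) 0 * (z 0)⁻¹, ?_, funext h2⟩
  have h3 := h2 (Fin.last _)
  rw [path_closed hb h1, hc] at h3
  change _ * g = g * _
  rw [← mul_assoc g, h3]; group

end WRAP

open WRAP in
theorem wrap : STKStmt → SPLStmt → COLStmt → ROTStmt → WRAPStmt := by
  intro hstk hspl hcol hrot G _ S g N K η
  rintro ⟨Ω, _, μ, A, hμ, hconn, hinv, hfin, hae⟩
  have hex : ∀ p : G, ∃ c : G, p ∈ (ConjClasses.mk g).carrier → c * p = g * c := by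
    intro p
    by_cases hp : p ∈ (ConjClasses.mk g).carrier
    · have hp' := hp
      rw [ConjClasses.mem_carrier_iff_mk_eq, ConjClasses.mk_eq_mk_iff_isConj, isConj_iff] at hp'
      obtain ⟨c, hc⟩ := hp'
      exact ⟨c, fun _ => by rw [← hc]; group⟩
    · exact ⟨1, fun h => absurd h hp⟩
  choose b hb using hex
  have hN : (0 : ℝ) ≤ N := Nat.cast_nonneg N
  have hint : ∀ n y (Φ : Vf n → ℝ), Integrable (fun w => Φ (A w n y)) μ := by
    intro n y Φ
    obtain ⟨m, c, B, hc, hB⟩ := hfin n y
    simp only [hB]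
    exact (Integrable.of_finite (μ := μ.map c) (f := fun k => Φ (B k))).comp_measurable hc
  have hgood : ∀ n, n ≤ 3 * N → ∀ x : Fin n → G, Ok S (ConjClasses.mk g).carrier x → _ :=
    fun n hn x hx => hae n hn (path b x) (path_closed hb hx.2) fun i => by
      rw [path_step]; exact hx.1 i
  have hreg : ∀ n, n ≤ 3 * N → ∀ x : Fin n → G, Ok S (ConjClasses.mk g).carrier x →
      ∀ᵐ w ∂μ, Reg N (A w n (path b x)) := fun n hn x hx =>
    (hgood n hn x hx).mono fun w hw => ⟨(hconn w).smooth _ _, fun t ht => (hw t ht).1.ne'⟩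
  refine ⟨{
    X := fun j n x T => ∫ w, cX N j (A w n (path b x)) T ∂μ
    D := fun j n x d T => ∫ w, cD N j d (A w n (path b x)) T ∂μ
    Gd := fun j n x d T => ∫ w, cGd N j d (A w n (path b x)) T ∂μ
    Gc := fun j n x d i T => ∫ w, cGc N j d (A w n (path b x)) i T ∂μ
    Up := fun j n x d i T => ∫ w, cUp N j d (A w (n + 1) (path b x)) i T ∂μ
    Lo := fun j n x d i T => ∫ w, cLo N j d (A w (n + 1) (path b x)) i T ∂μ
    spl := ?_, stk := ?_, colA := ?_, colB := ?_, colC := ?_, rot := ?_, sw := ?_, d0 := ?_,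
    bd := ?_ }⟩
  · intro j n x d T hn hx hd
    rw [← integral_finsetSum _ fun i _ => hint n _ fun f => cGc N j d f i T,
      ← integral_add (hint n _ fun f => cD N j d f T)
        (hint n _ fun f => ∑ i ∈ Tᶜ, cGc N j d f i T)]
    refine integral_congr_ae ((hreg n hn x hx).mono fun w hw => ?_)
    exact (hspl N j n d _ T hN hw).1 ((hconn w).shift n _ (path_closed hb hx.2)) hd
  · intro j n x d T hn hx
    have e : ∀ i, (-1 : ℝ) ^ rk T i * ((∫ w, cUp N j d (A w (n + 1) (path b x)) i T ∂μ) -
        ∫ w, cLo N j d (A w (n + 1) (path b x)) i T ∂μ) =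
        ∫ w, (-1 : ℝ) ^ rk T i * (cUp N j d (A w (n + 1) (path b x)) i T -
          cLo N j d (A w (n + 1) (path b x)) i T) ∂μ := by
      intro i
      rw [integral_const_mul, integral_sub (hint _ _ fun f => cUp N j d f i T)
        (hint _ _ fun f => cLo N j d f i T)]
    simp only [e]
    rw [← integral_finsetSum _ fun i _ => hint _ _ fun f =>
      (-1 : ℝ) ^ rk T i * (cUp N j d f i T - cLo N j d f i T), ← integral_neg]
    refine integral_congr_ae ((hreg _ hn x hx).mono fun w hw => ?_)
    exact hstk N j n d _ T hN hw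
  · intro j n x d T i hn hx h1 h2
    rw [← integral_const_mul, ← integral_const_mul, ← integral_sub
      (hint _ _ fun f => (-1 : ℝ) ^ rk T i.castSucc * cUp N j d f i.castSucc T)
      (hint _ _ fun f => (-1 : ℝ) ^ rk T i.succ * cLo N j d f i.succ T), path_mX]
    refine integral_congr_ae ((hreg _ hn x hx).mono fun w hw => ?_)
    exact (hcol N j n d _ _ T i hN hw ((hconn w).coll n _ i)).1 h1 h2
  · intro j n x d T i hn hx h1 h2
    rw [path_mX]
    refine integral_congr_ae ((hreg _ hn x hx).mono fun w hw => ?_)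
    exact (hcol N j n d _ _ T i hN hw ((hconn w).coll n _ i)).2.1 h1 h2
  · intro j n x d T i hn hx h1 h2
    rw [path_mX]
    refine integral_congr_ae ((hreg _ hn x hx).mono fun w hw => ?_)
    exact (hcol N j n d _ _ T i hN hw ((hconn w).coll n _ i)).2.2 h1 h2
  · intro j n x d T hn hx hT
    obtain ⟨h, hh, hp⟩ := path_rot hb hx.2
    obtain ⟨σ, hσ, hA⟩ := hinv h hh
    rw [hp]
    have hi := hint (n + 1) (fun i => h * rotY g (path b x) i)
      fun f => cLo N j (rotV d) f 0 (T.image (finRotate (n + 1)))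
    have e := integral_map hσ.measurable.aemeasurable
      (f := fun w => cLo N j (rotV d) (A w (n + 1) fun i => h * rotY g (path b x) i) 0
        (T.image (finRotate (n + 1)))) (by rw [hσ.map_eq]; exact hi.aestronglyMeasurable)
    rw [hσ.map_eq] at e
    rw [e]
    simp only [hA]
    refine integral_congr_ae ((hreg _ hn x hx).mono fun w hw => ?_)
    exact hrot N j n d _ _ T hN hw ((hconn w).rot n _ (path_closed hb hx.2)) hT
  · intro j n x d T i hn hx hi
    rw [← integral_const_mul]
    refine integral_congr_ae ((hreg _ hn x hx).mono fun w hw => ?_)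
    exact (hspl N j n d _ T hN hw).2.1 i hi
  · intro n x d i hn hx
    rw [integral_congr_ae ((hreg _ hn x hx).mono fun w hw =>
      (hspl N 0 n d _ ∅ hN hw).2.2.1 i)]
    simp
  · intro j n x T hn hx hj hT
    have := norm_integral_le_of_norm_le_const (μ := μ)
      (f := fun w => cX N j (A w n (path b x)) T) (C := K * η ^ j * ((N : ℝ) ^ n / n.factorial))
      (by
        filter_upwards [hreg n hn x hx, hgood n hn x hx] with w hw hw'
        exact (hspl N j n 0 _ T hN hw).2.2.2 _ fun t ht => ⟨(hw' t ht).1, (hw' t ht).2 j hj T hT⟩)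
    simpa using this

end Crest.Agent.R192B
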