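import Crest.Agent.R192B.D0

/-! Row 192, task ZETA: choice of a twisting angle. -/

set_option autoImplicit false

open Set

namespace Crest.Agent.R192B
namespace ZETA

theorem gen_finite {G : Type} [Group G] (γ : G) :
    {γ' : G | Subgroup.zpowers γ' = Subgroup.zpowers γ}.Finite := by
  by_cases h : IsOfFinOrder γ
  · refine h.finite_zpowers.subset fun γ' h' => ?_
    have h1 : γ' ∈ Subgroup.zpowers γ := by
      rw [← (h' : Subgroup.zpowers γ' = _)]; exact Subgroup.mem_zpowers _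
    exact h1
  · refine (Set.toFinite ({γ, γ⁻¹} : Set G)).subset fun γ' h' => ?_
    have h1 : γ' ∈ Subgroup.zpowers γ := by
      rw [← (h' : Subgroup.zpowers γ' = _)]; exact Subgroup.mem_zpowers _
    have h2 : γ ∈ Subgroup.zpowers γ' := by
      rw [(h' : Subgroup.zpowers γ' = _)]; exact Subgroup.mem_zpowers _
    obtain ⟨a, ha⟩ := Subgroup.mem_zpowers_iff.1 h1
    obtain ⟨b, hb⟩ := Subgroup.mem_zpowers_iff.1 h2
    have inj := injective_zpow_iff_not_isOfFinOrder.2 h
    have h3 : γ ^ (a * b) = γ ^ (1 : ℤ) := by rw [zpow_mul, ha, hb, zpow_one]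
    have hab : a * b = 1 := inj h3
    rcases Int.eq_one_or_neg_one_of_mul_eq_one hab with rfl | rfl
    · left; rw [← ha, zpow_one]
    · right; rw [← ha]; simp

/-- the elements whose short powers generate everything -/
theorem T_finite {G : Type} [Group G] (len : G → ℕ) (r : ℕ) (B : Finset G)
    (hB : ∀ x, len x ≤ r → x ∈ B) :
    {γ : G | (1 : ℤ) ∈ AddSubgroup.closure {k : ℤ | len (γ ^ k) ≤ r}}.Finite := by
  classical
  have key : ∀ γ : G, (1 : ℤ) ∈ AddSubgroup.closure {k : ℤ | len (γ ^ k) ≤ r} →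
      Subgroup.zpowers γ =
        Subgroup.closure ((B.filter fun x => x ∈ Subgroup.zpowers γ : Finset G) : Set G) := by
    intro γ h
    apply le_antisymm
    · rw [Subgroup.zpowers_le]
      have : ∀ k ∈ AddSubgroup.closure {k : ℤ | len (γ ^ k) ≤ r}, γ ^ k ∈
          Subgroup.closure ((B.filter fun x => x ∈ Subgroup.zpowers γ : Finset G) : Set G) := by
        intro k hk
        induction hk using AddSubgroup.closure_induction with
        | mem k hk =>
          refine Subgroup.subset_closure ?_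
          simp only [Finset.coe_filter, Set.mem_ofPred_eq]
          exact ⟨hB _ hk, Subgroup.zpow_mem_zpowers _ _⟩
        | zero => simp
        | add k l _ _ h1 h2 => rw [zpow_add]; exact Subgroup.mul_mem _ h1 h2
        | neg k _ h1 => rw [zpow_neg]; exact Subgroup.inv_mem _ h1
      simpa using this 1 h
    · rw [Subgroup.closure_le]
      intro x hx
      simp only [Finset.coe_filter, Set.mem_ofPred_eq] at hx
      exact hx.2
  refine Set.Finite.of_finite_fibers (fun γ => B.filter fun x => x ∈ Subgroup.zpowers γ) ?_ ?_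
  · refine (B.powerset.finite_toSet).subset ?_
    rintro _ ⟨γ, -, rfl⟩
    exact Finset.mem_coe.2 (Finset.mem_powerset.2 (Finset.filter_subset _ _))
  · rintro _ ⟨γ, hγ, rfl⟩
    refine (gen_finite γ).subset ?_
    rintro γ' ⟨h1, h2⟩
    have h3 : (B.filter fun x => x ∈ Subgroup.zpowers γ') =
      B.filter fun x => x ∈ Subgroup.zpowers γ := h2
    show Subgroup.zpowers γ' = Subgroup.zpowers γ
    rw [key γ' h1, h3, ← key γ hγ]

theorem norm_le (x : ℝ) : ‖Complex.exp (x * Complex.I) - 1‖ ≤ |x| := by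
  have := Real.norm_exp_I_mul_ofReal_sub_one_le (x := x)
  rwa [mul_comm, Real.norm_eq_abs] at this

/-- an angle killing all multiples of `d ≠ ±1` -/
theorem angle (d : ℤ) (hd : d.natAbs ≠ 1) : ∃ ϑ : ℝ, |ϑ| ≤ Real.pi ∧ 2 / 3 ≤ |Real.sin (ϑ / 2)| ∧
    ∀ k : ℤ, d ∣ k → Complex.exp (ϑ * k * Complex.I) = 1 := by
  have hpi := Real.pi_pos
  by_cases h0 : d = 0
  · refine ⟨Real.pi, by rw [abs_of_pos hpi], by rw [Real.sin_pi_div_two]; norm_num, ?_⟩
    intro k hk
    rw [h0, zero_dvd_iff] at hk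
    simp [hk]
  · set n := d.natAbs with hn
    have hn0 : n ≠ 0 := by rw [hn]; exact Int.natAbs_ne_zero.2 h0
    have hn2 : 2 ≤ n := by omega
    have hnr : (0 : ℝ) < n := by exact_mod_cast (by omega : 0 < n)
    have h1 : (2 : ℝ) * ((n / 2 : ℕ) : ℝ) ≤ n := by exact_mod_cast (by omega : 2 * (n / 2) ≤ n)
    have h2 : (n : ℝ) ≤ 3 * ((n / 2 : ℕ) : ℝ) := by exact_mod_cast (by omega : n ≤ 3 * (n / 2))
    set t : ℝ := ((n / 2 : ℕ) : ℝ) / n with ht
    have ht1 : t ≤ 1 / 2 := by rw [ht, div_le_iff₀ hnr]; linarith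
    have ht2 : 1 / 3 ≤ t := by rw [ht, le_div_iff₀ hnr]; linarith
    refine ⟨2 * Real.pi * t, ?_, ?_, ?_⟩
    · rw [abs_of_nonneg (by positivity)]; nlinarith
    · have h3 := Real.mul_le_sin (x := 2 * Real.pi * t / 2) (by positivity) (by nlinarith)
      have h4 : 2 / Real.pi * (2 * Real.pi * t / 2) = 2 * t := by field_simp
      exact le_trans (by linarith) (le_abs_self _)
    · intro k hk
      obtain ⟨j, rfl⟩ := Int.natAbs_dvd.2 hk
      have h5 : (n : ℂ) ≠ 0 := by exact_mod_cast hn0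
      have := Complex.exp_int_mul_two_pi_mul_I (((n / 2 : ℕ) : ℤ) * j)
      rw [← this]
      congr 1
      rw [ht, ← hn]
      simp only [Complex.ofReal_mul, Complex.ofReal_div, Complex.ofReal_natCast,
        Complex.ofReal_ofNat, Int.cast_mul, Int.cast_natCast]
      field_simp

end ZETA
open ZETA

theorem zeta : ZETAStmt := by
  classical
  intro G _ S M D len hl r γ₀ hr hγ₀
  have hpi := Real.pi_pos
  obtain ⟨B, -, hB⟩ := hl.ball r hr
  have hT := T_finite len r B hB
  have hU : (⋃ γ ∈ {γ : G | (1 : ℤ) ∈ AddSubgroup.closure {k : ℤ | len (γ ^ k) ≤ r}},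
      {k : ℤ | ¬ IsOfFinOrder γ ∧ len (γ ^ k) ≤ r}).Finite := by
    refine hT.biUnion fun γ _ => ?_
    by_cases h : IsOfFinOrder γ
    · simp [h]
    · have inj := injective_zpow_iff_not_isOfFinOrder.2 h
      exact (B.finite_toSet.preimage inj.injOn).subset fun k hk => hB _ hk.2
  obtain ⟨K, hK⟩ := (hU.image fun k : ℤ => |(k : ℝ)|).bddAbove
  set ϑ₀ : ℝ := min 1 (γ₀ / (|K| + 1)) with hϑ₀
  have hϑp : 0 < ϑ₀ := lt_min one_pos (by positivity)
  have hϑ1 : ϑ₀ ≤ 1 := min_le_left _ _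
  have hϑ2 : ϑ₀ * (|K| + 1) ≤ γ₀ := by
    rw [← le_div_iff₀ (by positivity)]; exact min_le_right _ _
  refine ⟨hT.toFinset.filter IsOfFinOrder, min (2 / 3) (ϑ₀ / Real.pi),
    fun s hs => (Finset.mem_filter.1 hs).2, lt_min (by norm_num) (by positivity), fun γ hγ => ?_⟩
  by_cases h1 : (1 : ℤ) ∈ AddSubgroup.closure {k : ℤ | len (γ ^ k) ≤ r}
  · have hfin : ¬ IsOfFinOrder γ := fun h =>
      hγ (Finset.mem_filter.2 ⟨hT.mem_toFinset.2 h1, h⟩)
    have inj := injective_zpow_iff_not_isOfFinOrder.2 hfin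
    refine ⟨ϑ₀, ?_, ?_, ?_, ?_⟩
    · rw [abs_of_pos hϑp]; linarith [Real.pi_gt_three]
    · have h3 := Real.mul_le_sin (x := ϑ₀ / 2) (by positivity) (by linarith [Real.pi_gt_three])
      have h4 : 2 / Real.pi * (ϑ₀ / 2) = ϑ₀ / Real.pi := by field_simp
      exact le_trans (min_le_right _ _) (le_trans (by linarith) (le_abs_self _))
    · intro k hk
      have : k = 0 := inj (by simpa using hk)
      simp [this]
    · intro k hk
      have hk1 : |(k : ℝ)| ≤ K := hK ⟨k, mem_biUnion (t := fun γ : G =>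
        {k : ℤ | ¬ IsOfFinOrder γ ∧ len (γ ^ k) ≤ r}) h1 ⟨hfin, hk⟩, rfl⟩
      have h5 := norm_le (ϑ₀ * k)
      rw [abs_mul, abs_of_pos hϑp] at h5
      push_cast at h5
      have h6 : ϑ₀ * |(k : ℝ)| ≤ ϑ₀ * (|K| + 1) :=
        mul_le_mul_of_nonneg_left (by linarith [le_abs_self K]) hϑp.le
      linarith
  · obtain ⟨d, hd⟩ := Int.subgroup_cyclic (AddSubgroup.closure {k : ℤ | len (γ ^ k) ≤ r})
    have hdvd : ∀ k : ℤ, len (γ ^ k) ≤ r → d ∣ k := by
      intro k hk
      have h2 : k ∈ AddSubgroup.closure {k : ℤ | len (γ ^ k) ≤ r} := AddSubgroup.subset_closure hk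
      rw [hd, AddSubgroup.mem_closure_singleton] at h2
      obtain ⟨n, rfl⟩ := h2
      simp
    have hd1 : d.natAbs ≠ 1 := by
      intro h
      apply h1
      rw [hd, AddSubgroup.mem_closure_singleton]
      refine ⟨d, ?_⟩
      rcases Int.natAbs_eq_iff.1 h with h | h <;> simp [h]
    obtain ⟨ϑ, a1, a2, a3⟩ := angle d hd1
    refine ⟨ϑ, a1, le_trans (min_le_left _ _) a2, fun k hk => a3 k (hdvd k ?_), fun k hk => ?_⟩
    · rw [hk, hl.one]; exact Nat.zero_le _
    · rw [a3 k (hdvd k hk)]; simpa using hγ₀.le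

end Crest.Agent.R192B
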