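import Crest.Agent.R192B.ALG
import Crest.Agent.R192B.ALGA
import Crest.Agent.R192B.ALGB
import Crest.Agent.R192B.ALGC
import Crest.Agent.R192B.COL
import Crest.Agent.R192B.DB
import Crest.Agent.R192B.DBD
import Crest.Agent.R192B.ENV
import Crest.Agent.R192B.ENV1
import Crest.Agent.R192B.ENV2
import Crest.Agent.R192B.EV
import Crest.Agent.R192B.FIN
import Crest.Agent.R192B.GEN
import Crest.Agent.R192B.JW
import Crest.Agent.R192B.KER
import Crest.Agent.R192B.LENCS
import Crest.Agent.R192B.MAU
import Crest.Agent.R192B.MET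
import Crest.Agent.R192B.PAR
import Crest.Agent.R192B.PR
import Crest.Agent.R192B.PSI
import Crest.Agent.R192B.ROT
import Crest.Agent.R192B.SIMP
import Crest.Agent.R192B.SPL
import Crest.Agent.R192B.STK
import Crest.Agent.R192B.TIE
import Crest.Agent.R192B.WRAP
import Crest.Agent.R192B.ZETA
import Crest.Agent.R192B.CONN

namespace Crest.Agent.R192B

theorem fin_of_conn (h : CONNStmt) : FINStmt :=
  fin_ (wrap (stk jw simp_ ev) (spl jw simp_ ev) (col jw simp_ ev) (rot simp_ ev))
    (alg pr_ (alga pr_) (algb pr_) (algc pr_)) h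

end Crest.Agent.R192B
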