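import Crest.Agent.R192B.D2

set_option autoImplicit false

open MeasureTheory Set
open scoped ContDiff

namespace Crest.Agent.R192B

namespace QA1

open Real

theorem swap (L : ℝ) (F : ℝ → ℝ → ℝ) (hF : Continuous (Function.uncurry F)) :
    ∫ s in (0 : ℝ)..L, ∫ r in (0 : ℝ)..L, F s r = ∫ r in (0 : ℝ)..L, ∫ s in (0 : ℝ)..L, F s r := by
  apply intervalIntegral_intervalIntegral_swap
  refine (hF.continuousOn.integrableOn_compact
    ((isCompact_uIcc (a := (0 : ℝ)) (b := L)).prod (isCompact_uIcc (a := (0 : ℝ)) (b := L)))).mono_set ?_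
  exact prod_mono uIoc_subset_uIcc uIoc_subset_uIcc

theorem shift (L r : ℝ) (g : ℝ → ℝ) (hg : Function.Periodic g L) :
    ∫ s in (0 : ℝ)..L, g (s - r) = ∫ s in (0 : ℝ)..L, g s := by
  rw [intervalIntegral.integral_comp_sub_right]
  have := hg.intervalIntegral_add_eq (0 - r) 0
  rw [zero_add] at this
  rw [← this]
  congr 1
  ring

theorem hcos (L : ℝ) (r : ℝ) :
    HasDerivAt (fun r => cos (π * r / L)) (-(π / L * sin (π * r / L))) r := by
  have h1 : HasDerivAt (fun r : ℝ => π * r / L) (π / L) r := by
    simpa using ((hasDerivAt_id r).const_mul π).div_const L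
  convert h1.cos using 1
  ring

theorem int_sin (L : ℝ) (hL : 0 < L) : ∫ r in (0 : ℝ)..L, π / L * sin (π * r / L) = 2 := by
  have h := intervalIntegral.integral_eq_sub_of_hasDerivAt (a := 0) (b := L)
    (f := fun r => cos (π * r / L)) (fun r _ => hcos L r)
    (Continuous.intervalIntegrable (by fun_prop) _ _)
  rw [intervalIntegral.integral_neg] at h
  simp only [mul_zero, zero_div, cos_zero, mul_div_cancel_right₀ _ hL.ne', cos_pi] at h
  linarith

theorem core (L : ℝ) (hL : 0 < L) (v v' : ℝ → ℝ) (hv : ∀ s, HasDerivAt v (v' s) s)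
    (hc' : Continuous v') (per : Function.Periodic v L) :
    ∫ s in (0 : ℝ)..L, (∫ r in (0 : ℝ)..L, cos (π * r / L) * v (s - r)) * (-v' s) =
      ∫ s in (0 : ℝ)..L, π / (2 * L) *
        ∫ r in (0 : ℝ)..L, sin (π * r / L) * (v s - v (s - r)) ^ 2 := by
  have hc : Continuous v := continuous_iff_continuousAt.2 fun s => (hv s).continuousAt
  have per' : Function.Periodic v' L := fun s => by
    have h1 : HasDerivAt (fun s => v (s + L)) (v' (s + L)) s := (hv (s + L)).comp_add_const s L
    have h2 : (fun s => v (s + L)) = v := funext per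
    rw [h2] at h1
    exact h1.unique (hv s)
  have e1 : ∫ s in (0 : ℝ)..L, (∫ r in (0 : ℝ)..L, cos (π * r / L) * v (s - r)) * (-v' s) =
      ∫ s in (0 : ℝ)..L, ∫ r in (0 : ℝ)..L, -v s * (cos (π * r / L) * v' (s + r)) := by
    simp_rw [← intervalIntegral.integral_mul_const]
    rw [swap L _ (by fun_prop), swap L (fun s r => -v s * (cos (π * r / L) * v' (s + r))) (by fun_prop)]
    refine intervalIntegral.integral_congr fun r _ => ?_
    have := shift L r (fun s => -v s * (cos (π * r / L) * v' (s + r))) (fun s => by
      simp only [per s, add_right_comm s L r, per' (s + r)])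
    rw [← this]
    refine intervalIntegral.integral_congr fun s _ => ?_
    simp only [sub_add_cancel]
    ring
  have e2 : ∫ s in (0 : ℝ)..L, π / (2 * L) *
        ∫ r in (0 : ℝ)..L, sin (π * r / L) * (v s - v (s - r)) ^ 2 =
      ∫ s in (0 : ℝ)..L, ∫ r in (0 : ℝ)..L,
        π / L * sin (π * r / L) * (v s ^ 2 - v s * v (s + r)) := by
    simp_rw [← intervalIntegral.integral_const_mul]
    rw [swap L _ (by fun_prop),
      swap L (fun s r => π / L * sin (π * r / L) * (v s ^ 2 - v s * v (s + r))) (by fun_prop)]
    refine intervalIntegral.integral_congr fun r _ => ?_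
    have a1 := shift L r (fun s => v s ^ 2) (fun s => by simp only [per s])
    have a2 := shift L r (fun s => v s * v (s + r)) (fun s => by
      simp only [per s, add_right_comm s L r, per (s + r)])
    simp only [sub_add_cancel] at a2
    have b1 : ∫ s in (0 : ℝ)..L, (v s - v (s - r)) ^ 2 =
        (∫ s in (0 : ℝ)..L, v s ^ 2) + (∫ s in (0 : ℝ)..L, v (s - r) ^ 2) -
          2 * ∫ s in (0 : ℝ)..L, v (s - r) * v s := by
      rw [← intervalIntegral.integral_add, ← intervalIntegral.integral_const_mul,
        ← intervalIntegral.integral_sub]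
      · exact intervalIntegral.integral_congr fun s _ => by ring
      all_goals exact Continuous.intervalIntegrable (by fun_prop) _ _
    have b2 : ∫ s in (0 : ℝ)..L, (v s ^ 2 - v s * v (s + r)) =
        (∫ s in (0 : ℝ)..L, v s ^ 2) - ∫ s in (0 : ℝ)..L, v s * v (s + r) := by
      rw [← intervalIntegral.integral_sub]
      all_goals exact Continuous.intervalIntegrable (by fun_prop) _ _
    simp only [intervalIntegral.integral_const_mul]
    rw [b1, b2, a1, a2]
    field_simp
    ring
  rw [e1, e2]
  refine intervalIntegral.integral_congr fun s _ => ?_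
  have ibp := intervalIntegral.integral_mul_deriv_eq_deriv_mul (a := 0) (b := L)
    (u := fun r => cos (π * r / L)) (v := fun r => v (s + r)) (v' := fun r => v' (s + r))
    (fun r _ => hcos L r) (fun r _ => (hv (s + r)).comp_const_add s r)
    (Continuous.intervalIntegrable (by fun_prop) _ _)
    (Continuous.intervalIntegrable (by fun_prop) _ _)
  simp only [mul_zero, zero_div, cos_zero, mul_div_cancel_right₀ _ hL.ne', cos_pi, add_zero,
    per s] at ibp
  have c1 : ∫ r in (0 : ℝ)..L, π / L * sin (π * r / L) * (v s ^ 2 - v s * v (s + r)) =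
      (∫ r in (0 : ℝ)..L, π / L * sin (π * r / L)) * v s ^ 2 +
        v s * ∫ r in (0 : ℝ)..L, -(π / L * sin (π * r / L)) * v (s + r) := by
    rw [← intervalIntegral.integral_mul_const, ← intervalIntegral.integral_const_mul,
      ← intervalIntegral.integral_add]
    · exact intervalIntegral.integral_congr fun r _ => by ring
    all_goals exact Continuous.intervalIntegrable (by fun_prop) _ _
  simp only [intervalIntegral.integral_const_mul (-v s)]
  rw [c1, ibp, int_sin L hL]
  ring

end QA1

open QA1 in
theorem qa1 (hP : PARStmt) (hF : FRMDStmt) : QA1Stmt := by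
  intro n L w hL hw
  have hsm : Sm (lag L w) := by
    refine (hP ((Fin n → ℝ) × ℝ)
      (fun p r => Real.cos (Real.pi * r / L) * w (p.2 - r) p.1) 0 L ?_).1
    refine ContDiff.mul (by fun_prop) ?_
    exact hw.comp (f := fun q : ((Fin n → ℝ) × ℝ) × ℝ => (q.1.1, q.1.2 - q.2)) (by fun_prop)
  refine ⟨hsm, fun s t h => ?_, fun t => ?_, fun hc hp t => ?_⟩
  · have := intervalIntegral.norm_integral_le_of_norm_le_const (a := 0) (b := L) (C := 1)
      (f := fun r => Real.cos (Real.pi * r / L) * w (s - r) t) (fun r _ => by
        rw [Real.norm_eq_abs, abs_mul]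
        exact mul_le_one₀ (Real.abs_cos_le_one _) (abs_nonneg _) (h _))
    rw [sub_zero, one_mul, abs_of_pos hL] at this
    exact this
  · have h1 := ((hF n).1 w hw t).1
    exact intervalIntegral.continuous_parametric_intervalIntegral_of_continuous'
      (f := fun s r => Real.sin (Real.pi * r / L) * (w s t - w (s - r) t) ^ 2)
      (by
        have h2 : Continuous fun p : ℝ × ℝ => w p.1 t := h1.comp continuous_fst
        have h3 : Continuous fun p : ℝ × ℝ => w (p.1 - p.2) t :=
          h1.comp (continuous_fst.sub continuous_snd)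
        exact Continuous.mul (by fun_prop) ((h2.sub h3).pow 2)) 0 L
  · obtain ⟨-, h2, -, -, h5⟩ := (hF n).1 w hw t
    have h6 := ((hF n).1 _ hsm t).1
    have hl : ∀ l, Continuous fun s => gr w s t l := fun l => (continuous_apply l).comp h2
    have := core L hL (fun s => w s t) (fun s => -∑ l, gr w s t l) (h5 hc)
      (continuous_finsetSum _ fun l _ => hl l).neg (fun s => hp s t)
    rw [← this]
    unfold frm
    rw [← intervalIntegral.integral_finsetSum (f := fun l s => lag L w s t * gr w s t l)
      (fun l _ => (h6.mul (hl l)).intervalIntegrable _ _)]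
    refine intervalIntegral.integral_congr fun s _ => ?_
    simp only [neg_neg, ← Finset.mul_sum]
    rfl

end Crest.Agent.R192B
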