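import Crest.Agent.R192B.D2

/-! Row 192, task QA2. -/

set_option autoImplicit false
set_option linter.unusedSectionVars false

open MeasureTheory Set
open scoped ContDiff

namespace Crest.Agent.R192B
namespace QA2

section Gen
variable {𝔸 : Type} [NormedRing 𝔸] [NormedAlgebra ℝ 𝔸] [CompleteSpace 𝔸]

theorem int_mul_left (y : 𝔸) (f : ℝ → 𝔸) (hf : Continuous f) (a b : ℝ) :
    y * ∫ u in a..b, f u = ∫ u in a..b, y * f u :=
  ((ContinuousLinearMap.mul ℝ 𝔸 y).intervalIntegral_comp_comm (hf.intervalIntegrable a b)).symm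

theorem int_mul_right (y : 𝔸) (f : ℝ → 𝔸) (hf : Continuous f) (a b : ℝ) :
    (∫ u in a..b, f u) * y = ∫ u in a..b, f u * y :=
  (((ContinuousLinearMap.mul ℝ 𝔸).flip y).intervalIntegral_comp_comm
    (hf.intervalIntegrable a b)).symm

theorem int_sq (f : ℝ → 𝔸) (hf : Continuous f) (h : ∀ u u', f u * f u' = -(f u' * f u)) (a b : ℝ) :
    (∫ u in a..b, f u) * (∫ u in a..b, f u) = 0 := by
  have h1 : ∀ y : 𝔸, (∀ u, f u * y = -(y * f u)) →
      (∫ u in a..b, f u) * y = -(y * ∫ u in a..b, f u) := by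
    intro y hy
    rw [int_mul_left y f hf, int_mul_right y f hf, ← intervalIntegral.integral_neg]
    exact intervalIntegral.integral_congr fun u _ => hy u
  have h2 := h1 (∫ u in a..b, f u) (fun u => by
    rw [h1 (f u) (fun u' => h u' u), neg_neg])
  have h3 : (2 : ℝ) • ((∫ u in a..b, f u) * (∫ u in a..b, f u)) = 0 := by
    rw [two_smul]
    exact add_eq_zero_iff_eq_neg.2 h2
  rcases smul_eq_zero.1 h3 with h4 | h4
  · norm_num at h4
  · exact h4

noncomputable def cs (L : ℝ) (b : Bool) (r : ℝ) : ℝ :=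
  if b then Real.cos (Real.pi * r / L) else Real.sin (Real.pi * r / L)

theorem cs_cont (L : ℝ) (b : Bool) : Continuous (cs L b) := by
  cases b
  · show Continuous fun r => Real.sin (Real.pi * r / L)
    fun_prop
  · show Continuous fun r => Real.cos (Real.pi * r / L)
    fun_prop

theorem cs_abs (L : ℝ) (b : Bool) (r : ℝ) : |cs L b r| ≤ 1 := by
  cases b
  · exact Real.abs_sin_le_one _
  · exact Real.abs_cos_le_one _

theorem half (f : ℝ → 𝔸) (hf : Continuous f) (h : ∀ u u', f u * f u' = -(f u' * f u)) (L : ℝ) :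
    ∫ s in (0 : ℝ)..L, ((∫ r in (0 : ℝ)..s, f r) - ∫ r in s..L, f r) * f s =
      (2 : ℝ) • ∫ s in (0 : ℝ)..L, (∫ r in (0 : ℝ)..s, f r) * f s := by
  have hF : Continuous fun s => ∫ r in (0 : ℝ)..s, f r :=
    intervalIntegral.continuous_primitive (fun a b => hf.intervalIntegrable a b) 0
  have h1 : ∀ s, ((∫ r in (0 : ℝ)..s, f r) - ∫ r in s..L, f r) * f s =
      (2 : ℝ) • ((∫ r in (0 : ℝ)..s, f r) * f s) - (∫ r in (0 : ℝ)..L, f r) * f s := by
    intro s
    rw [← intervalIntegral.integral_interval_sub_left (hf.intervalIntegrable 0 L)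
      (hf.intervalIntegrable 0 s), two_smul]
    noncomm_ring
  simp_rw [h1]
  have c1 : Continuous fun s => (2 : ℝ) • ((∫ r in (0 : ℝ)..s, f r) * f s) :=
    (hF.mul hf).const_smul (2 : ℝ)
  have c2 : Continuous fun s => (∫ r in (0 : ℝ)..L, f r) * f s := continuous_const.mul hf
  rw [intervalIntegral.integral_sub (c1.intervalIntegrable 0 L) (c2.intervalIntegrable 0 L),
    ← int_mul_left _ f hf, int_sq f hf h, sub_zero, intervalIntegral.integral_smul]

theorem inner (φ : ℝ → 𝔸) (hφ : Continuous φ) (L : ℝ) (hL : 0 < L) (hp : ∀ s, φ (s + L) = φ s)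
    (s : ℝ) : ∫ r in (0 : ℝ)..L, Real.cos (Real.pi * r / L) • φ (s - r) =
      ∑ b : Bool, cs L b s • ((∫ r in (0 : ℝ)..s, cs L b r • φ r) - ∫ r in s..L, cs L b r • φ r) := by
  set g : ℝ → 𝔸 := fun u => Real.cos (Real.pi * (s - u) / L) • φ u with hg
  have hgc : Continuous g := by
    rw [hg]; fun_prop
  have h1 : ∫ r in (0 : ℝ)..L, Real.cos (Real.pi * r / L) • φ (s - r) =
      ∫ r in (0 : ℝ)..L, g (s - r) := by
    refine intervalIntegral.integral_congr fun r _ => ?_
    simp only [hg, sub_sub_cancel]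
  have h2 : ∀ v, g (v - L) = -g v := by
    intro v
    have e1 : φ (v - L) = φ v := by rw [← hp (v - L), sub_add_cancel]
    have e2 : Real.pi * (s - (v - L)) / L = Real.pi * (s - v) / L + Real.pi := by
      field_simp; ring
    simp only [hg]
    rw [e1, e2, Real.cos_add_pi, neg_smul]
  have h3 : ∫ u in (s - L)..0, g u = -∫ u in s..L, g u := by
    have := intervalIntegral.integral_comp_sub_right (a := s) (b := L) g L
    rw [sub_self] at this
    rw [← this, ← intervalIntegral.integral_neg]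
    exact intervalIntegral.integral_congr fun v _ => h2 v
  have h4 : ∀ a a' : ℝ, ∫ u in a..a', g u = ∑ b : Bool, cs L b s • ∫ r in a..a', cs L b r • φ r := by
    intro a a'
    simp_rw [← intervalIntegral.integral_smul]
    have c1 : ∀ b, Continuous fun r => cs L b s • cs L b r • φ r := fun b =>
      ((cs_cont L b).smul hφ).const_smul (cs L b s)
    rw [← intervalIntegral.integral_finsetSum (fun b _ => (c1 b).intervalIntegrable a a')]
    refine intervalIntegral.integral_congr fun u _ => ?_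
    have e : Real.pi * (s - u) / L = Real.pi * s / L - Real.pi * u / L := by ring
    simp only [hg]
    rw [e, Real.cos_sub, Fintype.sum_bool, smul_smul, smul_smul, add_smul]
    rfl
  rw [h1, intervalIntegral.integral_comp_sub_left g s, sub_zero,
    ← intervalIntegral.integral_add_adjacent_intervals (hgc.intervalIntegrable (s - L) 0)
      (hgc.intervalIntegrable 0 s), h3, h4, h4]
  simp_rw [smul_sub]
  rw [Finset.sum_sub_distrib]
  abel

theorem anti_smul (a b : ℝ) (x y : 𝔸) (h : x * y = -(y * x)) :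
    (a • x) * (b • y) = -((b • y) * (a • x)) := by
  rw [smul_mul_smul_comm, smul_mul_smul_comm, h, smul_neg, mul_comm a b]

theorem main (φ : ℝ → 𝔸) (hφ : Continuous φ) (L : ℝ) (hL : 0 < L) (hp : ∀ s, φ (s + L) = φ s)
    (h : ∀ u u', φ u * φ u' = -(φ u' * φ u)) :
    ∫ s in (0 : ℝ)..L, (∫ r in (0 : ℝ)..L, Real.cos (Real.pi * r / L) • φ (s - r)) * φ s =
      (2 : ℝ) • ∑ b : Bool, ∫ u in (0 : ℝ)..L,
        (∫ r in (0 : ℝ)..u, cs L b r • φ r) * (cs L b u • φ u) := by
  have hc : ∀ b, Continuous fun r => cs L b r • φ r := fun b => (cs_cont L b).smul hφ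
  have hF : ∀ b, Continuous fun s => ∫ r in (0 : ℝ)..s, cs L b r • φ r := fun b =>
    intervalIntegral.continuous_primitive (fun a a' => (hc b).intervalIntegrable a a') 0
  have hF' : ∀ b, Continuous fun s => ∫ r in s..L, cs L b r • φ r := fun b => by
    have := (intervalIntegral.continuous_primitive (μ := volume)
      (fun a a' => (hc b).intervalIntegrable a a') L).neg
    exact this.congr fun s => (intervalIntegral.integral_symm L s).symm
  rw [Finset.smul_sum]
  simp_rw [← fun b => half (fun r => cs L b r • φ r) (hc b)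
    (fun u u' => anti_smul _ _ _ _ (h u u')) L]
  have c1 : ∀ b, Continuous fun s => ((∫ r in (0 : ℝ)..s, cs L b r • φ r) -
      ∫ r in s..L, cs L b r • φ r) * cs L b s • φ s := fun b => ((hF b).sub (hF' b)).mul (hc b)
  rw [← intervalIntegral.integral_finsetSum (fun b _ => (c1 b).intervalIntegrable 0 L)]
  refine intervalIntegral.integral_congr fun s _ => ?_
  rw [inner φ hφ L hL hp s, Finset.sum_mul]
  refine Finset.sum_congr rfl fun b _ => ?_
  rw [smul_mul_assoc, mul_smul_comm]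

theorem fin [NormOneClass 𝔸] (hDB : DBStmt) (hG : GENStmt) (ι : Type) (B : Finset ι)
    (φ : ι → ℝ → 𝔸) (N : ι → ℝ → ℝ) (L x Φ : ℝ) (hL : 0 < L) (hx : 0 ≤ x)
    (hφ : ∀ z, Continuous (φ z)) (hN : ∀ z, Continuous (N z))
    (hp : ∀ z s, φ z (s + L) = φ z s)
    (h : ∀ z z' u u', φ z u * φ z' u' = -(φ z' u' * φ z u)) (hb : ∀ z s, ‖φ z s‖ ≤ N z s)
    (hΦ : (∫ s in (0 : ℝ)..L, ∑ z ∈ B, N z s) ≤ Φ) :
    GB (∑ z ∈ B, ∫ s in (0 : ℝ)..L,
      (∫ r in (0 : ℝ)..L, Real.cos (Real.pi * r / L) • φ z (s - r)) * φ z s) x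
      (Real.exp (√(2 * x) * (2 * Φ))) := by
  set ψ : ι × Bool → ℝ → 𝔸 := fun ℓ r => cs L ℓ.2 r • φ ℓ.1 r with hψ
  have hψc : ∀ ℓ, Continuous (ψ ℓ) := fun ℓ => (cs_cont L ℓ.2).smul (hφ ℓ.1)
  have hD := hDB 𝔸 (ι × Bool) (B ×ˢ Finset.univ) ψ L hL.le hψc
    (fun ℓ ℓ' u u' => anti_smul _ _ _ _ (h _ _ u u'))
  have e : (∑ z ∈ B, ∫ s in (0 : ℝ)..L,
      (∫ r in (0 : ℝ)..L, Real.cos (Real.pi * r / L) • φ z (s - r)) * φ z s) =
      (2 : ℝ) • ∑ ℓ ∈ B ×ˢ Finset.univ, ∫ u in (0 : ℝ)..L, (∫ r in (0 : ℝ)..u, ψ ℓ r) * ψ ℓ u := by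
    rw [Finset.sum_product, Finset.smul_sum]
    exact Finset.sum_congr rfl fun z _ => main (φ z) (hφ z) L hL (hp z) (h z z)
  have hX0 : 0 ≤ ∫ u in (0 : ℝ)..L, ∑ ℓ ∈ B ×ˢ Finset.univ, ‖ψ ℓ u‖ :=
    intervalIntegral.integral_nonneg hL.le fun u _ => Finset.sum_nonneg fun _ _ => norm_nonneg _
  have hX : (∫ u in (0 : ℝ)..L, ∑ ℓ ∈ B ×ˢ Finset.univ, ‖ψ ℓ u‖) ≤ 2 * Φ := by
    have hs : Continuous fun s => ∑ z ∈ B, N z s := continuous_finsetSum _ fun z _ => hN z
    have h1 : (∫ u in (0 : ℝ)..L, ∑ ℓ ∈ B ×ˢ Finset.univ, ‖ψ ℓ u‖) ≤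
        ∫ u in (0 : ℝ)..L, 2 * ∑ z ∈ B, N z u := by
      refine intervalIntegral.integral_mono_on hL.le
        ((continuous_finsetSum _ fun ℓ _ => (hψc ℓ).norm).intervalIntegrable 0 L)
        ((continuous_const.mul hs).intervalIntegrable 0 L) fun u _ => ?_
      rw [Finset.sum_product, Finset.mul_sum]
      refine Finset.sum_le_sum fun z _ => ?_
      have h2 : ∀ b, ‖ψ (z, b) u‖ ≤ N z u := by
        intro b
        show ‖cs L b u • φ z u‖ ≤ N z u
        rw [norm_smul, Real.norm_eq_abs]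
        exact (mul_le_of_le_one_left (norm_nonneg _) (cs_abs L b u)).trans (hb z u)
      rw [Fintype.sum_bool]
      have := h2 true
      have := h2 false
      linarith
    rw [intervalIntegral.integral_const_mul] at h1
    linarith
  rw [e]
  refine (hG 𝔸 x hx).2.2.2.2.2.1 _ 2 (2 * Φ) (by norm_num) (hX0.trans hX) fun m => (hD m).trans ?_
  gcongr

end Gen

end QA2
open QA2

theorem qa2 : PARStmt → FRMDStmt → DFAStmt → QA1Stmt → DBStmt → GENStmt → QA2Stmt := by
  intro hP hF hD hQ hDB hG n L ι B w T ρ t x Φ hL hw hper hρ hx hΦ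
  have hlag : ∀ z, Sm (lag L (w z)) := fun z => (hQ n L (w z) hL (hw z)).1
  let Λ : (Fin n → ℝ) →L[ℝ] Op n :=
    LinearMap.toContinuousLinearMap (ρ.toLinearMap ∘ₗ ExteriorAlgebra.ι ℝ)
  have hΛ : ∀ u, Λ u = ρ (io u) := fun u => rfl
  have hgc : ∀ z, Continuous fun s => gr (w z) s t := fun z => ((hF n).1 (w z) (hw z) t).2.1
  have hgr : ∀ z s, ρ (io (gr (lag L (w z)) s t)) =
      ∫ r in (0 : ℝ)..L, Real.cos (Real.pi * r / L) • ρ (io (gr (w z) (s - r) t)) := by
    intro z s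
    have hc : Continuous fun r => Real.cos (Real.pi * r / L) • gr (w z) (s - r) t :=
      (by fun_prop : Continuous fun r => Real.cos (Real.pi * r / L)).smul
        ((hgc z).comp (continuous_const.sub continuous_id))
    have h1 : gr (lag L (w z)) s t =
        ∫ r in (0 : ℝ)..L, Real.cos (Real.pi * r / L) • gr (w z) (s - r) t := by
      funext l
      have h2 := (ContinuousLinearMap.proj (R := ℝ) (φ := fun _ : Fin n => ℝ) l).intervalIntegral_comp_comm
        (hc.intervalIntegrable (μ := volume) 0 L)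
      have h3 := (hP (Fin n → ℝ) (fun p r => Real.cos (Real.pi * r / L) * w z (s - r) p) 0 L (by
        have h4 : ContDiff ℝ ∞ (fun p : (Fin n → ℝ) × ℝ => w z (s - p.2) p.1) :=
          (hw z).comp (f := fun p : (Fin n → ℝ) × ℝ => (p.1, s - p.2))
            (contDiff_fst.prodMk (contDiff_const.sub contDiff_snd))
        exact (Real.contDiff_cos.comp ((contDiff_const.mul contDiff_snd).div_const L)).mul h4)).2 t (ee l)
      refine h3.trans (Eq.trans ?_ h2)
      refine intervalIntegral.integral_congr fun r _ => ?_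
      have h5 : DifferentiableAt ℝ (w z (s - r)) t :=
        ((((hF n).1 (w z) (hw z) t).2.2.1 (s - r)).differentiable (by simp)) t
      rw [fderiv_const_mul h5]
      rfl
    rw [h1, ← hΛ, ← Λ.intervalIntegral_comp_comm (hc.intervalIntegrable 0 L)]
    refine intervalIntegral.integral_congr fun r _ => ?_
    rw [map_smul, hΛ]
  have e : ρ (dF (fun t => ∑ z ∈ B, frm L (lag L (w z)) (w z) t) t) = ∑ z ∈ B, ∫ s in (0 : ℝ)..L,
      (∫ r in (0 : ℝ)..L, Real.cos (Real.pi * r / L) • ρ (io (gr (w z) (s - r) t))) *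
        ρ (io (gr (w z) s t)) := by
    rw [(hD n).1 ι B (fun z => frm L (lag L (w z)) (w z)) t
      (fun z _ => ((hF n).2 L _ _ (hlag z) (hw z)).1), map_sum]
    refine Finset.sum_congr rfl fun z _ => ?_
    rw [((hF n).2 L _ _ (hlag z) (hw z)).2 ρ t]
    refine intervalIntegral.integral_congr fun s _ => ?_
    rw [hgr]
  rw [e]
  refine fin hDB hG ι B (fun z s => ρ (io (gr (w z) s t))) (fun z s => nT T (gr (w z) s t)) L x Φ hL hx
    (fun z => ((hD n).2.2.2.2.2.2.1 ρ).comp (hgc z))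
    (fun z => ((hD n).2.2.2.2.2.2.2 T).1.comp (hgc z)) (fun z s => ?_) (fun z z' u u' => ?_)
    (fun z s => hρ.1 _) hΦ
  · have : w z (s + L) = w z s := funext fun t => hper z s t
    unfold gr
    rw [this]
  · rw [← map_mul ρ, ← map_mul ρ, ((hD n).2.2.2.2.1 _ _).1, map_neg]

end Crest.Agent.R192B
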