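import Crest.Agent.R192B.D2

/-! Row 192, task SHARP. -/

set_option autoImplicit false

open MeasureTheory Set
open scoped ContDiff

namespace Crest.Agent.R192B
namespace SHARP

theorem tele {n : ℕ} (p : Fin (n + 1) → ℝ) (m : ℕ) (hm : m < n + 1) :
    ∑ l : Fin n, (if l.val < m then p l.succ - p l.castSucc else 0) = p ⟨m, hm⟩ - p 0 := by
  induction m with
  | zero => simp
  | succ m ih =>
    have hm' : m < n := by omega
    have e : ∀ l : Fin n, (if l.val < m + 1 then p l.succ - p l.castSucc else 0) =
        (if l.val < m then p l.succ - p l.castSucc else 0) +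
          (if l = ⟨m, hm'⟩ then p l.succ - p l.castSucc else 0) := by
      intro l
      by_cases h1 : l.val < m
      · rw [if_pos h1, if_pos (by omega), if_neg (fun h => by rw [h] at h1; simp at h1), add_zero]
      · by_cases h2 : l = ⟨m, hm'⟩
        · rw [if_neg h1, if_pos h2, if_pos (by rw [h2]; simp), zero_add]
        · have : l.val ≠ m := fun h => h2 (Fin.ext h)
          rw [if_neg h1, if_neg h2, if_neg (by omega), add_zero]
    simp only [e]
    rw [Finset.sum_add_distrib, ih (by omega), Finset.sum_ite_eq' Finset.univ]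
    simp only [Finset.mem_univ, if_true]
    have a : (⟨m, hm'⟩ : Fin n).succ = ⟨m + 1, hm⟩ := rfl
    have b : (⟨m, hm'⟩ : Fin n).castSucc = ⟨m, by omega⟩ := rfl
    rw [a, b]; ring

theorem jordan (v : ℝ) (hv : |v| ≤ 1 / 2) : |v| ≤ |Real.sin (Real.pi * v)| / 2 := by
  have hp := Real.pi_pos
  have h1 : |Real.pi * v| ≤ Real.pi / 2 := by
    rw [abs_mul, abs_of_pos hp]; nlinarith
  have h2 := Real.mul_abs_le_abs_sin h1
  rw [abs_mul, abs_of_pos hp] at h2
  have h3 : 2 / Real.pi * (Real.pi * |v|) = 2 * |v| := by field_simp
  linarith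

end SHARP

open SHARP in
theorem sharp (hK : KINStmt) : SHARPStmt := by
  intro L k K hk hL hker n t
  have hmono : Monotone K := (hK L k K hk hL hker).1
  have hc : Continuous K := hker.smooth.continuous
  have h0 : K 0 = 0 := by have := hker.odd 0; rw [neg_zero] at this; linarith
  have hL1 : K L = 1 := by have := hker.per 0; rw [zero_add, h0] at this; linarith
  have hLn : K (-L) = -1 := by rw [hker.odd, hL1]
  set c : ℝ → ℝ := fun u => |Real.cos (Real.pi * K u)| / 2 with hcdef
  have hcc : Continuous c := by simp only [hcdef]; fun_prop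
  have hper : Function.Periodic c L := by
    intro u
    simp only [hcdef]
    rw [hker.per, mul_add, mul_one, Real.cos_add_pi, abs_neg]
  have hint : ∀ v : ℝ, ∫ s in (0 : ℝ)..L, c (s - v) ≤ k := by
    intro v
    rw [intervalIntegral.integral_comp_sub_right c v]
    have e1 := hper.intervalIntegral_add_eq (0 - v) (-k)
    rw [show L - v = 0 - v + L by ring, e1, ← intervalIntegral.integral_add_adjacent_intervals
      (b := k) (hcc.intervalIntegrable _ _) (hcc.intervalIntegrable _ _)]
    have e2 : ∫ s in k..(-k + L), c s = 0 := by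
      rw [intervalIntegral.integral_congr (g := fun _ => 0)]
      · simp
      · intro u hu
        rw [uIcc_of_le (by linarith)] at hu
        simp only [hcdef]
        rw [hker.flat u hu.1 (by linarith [hu.2]), show Real.pi * (1 / 2) = Real.pi / 2 by ring,
          Real.cos_pi_div_two]
        simp
    have e3 : ∫ s in (-k)..k, c s ≤ ∫ _s in (-k)..k, (1 / 2 : ℝ) := by
      refine intervalIntegral.integral_mono_on (by linarith) (hcc.intervalIntegrable _ _)
        (continuous_const.intervalIntegrable _ _) fun u _ => ?_
      have := Real.abs_cos_le_one (Real.pi * K u)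
      simp only [hcdef]; linarith
    rw [intervalIntegral.integral_const, smul_eq_mul] at e3
    linarith
  refine ⟨?_, fun s => Finset.sum_nonneg fun l _ => by positivity, ?_, ?_⟩
  · unfold cnt
    fun_prop
  · unfold cnt
    rw [intervalIntegral.integral_finsetSum (f := fun l s => c (s - t l))
      (fun l _ => (hcc.comp (continuous_id.sub continuous_const)).intervalIntegrable _ _)]
    refine (Finset.sum_le_sum fun l _ => hint (t l)).trans ?_
    simp
  · intro ht s hs
    classical
    have hex : ∃ m : ℕ, m = n ∨ ∃ h : m < n, s ≤ t ⟨m, h⟩ := ⟨n, Or.inl rfl⟩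
    have hjn : Nat.find hex ≤ n := Nat.find_min' hex (Or.inl rfl)
    refine ⟨⟨Nat.find hex, by omega⟩, fun p hp hstep => ?_⟩
    have t1 := tele p (Nat.find hex) (by omega)
    have t2 := tele p n (by omega)
    have t3 : ∑ l : Fin n, (p l.succ - p l.castSucc) = 0 := by
      have : p ⟨n, by omega⟩ = p 0 := hp
      rw [this, sub_self] at t2
      rw [← t2]
      exact Finset.sum_congr rfl fun l _ => by rw [if_pos l.2]
    have e : lin K 1 p s t - p ⟨Nat.find hex, by omega⟩ = ∑ l : Fin n, (p l.succ - p l.castSucc) *
        (K (s - t l) - (if l.val < Nat.find hex then 1 / 2 else -(1 / 2))) := by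
      have e1 : ∀ l : Fin n, (p l.succ - p l.castSucc) *
          (K (s - t l) - (if l.val < Nat.find hex then 1 / 2 else -(1 / 2))) =
          (p l.succ - p l.castSucc) * K (s - t l) -
            (if l.val < Nat.find hex then p l.succ - p l.castSucc else 0) +
            1 / 2 * (p l.succ - p l.castSucc) := by
        intro l; split_ifs <;> ring
      simp only [e1]
      rw [Finset.sum_add_distrib, Finset.sum_sub_distrib, ← Finset.mul_sum, t1, t3]
      unfold lin; ring
    rw [e]
    refine (Finset.abs_sum_le_sum_abs _ _).trans (Finset.sum_le_sum fun l _ => ?_)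
    rw [abs_mul]
    refine le_trans (mul_le_of_le_one_left (abs_nonneg _) (hstep l)) ?_
    have hl := ht.1 l
    split_ifs with h
    · have h1 : t l < s := by
        have := Nat.find_min hex h
        push Not at this
        exact this.2 l.2
      have a1 : 0 ≤ K (s - t l) := h0 ▸ hmono (by linarith)
      have a2 : K (s - t l) ≤ 1 := hL1 ▸ hmono (by linarith [hl.1, hs.2])
      have := jordan (K (s - t l) - 1 / 2) (by rw [abs_le]; constructor <;> linarith)
      rwa [mul_sub, show Real.pi * (1 / 2) = Real.pi / 2 by ring, Real.sin_sub_pi_div_two,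
        abs_neg] at this
    · have h1 : s ≤ t l := by
        rcases Nat.find_spec hex with h2 | ⟨h2, h3⟩
        · exact absurd (lt_of_lt_of_eq l.2 h2.symm) h
        · exact h3.trans (ht.2 (by rw [Fin.le_def]; simpa using not_lt.mp h))
      have a1 : K (s - t l) ≤ 0 := h0 ▸ hmono (by linarith)
      have a2 : -1 ≤ K (s - t l) := hLn ▸ hmono (by linarith [hl.2, hs.1])
      have := jordan (K (s - t l) + 1 / 2) (by rw [abs_le]; constructor <;> linarith)
      rw [mul_add, show Real.pi * (1 / 2) = Real.pi / 2 by ring, Real.sin_add_pi_div_two] at this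
      rwa [sub_neg_eq_add]

end Crest.Agent.R192B
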