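import Crest.Agent.R192B.D2

set_option autoImplicit false

open MeasureTheory Set

namespace Crest.Agent.R192B

theorem sinl_jordan (u : ℝ) (h0 : 9 / 400 ≤ u) (h1 : u ≤ 391 / 400) :
    9 / 200 ≤ Real.sin (Real.pi * u) := by
  have hpi := Real.pi_pos
  rcases le_total u (1 / 2) with h | h
  · have h2 := Real.mul_le_sin (x := Real.pi * u) (by positivity) (by nlinarith)
    have h3 : 2 / Real.pi * (Real.pi * u) = 2 * u := by field_simp
    linarith
  · have h4 : 0 ≤ 1 - u := by linarith
    have h2 := Real.mul_le_sin (x := Real.pi * (1 - u)) (by positivity) (by nlinarith)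
    have h3 : 2 / Real.pi * (Real.pi * (1 - u)) = 2 * (1 - u) := by field_simp
    have h5 : Real.sin (Real.pi * (1 - u)) = Real.sin (Real.pi * u) := by
      rw [mul_sub, mul_one, Real.sin_pi_sub]
    linarith

theorem sinl : SINLStmt := by
  intro L Y hL hY hb hint
  have hpi := Real.pi_pos
  set a : ℝ := 9 / 400 * L with ha
  set b : ℝ := 391 / 400 * L with hbdef
  have hc : Continuous fun r => Real.sin (Real.pi * r / L) * Y r := by fun_prop
  have hsplit : ∀ F : ℝ → ℝ, Continuous F → (∫ r in (0 : ℝ)..L, F r) =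
      (∫ r in (0 : ℝ)..a, F r) + (∫ r in a..b, F r) + ∫ r in b..L, F r := by
    intro F hF
    rw [intervalIntegral.integral_add_adjacent_intervals (hF.intervalIntegrable _ _)
      (hF.intervalIntegrable _ _), intervalIntegral.integral_add_adjacent_intervals
      (hF.intervalIntegrable _ _) (hF.intervalIntegrable _ _)]
  have h0a : 0 ≤ a := by positivity
  have hab : a ≤ b := by rw [ha, hbdef]; linarith
  have hbL : b ≤ L := by rw [hbdef]; linarith
  have hsin : ∀ r, 0 ≤ r → r ≤ L → 0 ≤ Real.sin (Real.pi * r / L) * Y r := by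
    intro r h0 h1
    refine mul_nonneg (Real.sin_nonneg_of_nonneg_of_le_pi (by positivity) ?_) (hb r).1
    rw [div_le_iff₀ hL]; nlinarith
  have i1 : 0 ≤ ∫ r in (0 : ℝ)..a, Real.sin (Real.pi * r / L) * Y r :=
    intervalIntegral.integral_nonneg h0a fun r hr => hsin r hr.1 (by linarith [hr.2])
  have i3 : 0 ≤ ∫ r in b..L, Real.sin (Real.pi * r / L) * Y r :=
    intervalIntegral.integral_nonneg hbL fun r hr => hsin r (by linarith [hr.1]) hr.2
  have i2 : (∫ r in a..b, 9 / 200 * Y r) ≤ ∫ r in a..b, Real.sin (Real.pi * r / L) * Y r := by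
    refine intervalIntegral.integral_mono_on hab
      ((continuous_const.mul hY).intervalIntegrable _ _) (hc.intervalIntegrable _ _) ?_
    intro r hr
    refine mul_le_mul_of_nonneg_right ?_ (hb r).1
    rw [mul_div_assoc]
    refine sinl_jordan _ ?_ ?_
    · rw [le_div_iff₀ hL]; exact hr.1
    · rw [div_le_iff₀ hL]; exact hr.2
  rw [intervalIntegral.integral_const_mul] at i2
  have j1 : (∫ r in (0 : ℝ)..a, Y r) ≤ ∫ _ in (0 : ℝ)..a, (1 : ℝ) :=
    intervalIntegral.integral_mono_on h0a (hY.intervalIntegrable _ _)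
      (continuous_const.intervalIntegrable _ _) fun r _ => (hb r).2
  have j3 : (∫ r in b..L, Y r) ≤ ∫ _ in b..L, (1 : ℝ) :=
    intervalIntegral.integral_mono_on hbL (hY.intervalIntegrable _ _)
      (continuous_const.intervalIntegrable _ _) fun r _ => (hb r).2
  simp only [intervalIntegral.integral_const, smul_eq_mul, mul_one, sub_zero] at j1 j3
  rw [hsplit Y hY] at hint
  rw [hsplit _ hc]
  linarith

end Crest.Agent.R192B
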