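import Crest.Agent.R192B.D2

/-! Row 192: task STAT (closure properties of `IsStat`). -/

set_option autoImplicit false

open MeasureTheory Set
open scoped ContDiff

namespace Crest.Agent.R192B
namespace STAT

theorem sa_val {n : ℕ} (a : Fin (n + 1)) (j : Fin n) :
    (a.succAbove j).val = if j.val < a.val then j.val else j.val + 1 := by
  unfold Fin.succAbove
  by_cases h : j.val < a.val
  · rw [if_pos h, if_pos (by simpa [Fin.lt_def] using h)]; rfl
  · rw [if_neg h, if_neg (by simpa [Fin.lt_def] using h)]; rfl

theorem lin_coll (K : ℝ → ℝ) (c0 : ℝ) {n : ℕ} (p : Fin (n + 2) → ℝ) (i : Fin n) (s : ℝ)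
    (t : Fin n → ℝ) : lin K c0 (mer i p) s t = lin K c0 p s (dup i t) := by
  unfold lin
  have h0 : mer i p 0 = p 0 := by
    unfold mer
    congr 1
  rw [h0, Fin.sum_univ_succAbove _ i.castSucc]
  congr 1
  have e1 : dup i t i.castSucc = t i := by
    unfold dup
    rw [Fin.predAbove_castSucc_self]
  have e2 : ∀ m, dup i t (i.castSucc.succAbove m) = t m := by
    intro m
    unfold dup
    rw [Fin.predAbove_succAbove]
  simp only [e1, e2]
  have e3 : (p i.castSucc.succ - p i.castSucc.castSucc) * K (s - t i) =
      ∑ m : Fin n, if m = i then (p i.castSucc.succ - p i.castSucc.castSucc) * K (s - t m) else 0 := by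
    rw [Finset.sum_ite_eq' Finset.univ i]
    simp
  rw [e3, ← Finset.sum_add_distrib]
  apply Finset.sum_congr rfl
  intro m _
  have a1 : mer i p m.succ = p (i.castSucc.succAbove m).succ := by
    unfold mer
    congr 1
    apply Fin.ext
    simp only [sa_val, Fin.val_succ, Fin.val_castSucc]
    split_ifs <;> omega
  rw [a1]
  by_cases h : m = i
  · subst h
    rw [if_pos rfl]
    have a2 : mer m p m.castSucc = p m.castSucc.castSucc := by
      unfold mer
      congr 1
      apply Fin.ext
      simp only [sa_val, Fin.val_succ, Fin.val_castSucc]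
      split_ifs <;> omega
    have a3 : p (m.castSucc.succAbove m).castSucc = p m.castSucc.succ := by
      congr 1
      apply Fin.ext
      simp only [sa_val, Fin.val_succ, Fin.val_castSucc]
      split_ifs <;> omega
    rw [a2, a3]
    ring
  · rw [if_neg h, zero_add]
    have hne : m.val ≠ i.val := fun h' => h (Fin.ext h')
    have a2 : mer i p m.castSucc = p (i.castSucc.succAbove m).castSucc := by
      unfold mer
      congr 1
      apply Fin.ext
      simp only [sa_val, Fin.val_succ, Fin.val_castSucc]
      split_ifs <;> omega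
    rw [a2]

theorem lin_rot (K : ℝ → ℝ) (c0 L : ℝ) (hK : ∀ u, K (u + L) = K u + c0) {n : ℕ}
    (p p' : Fin (n + 2) → ℝ) (h0 : p' 0 = p (Fin.last n).castSucc)
    (hs : ∀ j : Fin (n + 1), p' j.succ = p j.castSucc) (hc : p (Fin.last (n + 1)) = p 0)
    (s : ℝ) (t : Fin (n + 1) → ℝ) : lin K c0 p' s (rotT L t) = lin K c0 p s t := by
  unfold lin
  rw [Fin.sum_univ_succ, Fin.sum_univ_castSucc (n := n)]
  have e1 : rotT L t 0 = t (Fin.last n) - L := by simp [rotT]
  have e2 : ∀ j : Fin n, rotT L t j.succ = t j.castSucc := by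
    intro j; simp [rotT, Fin.init]
  have e3 : ∀ j : Fin n, p' j.succ.castSucc = p j.castSucc.castSucc := by
    intro j
    rw [← hs]; rfl
  have e4 : ∀ j : Fin n, p j.succ.castSucc = p j.castSucc.succ := fun j => rfl
  have e5 : s - (t (Fin.last n) - L) = s - t (Fin.last n) + L := by ring
  have e6 : p' (0 : Fin (n + 1)).castSucc = p (Fin.last n).castSucc := h0
  have e7 : p (0 : Fin (n + 1)).castSucc = p 0 := rfl
  have e8 : p (Fin.last n).succ = p 0 := hc
  simp only [e1, e2, e3, hs, e4, e5, hK, e6, e7, e8, h0]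
  ring

end STAT

open STAT in
theorem stat : PARStmt → LINStmt → STATStmt := by
  intro hP hL G _ g L
  refine ⟨?_, ?_, ?_, ?_, ?_, ?_, ?_⟩
  · intro K c0 F hK hper hF
    refine ⟨fun n y => ((hL n K hK).1 c0 _).1, fun n y => ((hL n K hK).1 c0 _).2.1, ?_, ?_, ?_⟩
    · intro n y hy
      refine ((hL n K hK).1 c0 _).2.2.2.1 L hper ?_
      show F (y (Fin.last n)) = F (y 0)
      rw [hy, hF]
    · intro n y i s t
      exact lin_coll K c0 (fun j => F (y j)) i s t
    · intro n y hy s t
      refine lin_rot K c0 L hper (fun j => F (y j)) (fun j => F (rotY g y j)) ?_ ?_ ?_ s t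
      · show F (rotY g y 0) = F (y (Fin.last n).castSucc)
        have : rotY g y 0 = g⁻¹ * y (Fin.last n).castSucc := by simp [rotY]
        rw [this, ← hF, mul_inv_cancel_left]
      · intro j
        show F (rotY g y j.succ) = F (y j.castSucc)
        have : rotY g y j.succ = y j.castSucc := by simp [rotY, Fin.init]
        rw [this]
      · show F (y (Fin.last (n + 1))) = F (y 0)
        rw [hy, hF]
  · intro c
    exact ⟨fun _ _ => contDiff_const, fun _ _ _ _ _ => rfl, fun _ _ _ _ _ => rfl,
      fun _ _ _ _ _ => rfl, fun _ _ _ _ _ => rfl⟩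
  · intro u v hu hv
    refine ⟨⟨fun n y => ContDiff.add (hu.sm n y) (hv.sm n y), ?_, ?_, ?_, ?_⟩,
      ⟨fun n y => ContDiff.sub (hu.sm n y) (hv.sm n y), ?_, ?_, ?_, ?_⟩,
      ⟨fun n y => ContDiff.mul (hu.sm n y) (hv.sm n y), ?_, ?_, ?_, ?_⟩⟩
    all_goals first
      | (intro n y s t c; simp only [hu.cov n y s t c, hv.cov n y s t c]; done)
      | (intro n y hy s t; simp only [hu.per n y hy s t, hv.per n y hy s t]; done)
      | (intro n y i s t; simp only [hu.coll n y i s t, hv.coll n y i s t]; done)
      | (intro n y hy s t; simp only [hu.rot n y hy s t, hv.rot n y hy s t]; done)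
  · intro u φ hu hφ
    refine ⟨fun n y => hφ.comp (hu.sm n y), ?_, ?_, ?_, ?_⟩
    · intro n y s t c; simp only [hu.cov n y s t c]
    · intro n y hy s t; simp only [hu.per n y hy s t]
    · intro n y i s t; simp only [hu.coll n y i s t]
    · intro n y hy s t; simp only [hu.rot n y hy s t]
  · intro u hu hne
    refine ⟨fun n y => ContDiff.inv (hu.sm n y) (fun p => hne n y p.2 p.1), ?_, ?_, ?_, ?_⟩
    · intro n y s t c; simp only [hu.cov n y s t c]
    · intro n y hy s t; simp only [hu.per n y hy s t]
    · intro n y i s t; simp only [hu.coll n y i s t]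
    · intro n y hy s t; simp only [hu.rot n y hy s t]
  · intro ι u hu hB
    refine ⟨?_, ?_, ?_, ?_, ?_⟩
    · intro n y
      obtain ⟨B, hB⟩ := hB n y
      have e : (fun p : (Fin n → ℝ) × ℝ => ∑ᶠ z, u z n y p.2 p.1) =
          fun p => ∑ z ∈ B, u z n y p.2 p.1 := by
        funext p
        apply finsum_eq_sum_of_support_subset
        intro z hz
        by_contra h
        exact hz (hB z h _ _)
      show ContDiff ℝ ∞ (fun p : (Fin n → ℝ) × ℝ => ∑ᶠ z, u z n y p.2 p.1)
      rw [e]
      exact ContDiff.sum fun z _ => (hu z).sm n y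
    · intro n y s t c; exact finsum_congr fun z => (hu z).cov n y s t c
    · intro n y hy s t; exact finsum_congr fun z => (hu z).per n y hy s t
    · intro n y i s t; exact finsum_congr fun z => (hu z).coll n y i s t
    · intro n y hy s t; exact finsum_congr fun z => (hu z).rot n y hy s t
  · intro u hu
    refine ⟨?_, ?_, ?_, ?_, ?_⟩
    · intro n y
      refine (hP ((Fin n → ℝ) × ℝ)
        (fun p r => Real.cos (Real.pi * r / L) * u n y (p.2 - r) p.1) 0 L ?_).1
      apply ContDiff.mul
      · exact Real.contDiff_cos.comp ((contDiff_const.mul contDiff_snd).div_const L)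
      · exact ContDiff.comp (g := fun p : (Fin n → ℝ) × ℝ => u n y p.2 p.1)
          (f := fun q : ((Fin n → ℝ) × ℝ) × ℝ => (q.1.1, q.1.2 - q.2)) (hu.sm n y)
          (contDiff_fst.fst.prodMk (contDiff_fst.snd.sub contDiff_snd))
    · intro n y s t c
      unfold lag
      congr 1
      funext r
      rw [show s + c - r = s - r + c by ring, hu.cov n y]
    · intro n y hy s t
      unfold lag
      congr 1
      funext r
      rw [show s + L - r = s - r + L by ring, hu.per n y hy]
    · intro n y i s t
      unfold lag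
      simp only [hu.coll n y i]
    · intro n y hy s t
      unfold lag
      simp only [hu.rot n y hy]

end Crest.Agent.R192B
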