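import Crest.Agent.R192B.D2

/-! Row 192, task UFG. -/

set_option autoImplicit false

open MeasureTheory Set Finset
open scoped ContDiff

namespace Crest.Agent.R192B
namespace UFG

theorem psi_nonneg (β X v : ℝ) : 0 ≤ psiF β X v :=
  mul_nonneg (Real.exp_pos _).le (Real.smoothTransition.nonneg _)

theorem psi_zero (β : ℝ) {X v : ℝ} (h : X ≤ v) : psiF β X v = 0 := by
  unfold psiF
  rw [show ST (X - v) = 0 from Real.smoothTransition.zero_of_nonpos (by linarith), mul_zero]

theorem psi_smooth (β X : ℝ) : ContDiff ℝ ∞ (psiF β X) := by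
  unfold psiF
  exact (Real.contDiff_exp.comp (contDiff_const.mul contDiff_id)).mul
    (Real.smoothTransition.contDiff.comp (contDiff_const.sub contDiff_id))

theorem ST_hasDeriv (x : ℝ) : HasDerivAt ST (deriv ST x) x :=
  ((Real.smoothTransition.contDiff (n := 1)).differentiable one_ne_zero x).hasDerivAt

noncomputable def dpsi (β X v : ℝ) : ℝ :=
  Real.exp (-β * v) * -β * ST (X - v) + Real.exp (-β * v) * (deriv ST (X - v) * -1)

theorem psi_hasDeriv (β X v : ℝ) : HasDerivAt (psiF β X) (dpsi β X v) v := by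
  have h1 : HasDerivAt (fun v => Real.exp (-β * v)) (Real.exp (-β * v) * -β) v := by
    simpa using ((hasDerivAt_id v).const_mul (-β)).exp
  have h2 : HasDerivAt (fun v => ST (X - v)) (deriv ST (X - v) * -1) v :=
    (ST_hasDeriv (X - v)).comp v ((hasDerivAt_id v).const_sub X)
  exact h1.mul h2

theorem dpsi_le (hCS : CSStmt) {β : ℝ} (hβ : 0 ≤ β) (X v : ℝ) :
    |dpsi β X v| ≤ β * psiF β X v + if v ≤ X then cS * Real.exp (-β * (X - 1)) else 0 := by
  obtain ⟨h1, h2, h3, h4⟩ := hCS
  have he := Real.exp_pos (-β * v)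
  have hS := Real.smoothTransition.nonneg (X - v)
  refine (abs_add_le _ _).trans (add_le_add (le_of_eq ?_) ?_)
  · unfold psiF
    rw [abs_mul, abs_mul, abs_of_pos he, abs_neg, abs_of_nonneg hβ, abs_of_nonneg hS]; ring
  · rw [abs_mul, abs_mul, abs_of_pos he, abs_neg, abs_one, mul_one]
    split_ifs with h
    · by_cases h5 : 1 ≤ X - v
      · rw [h4 _ h5, abs_zero, mul_zero]; positivity
      · rw [mul_comm]
        refine mul_le_mul (h2 _) (Real.exp_le_exp.2 ?_) he.le (by linarith)
        nlinarith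
    · rw [h3 _ (by linarith), abs_zero, mul_zero]

end UFG

open UFG

theorem ufg (hCS : CSStmt) (hF : FRMDStmt) (hD : DFAStmt) : UFGStmt := by
  classical
  intro Z d M D n X f f' B t hP hP' hX hXD
  set β : ℝ := 4 * M with hβ
  have hβ0 : 0 ≤ β := by positivity
  have hX5 : (5 : ℝ) ≤ X := by exact_mod_cast hX
  have hX0 : (0 : ℝ) < X := by linarith
  have hXD' : 2 * (X : ℝ) < D := by exact_mod_cast hXD
  set ε := Real.exp (-β * X / 5) with hε
  have hε0 : 0 < ε := Real.exp_pos _
  have hout : ∀ z, z ∉ B → ∀ s t', psiF β X (f z s t') = 0 := fun z hz s t' =>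
    psi_zero β (by rw [hP.out z hz]; linarith)
  have hfin : ∀ s t', ∑ᶠ z', psiF β X (f z' s t') = ∑ z' ∈ B, psiF β X (f z' s t') := by
    intro s t'
    refine finsum_eq_sum_of_support_subset _ fun z hz => ?_
    by_contra h
    exact hz (hout z h s t')
  have hU : ∀ z s t', UF β X f f' z s t' = psiF β X (f z s t') * ST (f' z s t' / X - 2) *
      ((∑ z' ∈ B, psiF β X (f z' s t')) + ε)⁻¹ := fun z s t' => by
    simp only [UF, hfin, hε]
  have hZ0 : ∀ s t', 0 ≤ ∑ z' ∈ B, psiF β X (f z' s t') := fun s t' =>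
    sum_nonneg fun z _ => psi_nonneg _ _ _
  have hZp : ∀ s t', 0 < (∑ z' ∈ B, psiF β X (f z' s t')) + ε := fun s t' =>
    add_pos_of_nonneg_of_pos (hZ0 s t') hε0
  have hZW : ∀ s t', (∑ z' ∈ B, psiF β X (f z' s t')) *
      ((∑ z' ∈ B, psiF β X (f z' s t')) + ε)⁻¹ ≤ 1 := fun s t' => by
    rw [← div_eq_mul_inv, div_le_one (hZp s t')]; linarith
  refine ⟨fun z => ?_, fun z hz s t' => ?_, fun z s t' => ?_, fun s t' => ?_,
    fun z s t' h => ?_, fun s h1 h2 => ?_, fun T s α α' hα hα' h1 h2 => ?_⟩
  · unfold Sm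
    simp only [hU]
    refine (((psi_smooth β X).comp (hP.sm z)).mul (Real.smoothTransition.contDiff.comp
      (((hP'.sm z).div_const _).sub contDiff_const))).mul (ContDiff.inv ?_ fun p => (hZp _ _).ne')
    exact (ContDiff.sum fun z' _ => (psi_smooth β X).comp (hP.sm z')).add contDiff_const
  · rw [hU, hout z hz, zero_mul, zero_mul]
  · rw [hU]
    exact mul_nonneg (mul_nonneg (psi_nonneg _ _ _) (Real.smoothTransition.nonneg _))
      (inv_nonneg.2 (hZp s t').le)
  · simp only [hU]
    refine le_trans ?_ (hZW s t')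
    rw [sum_mul]
    refine sum_le_sum fun z _ => mul_le_mul_of_nonneg_right ?_ (inv_nonneg.2 (hZp s t').le)
    exact mul_le_of_le_one_right (psi_nonneg _ _ _) (Real.smoothTransition.le_one _)
  · rw [hU] at h
    have h1 : f z s t' < X := by
      by_contra h1
      exact h (by rw [psi_zero β (not_lt.1 h1), zero_mul, zero_mul])
    have h2 : 0 < f' z s t' / X - 2 := by
      by_contra h2
      exact h (by rw [show ST (f' z s t' / X - 2) = 0 from
        Real.smoothTransition.zero_of_nonpos (not_lt.1 h2), mul_zero, zero_mul])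
    rw [sub_pos, lt_div_iff₀ hX0] at h2
    linarith
  · obtain ⟨z, hz⟩ := h1
    have hzB : z ∈ B := by
      by_contra h
      rw [hP.out z h] at hz
      linarith
    have h3 : ε ≤ psiF β X (f z s t) := by
      unfold psiF
      rw [show ST (X - f z s t) = 1 from Real.smoothTransition.one_of_one_le (by linarith), mul_one]
      exact Real.exp_le_exp.2 (by nlinarith)
    have h4 : ε ≤ ∑ z' ∈ B, psiF β X (f z' s t) :=
      h3.trans (single_le_sum (f := fun z' => psiF β X (f z' s t)) (fun z _ => psi_nonneg _ _ _) hzB)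
    have h5 : ∀ z, ST (f' z s t / X - 2) = 1 := fun z =>
      Real.smoothTransition.one_of_one_le (by
        have := h2 z
        rw [le_sub_iff_add_le, le_div_iff₀ hX0]; linarith)
    simp only [hU, h5, mul_one]
    rw [← sum_mul, ← div_eq_mul_inv, le_div_iff₀ (hZp s t)]
    linarith
  · obtain ⟨-, -, -, -, -, -, -, hnT⟩ := hD n
    obtain ⟨-, -, hadd, hsmul, hsum, -, -⟩ := hnT T
    have hd : ∀ z, HasFDerivAt (f z s) (fderiv ℝ (f z s) t) t := fun z =>
      ((((hF n).1 _ (hP.sm z) t).2.2.1 s).differentiable (by simp) t).hasFDerivAt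
    have hd' : ∀ z, HasFDerivAt (f' z s) (fderiv ℝ (f' z s) t) t := fun z =>
      ((((hF n).1 _ (hP'.sm z) t).2.2.1 s).differentiable (by simp) t).hasFDerivAt
    set Zs := ∑ z' ∈ B, psiF β X (f z' s t) with hZs
    set W := (Zs + ε)⁻¹ with hW
    have hW0 : 0 ≤ W := inv_nonneg.2 (hZp s t).le
    have hψ : ∀ z, HasFDerivAt (fun t' => psiF β X (f z s t'))
        (dpsi β X (f z s t) • fderiv ℝ (f z s) t) t := fun z =>
      (psi_hasDeriv β X _).comp_hasFDerivAt t (hd z)
    have hσ : ∀ z, HasFDerivAt (fun t' => ST (f' z s t' / X - 2))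
        ((deriv ST (f' z s t / X - 2) * (1 / X)) • fderiv ℝ (f' z s) t) t := fun z => by
      have h3 : HasDerivAt (fun v : ℝ => ST (v / X - 2))
          (deriv ST (f' z s t / X - 2) * (1 / X)) (f' z s t) :=
        (ST_hasDeriv _).comp (f' z s t) (((hasDerivAt_id (f' z s t)).div_const (X : ℝ)).sub_const 2)
      exact h3.comp_hasFDerivAt t (hd' z)
    have hinv : HasFDerivAt (fun t' => ((∑ z' ∈ B, psiF β X (f z' s t')) + ε)⁻¹)
        ((-((Zs + ε) ^ 2)⁻¹) • ∑ z' ∈ B, dpsi β X (f z' s t) • fderiv ℝ (f z' s) t) t := by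
      have h3 : HasFDerivAt (fun t' => (∑ z' ∈ B, psiF β X (f z' s t')) + ε)
          (∑ z' ∈ B, dpsi β X (f z' s t) • fderiv ℝ (f z' s) t) t :=
        (HasFDerivAt.fun_sum fun z' _ => hψ z').add_const ε
      exact (hasDerivAt_inv (hZp s t).ne').comp_hasFDerivAt t h3
    have hgr : ∀ z, gr (UF β X f f' z) s t =
        ((W * ST (f' z s t / X - 2) * dpsi β X (f z s t)) • gr (f z) s t +
          (W * psiF β X (f z s t) * (deriv ST (f' z s t / X - 2) * (1 / X))) • gr (f' z) s t) +
          (-(psiF β X (f z s t) * ST (f' z s t / X - 2) * W ^ 2)) •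
            ∑ z' ∈ B, dpsi β X (f z' s t) • gr (f z') s t := by
      intro z
      have h3 : UF β X f f' z s = fun t' => psiF β X (f z s t') * ST (f' z s t' / X - 2) *
          ((∑ z' ∈ B, psiF β X (f z' s t')) + ε)⁻¹ := funext (hU z s)
      have h4 := (((hψ z).fun_mul (hσ z)).fun_mul hinv).fderiv
      funext l
      simp only [gr, h3, h4, ContinuousLinearMap.add_apply, ContinuousLinearMap.smul_apply,
        ContinuousLinearMap.sum_apply, Pi.add_apply, Pi.smul_apply, Finset.sum_apply, smul_eq_mul,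
        ← hZs, hW, inv_pow]
      ring
    set Y := ∑ z' ∈ B, |dpsi β X (f z' s t)| with hY
    have hcS : 1 ≤ cS := hCS.1
    have hcount : ((B.filter fun z => f z s t ≤ X).card : ℝ) * Real.exp (-β * (X - 1)) ≤ ε := by
      have h3 : (B.filter fun z => f z s t ≤ X).card ≤ M ^ (2 * X) := by
        rcases (B.filter fun z => f z s t ≤ X).eq_empty_or_nonempty with h | ⟨z0, hz0⟩
        · rw [h]; exact Nat.zero_le _
        · obtain ⟨B', hB', hB''⟩ := hP.met.ball z0 (2 * X) hXD
          refine le_trans (card_le_card fun z hz => hB'' z ?_) hB'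
          have h4 := hP.tri s z0 z
          have h5 := (mem_filter.1 hz0).2
          have h6 := (mem_filter.1 hz).2
          have h7 : (d z0 z : ℝ) ≤ ((2 * X : ℕ) : ℝ) := by push_cast; linarith
          exact_mod_cast h7
      have h4 : ((B.filter fun z => f z s t ≤ X).card : ℝ) ≤ Real.exp (2 * X * M) := by
        calc _ ≤ ((M ^ (2 * X) : ℕ) : ℝ) := by exact_mod_cast h3
          _ = (M : ℝ) ^ (2 * X) := by push_cast; rfl
          _ ≤ Real.exp M ^ (2 * X) :=
              pow_le_pow_left₀ (Nat.cast_nonneg _) (by linarith [Real.add_one_le_exp (M : ℝ)]) _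
          _ = _ := by rw [← Real.exp_nat_mul]; push_cast; rfl
      calc _ ≤ Real.exp (2 * X * M) * Real.exp (-β * (X - 1)) := by gcongr
        _ = Real.exp (2 * X * M + -β * (X - 1)) := (Real.exp_add _ _).symm
        _ ≤ ε := by
            refine Real.exp_le_exp.2 ?_
            have hM : (0 : ℝ) ≤ M := Nat.cast_nonneg _
            rw [hβ]
            nlinarith
    have hYle : Y ≤ (β + cS) * (Zs + ε) := by
      have h3 : Y ≤ ∑ z' ∈ B, (β * psiF β X (f z' s t) +
          if f z' s t ≤ X then cS * Real.exp (-β * (X - 1)) else 0) :=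
        sum_le_sum fun z _ => dpsi_le hCS hβ0 _ _
      rw [sum_add_distrib, ← mul_sum, ← sum_filter, sum_const, nsmul_eq_mul, ← hZs] at h3
      have h4 : ((B.filter fun z => f z s t ≤ X).card : ℝ) * (cS * Real.exp (-β * (X - 1))) ≤
          cS * ε := by
        rw [mul_left_comm]; gcongr
      have h5 := hZ0 s t
      nlinarith
    have hWY : W * Y ≤ β + cS := by
      rw [hW, ← div_eq_inv_mul, div_le_iff₀ (hZp s t)]; exact hYle
    have hY0 : 0 ≤ Y := sum_nonneg fun _ _ => abs_nonneg _
    have hin : nT T (∑ z' ∈ B, dpsi β X (f z' s t) • gr (f z') s t) ≤ Y * α := by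
      refine (hsum _ _ _).trans ?_
      rw [hY, sum_mul]
      refine sum_le_sum fun z _ => ?_
      rw [hsmul]
      exact mul_le_mul_of_nonneg_left (h1 z) (abs_nonneg _)
    have hone : ∀ z, nT T (gr (UF β X f f' z) s t) ≤
        W * α * |dpsi β X (f z s t)| + W * (cS * α') * psiF β X (f z s t) +
          W * (W * Y * α) * psiF β X (f z s t) := by
      intro z
      have hp := psi_nonneg β X (f z s t)
      have hs0 := Real.smoothTransition.nonneg (f' z s t / X - 2)
      have hs1 := Real.smoothTransition.le_one (f' z s t / X - 2)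
      rw [hgr]
      refine (hadd _ _).trans (add_le_add ((hadd _ _).trans (add_le_add ?_ ?_)) ?_)
      · rw [hsmul, abs_mul, abs_mul, abs_of_nonneg hW0, abs_of_nonneg hs0]
        calc _ ≤ W * 1 * |dpsi β X (f z s t)| * α := by
              refine mul_le_mul (by gcongr) (h1 z) (Real.sqrt_nonneg _) (by positivity)
          _ = _ := by ring
      · have h3 : |deriv ST (f' z s t / X - 2) * (1 / X)| ≤ cS := by
          rw [abs_mul]
          have h4 : |1 / (X : ℝ)| ≤ 1 := by
            rw [abs_of_pos (by positivity), div_le_one hX0]; linarith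
          calc _ ≤ cS * 1 := mul_le_mul (hCS.2.1 _) h4 (abs_nonneg _) (by linarith)
            _ = cS := mul_one _
        rw [hsmul, abs_mul, abs_mul, abs_of_nonneg hW0, abs_of_nonneg hp]
        calc _ ≤ W * psiF β X (f z s t) * cS * α' := by
              refine mul_le_mul (by gcongr) (h2 z) (Real.sqrt_nonneg _) (by positivity)
          _ = _ := by ring
      · rw [hsmul, abs_neg, abs_of_nonneg (by positivity)]
        calc _ ≤ psiF β X (f z s t) * 1 * W ^ 2 * (Y * α) := by
              refine mul_le_mul (by gcongr) hin (Real.sqrt_nonneg _) (by positivity)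
          _ = _ := by ring
    refine (sum_le_sum fun z _ => hone z).trans ?_
    rw [sum_add_distrib, sum_add_distrib, ← mul_sum, ← mul_sum, ← mul_sum, ← hY, ← hZs]
    have h3 : Zs * W ≤ 1 := hZW s t
    have h4 : W * Y * α ≤ (β + cS) * α := by gcongr
    have h5 : 0 ≤ W * Y * α := by positivity
    have h6 : W * (cS * α') * Zs ≤ cS * α' := by
      have : 0 ≤ cS * α' := by positivity
      nlinarith
    have h7 : W * (W * Y * α) * Zs ≤ W * Y * α := by nlinarith
    have h8 : (8 * M + 2 * cS) * α = 2 * ((β + cS) * α) := by rw [hβ]; ring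
    linarith

end Crest.Agent.R192B
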