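import Crest.Agent.R192B.D2

/-! Row 192, task WQG. -/

set_option autoImplicit false

open MeasureTheory Set
open scoped ContDiff

namespace Crest.Agent.R192B
namespace WQG

/-- size of the gradient -/
noncomputable def NG {n : ℕ} (T : Finset (Fin n)) (t : Fin n → ℝ) (u : (Fin n → ℝ) → ℝ) : ℝ :=
  nT T fun l => fderiv ℝ u t (ee l)

section
variable {n : ℕ} (hD : DFAStmt) (T : Finset (Fin n)) (t : Fin n → ℝ)
include hD

theorem NG_nonneg (u : (Fin n → ℝ) → ℝ) : 0 ≤ NG T t u :=
  ((hD n).2.2.2.2.2.2.2 T).2.1 _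

theorem NG_mul {u v : (Fin n → ℝ) → ℝ} (hu : DifferentiableAt ℝ u t) (hv : DifferentiableAt ℝ v t) :
    NG T t (fun t' => u t' * v t') ≤ |u t| * NG T t v + |v t| * NG T t u := by
  obtain ⟨-, -, hadd, hsm, -⟩ := (hD n).2.2.2.2.2.2.2 T
  have e : (fun l => fderiv ℝ (fun t' => u t' * v t') t (ee l)) =
      u t • (fun l => fderiv ℝ v t (ee l)) + v t • (fun l => fderiv ℝ u t (ee l)) := by
    funext l
    rw [fderiv_fun_mul hu hv]
    simp
  unfold NG
  rw [e, ← hsm, ← hsm]
  exact hadd _ _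

theorem NG_ST {u : (Fin n → ℝ) → ℝ} (hu : DifferentiableAt ℝ u t) :
    NG T t (fun t' => ST (u t')) = |deriv ST (u t)| * NG T t u := by
  obtain ⟨-, -, -, hsm, -⟩ := (hD n).2.2.2.2.2.2.2 T
  have h1 : HasDerivAt ST (deriv ST (u t)) (u t) :=
    ((Real.smoothTransition.contDiff (n := 1)).differentiable (by norm_num) _).hasDerivAt
  have h2 := (h1.comp_hasFDerivAt t hu.hasFDerivAt).fderiv
  have e : (fun l => fderiv ℝ (fun t' => ST (u t')) t (ee l)) =
      deriv ST (u t) • (fun l => fderiv ℝ u t (ee l)) := by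
    funext l
    have : (fun t' => ST (u t')) = ST ∘ u := rfl
    rw [this, h2]
    simp
  unfold NG
  rw [e, hsm]

theorem NG_csub (c : ℝ) (u : (Fin n → ℝ) → ℝ) : NG T t (fun t' => c - u t') = NG T t u := by
  obtain ⟨-, -, -, hsm, -⟩ := (hD n).2.2.2.2.2.2.2 T
  have e : (fun l => fderiv ℝ (fun t' => c - u t') t (ee l)) =
      (-1 : ℝ) • (fun l => fderiv ℝ u t (ee l)) := by
    funext l
    rw [fderiv_const_sub]
    simp
  unfold NG
  rw [e, hsm]
  simp

theorem NG_cmul (c : ℝ) {u : (Fin n → ℝ) → ℝ} (hu : DifferentiableAt ℝ u t) :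
    NG T t (fun t' => c * u t') = |c| * NG T t u := by
  obtain ⟨-, -, -, hsm, -⟩ := (hD n).2.2.2.2.2.2.2 T
  have e : (fun l => fderiv ℝ (fun t' => c * u t') t (ee l)) =
      c • (fun l => fderiv ℝ u t (ee l)) := by
    funext l
    rw [fderiv_const_mul hu]
    simp
  unfold NG
  rw [e, hsm]

theorem NG_diff (c c' a : ℝ) (ha : 0 < a) {u v : (Fin n → ℝ) → ℝ} (hu : DifferentiableAt ℝ u t)
    (hv : DifferentiableAt ℝ v t) :
    NG T t (fun t' => ((u t' - c) - (v t' - c')) / a) ≤ (NG T t u + NG T t v) / a := by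
  obtain ⟨-, -, hadd, hsm, -⟩ := (hD n).2.2.2.2.2.2.2 T
  have h1 : HasFDerivAt (fun t' => ((u t' - c) - (v t' - c')) / a)
      (a⁻¹ • (fderiv ℝ u t - fderiv ℝ v t)) t := by
    have := ((hu.hasFDerivAt.sub_const c).sub (hv.hasFDerivAt.sub_const c')).const_mul a⁻¹
    refine this.congr_of_eventuallyEq (Filter.Eventually.of_forall fun t' => ?_)
    simp [div_eq_inv_mul]
  have e : (fun l => fderiv ℝ (fun t' => ((u t' - c) - (v t' - c')) / a) t (ee l)) =
      a⁻¹ • ((fun l => fderiv ℝ u t (ee l)) + (-1 : ℝ) • (fun l => fderiv ℝ v t (ee l))) := by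
    funext l
    rw [h1.fderiv]
    simp [sub_eq_add_neg, mul_add]
  unfold NG
  rw [e, hsm, abs_of_pos (inv_pos.2 ha), div_eq_inv_mul]
  refine mul_le_mul_of_nonneg_left ((hadd _ _).trans ?_) (inv_pos.2 ha).le
  rw [hsm]
  simp

theorem NG_sum {ι : Type} (B : Finset ι) {u : ι → (Fin n → ℝ) → ℝ}
    (hu : ∀ i ∈ B, DifferentiableAt ℝ (u i) t) :
    NG T t (fun t' => ∑ i ∈ B, u i t') ≤ ∑ i ∈ B, NG T t (u i) := by
  obtain ⟨-, -, -, -, hsum, -⟩ := (hD n).2.2.2.2.2.2.2 T
  have e : (fun l => fderiv ℝ (fun t' => ∑ i ∈ B, u i t') t (ee l)) =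
      ∑ i ∈ B, (fun l => fderiv ℝ (u i) t (ee l)) := by
    funext l
    rw [fderiv_fun_sum hu]
    simp [Finset.sum_apply]
  unfold NG
  rw [e]
  exact hsum _ _ _

/-- product of two transitions -/
theorem NG_STST (hC : CSStmt) {u v : (Fin n → ℝ) → ℝ} (hu : DifferentiableAt ℝ u t)
    (hv : DifferentiableAt ℝ v t) :
    NG T t (fun t' => ST (u t') * ST (v t')) ≤ cS * (NG T t u + NG T t v) ∧
    (u t ≤ 0 ∨ v t ≤ 0 → NG T t (fun t' => ST (u t') * ST (v t')) ≤ 0) := by
  have hS : Differentiable ℝ ST :=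
    (Real.smoothTransition.contDiff (n := 1)).differentiable (by norm_num)
  have h := NG_mul hD T t (u := fun t' => ST (u t')) (v := fun t' => ST (v t'))
    ((hS _).comp t hu) ((hS _).comp t hv)
  rw [NG_ST hD T t hu, NG_ST hD T t hv] at h
  have hu0 := NG_nonneg hD T t u
  have hv0 := NG_nonneg hD T t v
  have hb : ∀ y, |ST y| ≤ 1 := fun y => by
    rw [abs_of_nonneg (Real.smoothTransition.nonneg y)]; exact Real.smoothTransition.le_one y
  refine ⟨h.trans ?_, ?_⟩
  · have e1 : |ST (u t)| * (|deriv ST (v t)| * NG T t v) ≤ 1 * (cS * NG T t v) :=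
      mul_le_mul (hb _) (mul_le_mul_of_nonneg_right (hC.2.1 _) hv0) (by positivity) zero_le_one
    have e2 : |ST (v t)| * (|deriv ST (u t)| * NG T t u) ≤ 1 * (cS * NG T t u) :=
      mul_le_mul (hb _) (mul_le_mul_of_nonneg_right (hC.2.1 _) hu0) (by positivity) zero_le_one
    linarith
  · rintro (h0 | h0)
    · rw [hC.2.2.1 _ h0, show ST (u t) = 0 from Real.smoothTransition.zero_of_nonpos h0] at h
      simpa using h
    · rw [hC.2.2.1 _ h0, show ST (v t) = 0 from Real.smoothTransition.zero_of_nonpos h0] at h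
      simpa using h

end

end WQG

open WQG Classical in
theorem wqg : CSStmt → FRMDStmt → DFAStmt → WQGStmt := by
  intro hC hF hD Z d M D n X J m a E f B t hP ha ha1 ham hXD
  have hXD' : 2 * (X : ℝ) + 2 ≤ D := by exact_mod_cast hXD
  have hX0 : (0 : ℝ) ≤ X := Nat.cast_nonneg X
  have hw : ∀ x s t', wQ d X J a E f x s t' = (if GoodQ d X J a E x then 1 else 0) *
      (ST (X + 1 - f x s t') * ST (1 - ∑ x' ∈ B, ST (2 * X + 2 - f x' s t') *
        ST (((f x s t' - a * ((E x : ℕ) : ℝ)) - (f x' s t' - a * ((E x' : ℕ) : ℝ))) / a))) := by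
    intro x s t'
    unfold wQ
    rw [finsum_eq_sum_of_support_subset (s := B), mul_assoc]
    intro x' hx'
    by_contra hB
    apply hx'
    beta_reduce
    rw [hP.out x' hB, show ST (2 * X + 2 - D) = 0 from
      Real.smoothTransition.zero_of_nonpos (by linarith), zero_mul]
  have hzero : ∀ x s t', (X : ℝ) + 1 ≤ f x s t' → wQ d X J a E f x s t' = 0 := by
    intro x s t' h
    rw [hw, show ST (X + 1 - f x s t') = 0 from
      Real.smoothTransition.zero_of_nonpos (by linarith), zero_mul, mul_zero]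
  refine ⟨?_, ?_, ?_, ?_, ?_, hzero, ?_, ?_⟩
  · intro x
    have hS : ContDiff ℝ ∞ ST := Real.smoothTransition.contDiff
    have hf : ∀ z, ContDiff ℝ ∞ (fun p : (Fin n → ℝ) × ℝ => f z p.2 p.1) := hP.sm
    unfold Sm
    simp only [hw]
    refine contDiff_const.mul ((hS.comp (contDiff_const.sub (hf x))).mul
      (hS.comp (contDiff_const.sub (ContDiff.sum fun x' _ =>
        (hS.comp (contDiff_const.sub (hf x'))).mul (hS.comp
          ((((hf x).sub contDiff_const).sub ((hf x').sub contDiff_const)).div_const a))))))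
  · intro x hx s t'
    exact hzero x s t' (by rw [hP.out x hx]; linarith)
  · intro x s t'
    rw [hw]
    split_ifs
    · rw [one_mul]
      exact ⟨mul_nonneg (Real.smoothTransition.nonneg _) (Real.smoothTransition.nonneg _),
        mul_le_one₀ (Real.smoothTransition.le_one _) (Real.smoothTransition.nonneg _)
          (Real.smoothTransition.le_one _)⟩
    · simp
  · intro hc x s t' c
    have hc' : ∀ z, f z (s + c) (fun i => t' i + c) = f z s t' := fun z => hc z s t' c
    simp only [hw, hc']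
  · intro L hc x s t'
    have hc' : ∀ z, f z (s + L) t' = f z s t' := fun z => hc z s t'
    simp only [hw, hc']
  · intro x s t' hg hx hmin
    rw [hw, if_pos hg, Finset.sum_eq_zero, sub_zero,
      show ST (X + 1 - f x s t') = 1 from Real.smoothTransition.one_of_one_le (by linarith),
      show ST 1 = 1 from Real.smoothTransition.one_of_one_le le_rfl]
    · norm_num
    · intro x' hx'
      rw [show ST (((f x s t' - a * ((E x : ℕ) : ℝ)) - (f x' s t' - a * ((E x' : ℕ) : ℝ))) / a) = 0
        from Real.smoothTransition.zero_of_nonpos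
          (div_nonpos_of_nonpos_of_nonneg (by linarith [hmin x' hx']) ha.le), mul_zero]
  · intro T s α hα hgr
    have hS : Differentiable ℝ ST :=
      (Real.smoothTransition.contDiff (n := 1)).differentiable (by norm_num)
    have hdf : ∀ z, DifferentiableAt ℝ (f z s) t := fun z =>
      (((hF n).1 (f z) (hP.sm z) t).2.2.1 s).differentiable (by simp) t
    have hN : ∀ z, NG T t (f z s) ≤ α := hgr
    obtain ⟨ν, hν, hfν⟩ := hP.pr s
    have hcS : 1 ≤ cS := hC.1
    -- the inner terms
    obtain ⟨h, hh⟩ : ∃ h : Z → Z → (Fin n → ℝ) → ℝ, h = fun x x' t' => ST (2 * X + 2 - f x' s t') *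
        ST (((f x s t' - a * ((E x : ℕ) : ℝ)) - (f x' s t' - a * ((E x' : ℕ) : ℝ))) / a) := ⟨_, rfl⟩
    have hd1 : ∀ (c : ℝ) z, DifferentiableAt ℝ (fun t' => c - f z s t') t := fun c z =>
      (hdf z).const_sub c
    have hd2 : ∀ x x', DifferentiableAt ℝ (fun t' => ((f x s t' - a * ((E x : ℕ) : ℝ)) -
        (f x' s t' - a * ((E x' : ℕ) : ℝ))) / a) t := fun x x' => by
      simp only [div_eq_mul_inv]
      exact (((hdf x).sub_const _).sub ((hdf x').sub_const _)).mul_const _
    have hdh : ∀ x x', DifferentiableAt ℝ (h x x') t := fun x x' => by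
      rw [hh]
      exact ((hS _).comp t (hd1 _ x')).mul ((hS _).comp t (hd2 x x'))
    have hh0 : ∀ x x' t', 0 ≤ h x x' t' := fun x x' t' => by
      rw [hh]
      exact mul_nonneg (Real.smoothTransition.nonneg _) (Real.smoothTransition.nonneg _)
    have hNh : ∀ x x', NG T t (h x x') ≤ 3 * cS * α / a ∧
        (¬ (f x' s t < 2 * X + 2 ∧ f x' s t - a * ((E x' : ℕ) : ℝ) < f x s t - a * ((E x : ℕ) : ℝ)) →
          NG T t (h x x') ≤ 0) := by
      intro x x'
      obtain ⟨h1, h2⟩ := NG_STST hD T t hC (hd1 (2 * X + 2) x') (hd2 x x')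
      rw [hh]
      refine ⟨h1.trans ?_, fun hn => h2 ?_⟩
      · rw [NG_csub hD]
        have e1 := NG_diff hD T t (a * ((E x : ℕ) : ℝ)) (a * ((E x' : ℕ) : ℝ)) a ha (hdf x) (hdf x')
        have e2 : (NG T t (f x s) + NG T t (f x' s)) / a ≤ (α + α) / a :=
          div_le_div_of_nonneg_right (add_le_add (hN x) (hN x')) ha.le
        have e3 : α ≤ α / a := le_div_self hα ha ha1
        have e4 : (α + α) / a = 2 * (α / a) := by ring
        have e5 : NG T t (f x' s) + NG T t (fun t' => ((f x s t' - a * ((E x : ℕ) : ℝ)) -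
            (f x' s t' - a * ((E x' : ℕ) : ℝ))) / a) ≤ 3 * (α / a) := by linarith [hN x']
        calc _ ≤ cS * (3 * (α / a)) := mul_le_mul_of_nonneg_left e5 (by linarith)
          _ = _ := by ring
      · by_cases h3 : f x' s t < 2 * X + 2
        · right
          have h4 := not_lt.1 fun h4 => hn ⟨h3, h4⟩
          exact div_nonpos_of_nonpos_of_nonneg (by linarith) ha.le
        · left
          linarith [not_lt.1 h3]
    have hwf : ∀ x, wQ d X J a E f x s = fun t' => (if GoodQ d X J a E x then 1 else 0) *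
        (ST (X + 1 - f x s t') * ST (1 - ∑ x' ∈ B, h x x' t')) := fun x => by
      funext t'
      rw [hw, hh]
    have hd3 : ∀ x, DifferentiableAt ℝ (fun t' => 1 - ∑ x' ∈ B, h x x' t') t := fun x =>
      (DifferentiableAt.fun_sum fun x' _ => hdh x x').const_sub 1
    have hgw : ∀ x, nT T (gr (wQ d X J a E f x) s t) =
        |(if GoodQ d X J a E x then 1 else 0 : ℝ)| *
          NG T t (fun t' => ST (X + 1 - f x s t') * ST (1 - ∑ x' ∈ B, h x x' t')) := fun x => by
      have hdd : DifferentiableAt ℝ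
          (fun t' => ST (X + 1 - f x s t') * ST (1 - ∑ x' ∈ B, h x x' t')) t :=
        ((hS _).comp t (hd1 _ x)).mul ((hS _).comp t (hd3 x))
      rw [← NG_cmul hD T t _ hdd]
      change NG T t (wQ d X J a E f x s) = _
      rw [hwf]
    -- active points
    obtain ⟨Act, hAct⟩ : ∃ Act : Z → Prop, Act = fun x =>
      GoodQ d X J a E x ∧ f x s t < X + 1 ∧ ∑ x' ∈ B, h x x' t < 1 := ⟨_, rfl⟩
    have hEm : ∀ z, a * ((E z : ℕ) : ℝ) ≤ X := fun z => by
      have : ((E z : ℕ) : ℝ) ≤ m := by exact_mod_cast Nat.lt_succ_iff.1 (E z).2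
      exact (mul_le_mul_of_nonneg_left this ha.le).trans ham
    have hE0 : ∀ z, 0 ≤ a * ((E z : ℕ) : ℝ) := fun z => by positivity
    have hmin : ∀ x, Act x → ∀ x'', f x s t - a * ((E x : ℕ) : ℝ) ≤
        f x'' s t - a * ((E x'' : ℕ) : ℝ) + a := by
      intro x hx x''
      rw [hAct] at hx
      obtain ⟨-, hx1, hx2⟩ := hx
      by_cases h1 : f x'' s t ≤ 2 * X + 1
      · have hB : x'' ∈ B := by
          by_contra hB
          rw [hP.out x'' hB] at h1
          linarith
        have h2 : h x x'' t < 1 :=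
          (Finset.single_le_sum (f := fun x' => h x x' t) (fun x' _ => hh0 x x' t) hB).trans_lt hx2
        rw [hh] at h2
        simp only at h2
        rw [show ST (2 * X + 2 - f x'' s t) = 1 from
          Real.smoothTransition.one_of_one_le (by linarith), one_mul] at h2
        by_contra h3
        rw [show ST (((f x s t - a * ((E x : ℕ) : ℝ)) - (f x'' s t - a * ((E x'' : ℕ) : ℝ))) / a) = 1
          from Real.smoothTransition.one_of_one_le
            ((one_le_div ha).2 (by linarith [not_le.1 h3]))] at h2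
        exact lt_irrefl _ h2
      · linarith [not_le.1 h1, hEm x'', hE0 x]
    have hcount : ∀ x, Act x → ∀ A : Finset Z, (∀ x' ∈ A, f x' s t < 2 * X + 2 ∧ ∀ x'',
        f x' s t - a * ((E x' : ℕ) : ℝ) ≤ f x'' s t - a * ((E x'' : ℕ) : ℝ) + a) → A.card ≤ J := by
      intro x hx A hA
      rw [hAct] at hx
      obtain ⟨hg, hx1, -⟩ := hx
      refine hg ν hν (by rw [← hfν]; exact hx1.le) A fun x' hx' => ⟨?_, fun x'' _ => ?_⟩
      · have h1 := hP.tri s x x'
        have h2 := (hA x' hx').1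
        have h3 : (d x x' : ℝ) ≤ ((3 * X + 3 : ℕ) : ℝ) := by push_cast; linarith
        exact_mod_cast h3
      · rw [← hfν, ← hfν]
        exact (hA x' hx').2 x''
    have hact : ∀ x, Act x → (B.filter Act).card ≤ J := fun x hx =>
      hcount x hx _ fun x' hx' => by
        have hx'' := (Finset.mem_filter.1 hx').2
        refine ⟨?_, hmin x' hx''⟩
        rw [hAct] at hx''
        linarith [hx''.2.1]
    have hna : ∀ x, ¬ Act x → nT T (gr (wQ d X J a E f x) s t) ≤ 0 := by
      intro x hx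
      rw [hgw]
      by_cases hg : GoodQ d X J a E x
      · rw [if_pos hg, abs_one, one_mul]
        refine (NG_STST hD T t hC (hd1 _ x) (hd3 x)).2 ?_
        rw [hAct] at hx
        by_cases h1 : f x s t < X + 1
        · right
          have h2 := not_lt.1 fun h2 => hx ⟨hg, h1, h2⟩
          linarith
        · left
          linarith [not_lt.1 h1]
      · rw [if_neg hg]
        simp
    have hya : ∀ x ∈ B, Act x → nT T (gr (wQ d X J a E f x) s t) ≤ 4 * cS ^ 2 * J / a * α := by
      intro x hxB hx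
      have hg : GoodQ d X J a E x := by rw [hAct] at hx; exact hx.1
      have hJ1 : (1 : ℝ) ≤ J := by
        have : 1 ≤ J := le_trans (Finset.card_pos.2 ⟨x, Finset.mem_filter.2 ⟨hxB, hx⟩⟩) (hact x hx)
        exact_mod_cast this
      rw [hgw, if_pos hg, abs_one, one_mul]
      refine (NG_STST hD T t hC (hd1 _ x) (hd3 x)).1.trans ?_
      rw [NG_csub hD, NG_csub hD]
      have h1 := NG_sum hD T t B (u := fun x' => h x x') fun x' _ => hdh x x'
      obtain ⟨Ct, hCt⟩ : ∃ Ct : Z → Prop, Ct = fun x' => f x' s t < 2 * X + 2 ∧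
        f x' s t - a * ((E x' : ℕ) : ℝ) < f x s t - a * ((E x : ℕ) : ℝ) := ⟨_, rfl⟩
      have h2 : (B.filter Ct).card ≤ J := hcount x hx _ fun x' hx' => by
        have hx'' := (Finset.mem_filter.1 hx').2
        rw [hCt] at hx''
        exact ⟨hx''.1, fun x'' => hx''.2.le.trans (hmin x hx x'')⟩
      have h2' : ((B.filter Ct).card : ℝ) ≤ J := by exact_mod_cast h2
      have hpos : 0 ≤ 3 * cS * α / a := by positivity
      have h3 : ∑ x' ∈ B, NG T t (h x x') ≤ J * (3 * cS * α / a) := by
        rw [← Finset.sum_filter_add_sum_filter_not B Ct]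
        have e1 : ∑ x' ∈ B.filter Ct, NG T t (h x x') ≤ (B.filter Ct).card • (3 * cS * α / a) :=
          Finset.sum_le_card_nsmul _ _ _ fun x' _ => (hNh x x').1
        have e2 : ∑ x' ∈ B.filter (fun x' => ¬ Ct x'), NG T t (h x x') ≤ 0 :=
          Finset.sum_nonpos fun x' hx' => (hNh x x').2 (by
            have := (Finset.mem_filter.1 hx').2
            rwa [hCt] at this)
        rw [nsmul_eq_mul] at e1
        have e3 := mul_le_mul_of_nonneg_right h2' hpos
        linarith
      have e3 : α ≤ α / a := le_div_self hα ha ha1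
      have e4 : α / a ≤ cS * J * (α / a) :=
        le_mul_of_one_le_left (by positivity) (one_le_mul_of_one_le_of_one_le hcS hJ1)
      have e5 : J * (3 * cS * α / a) = 3 * (cS * J * (α / a)) := by ring
      have e6 : NG T t (f x s) + NG T t (fun t' => ∑ x' ∈ B, h x x' t') ≤
          4 * (cS * J * (α / a)) := by linarith [hN x]
      calc _ ≤ cS * (4 * (cS * J * (α / a))) := mul_le_mul_of_nonneg_left e6 (by linarith)
        _ = _ := by ring
    rw [← Finset.sum_filter_add_sum_filter_not B Act]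
    have e1 : ∑ x ∈ B.filter Act, nT T (gr (wQ d X J a E f x) s t) ≤
        (B.filter Act).card • (4 * cS ^ 2 * J / a * α) :=
      Finset.sum_le_card_nsmul _ _ _ fun x hx =>
        hya x (Finset.mem_filter.1 hx).1 (Finset.mem_filter.1 hx).2
    have e2 : ∑ x ∈ B.filter (fun x => ¬ Act x), nT T (gr (wQ d X J a E f x) s t) ≤ 0 :=
      Finset.sum_nonpos fun x hx => hna x (Finset.mem_filter.1 hx).2
    have e3 : (B.filter Act).card ≤ J := by
      rcases (B.filter Act).eq_empty_or_nonempty with h0 | ⟨x, hx⟩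
      · rw [h0]; simp
      · exact hact x (Finset.mem_filter.1 hx).2
    have e3' : ((B.filter Act).card : ℝ) ≤ J := by exact_mod_cast e3
    rw [nsmul_eq_mul] at e1
    have e4 := mul_le_mul_of_nonneg_right e3' (show 0 ≤ 4 * cS ^ 2 * J / a * α by positivity)
    have e5 : J * (4 * cS ^ 2 * J / a * α) = 4 * cS ^ 2 * J ^ 2 / a * α := by ring
    linarith

end Crest.Agent.R192B
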