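import Crest.Agent.R192B.Part1
import Crest.Agent.R192B.AFE
import Crest.Agent.R192B.AQE
import Crest.Agent.R192B.AQP
import Crest.Agent.R192B.AZA
import Crest.Agent.R192B.AZB
import Crest.Agent.R192B.AZE
import Crest.Agent.R192B.CELL
import Crest.Agent.R192B.DFA
import Crest.Agent.R192B.EQV
import Crest.Agent.R192B.FRMC
import Crest.Agent.R192B.FRMD
import Crest.Agent.R192B.GP2
import Crest.Agent.R192B.ISCF
import Crest.Agent.R192B.ISCQ
import Crest.Agent.R192B.ISCZ
import Crest.Agent.R192B.LIN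
import Crest.Agent.R192B.LOC
import Crest.Agent.R192B.PARAM
import Crest.Agent.R192B.POS
import Crest.Agent.R192B.PROF
import Crest.Agent.R192B.QA1
import Crest.Agent.R192B.QA2
import Crest.Agent.R192B.SHARP
import Crest.Agent.R192B.SINL
import Crest.Agent.R192B.STAT
import Crest.Agent.R192B.UFG
import Crest.Agent.R192B.WQG

namespace Crest.Agent.R192B

theorem fin_of_kin (hK : KINStmt)
    (hC : CSStmt → METStmt → GENStmt → DFAStmt → AFEStmt → AQEStmt → AZEStmt → CURVStmt) :
    FINStmt := by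
  have hFD : FRMDStmt := frmd par
  have hPR : PROFStmt := prof lin_
  have hST : STATStmt := stat par lin_
  have hFC : FRMCStmt := frmc hFD
  have hQ1 : QA1Stmt := qa1 par hFD
  have hQ2 : QA2Stmt := qa2 par hFD dfa hQ1 (db dbd) gen
  have hW : WQGStmt := wqg cs hFD dfa
  have hAF : AFEStmt := afe cs lin_ hK hFD dfa hPR (ufg cs hFD dfa)
  have hAQ : AQEStmt := aqe cs hK hFD dfa hPR hW hQ1 hQ2
  have hAP : AQPStmt := aqp lin_ hK hFD hPR hW hQ1 sinl
  have hAZ : AZEStmt := aze cs met lin_ hPR dfa gen aza (azb dfa dbd gen)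
  exact fin_of_conn (conn cs len_ (psi met zeta) met ker (env env1 env2) (gp2 mau tie) param hPR
    (iscf hK hPR hST hFC) (iscq hPR hST hFC) (iscz met hPR hST hFC aza) hFC (eqv met aza)
    (loc met hPR) (pos met hK (sharp hK) hPR hAF hAP hAZ) (hC cs met gen dfa hAF hAQ hAZ)
    (cell jw gen dfa))

end Crest.Agent.R192B
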